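import Crest.Agent.N334.AC.I.Shell
import Crest.Agent.N334.AC.Iface

-- ▼ part N334/AC/I/Step
section

/-!
# Row 334, S0520, part I (helper24): abstract step distributions on the torus; leaf statements
-/

set_option autoImplicit false
set_option linter.unusedSectionVars false

open Finset Complex
open scoped ComplexConjugate Matrix.Norms.L2Operator

namespace Crest.Agent.N334.AC.I

variable {d M : ℕ} [NeZero M]

lemma tdist_eq (x y : Tor d M) : tdist x y = nrm (x - y) := rfl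

/-- symbol of a kernel -/
noncomputable def hat (π : Tor d M → ℝ) (p : Tor d M) : ℝ := ∑ x, π x * (ch p x).re

/-- `min 1 (|p| / γ)²` -/
noncomputable def mm (γ : ℝ) (p : Tor d M) : ℝ := min 1 (((nrm p : ℝ) / (γ * M)) ^ 2)

/-- Dirichlet form of a kernel -/
noncomputable def Dir (π : Tor d M → ℝ) (ψ : Tor d M → ℝ) : ℝ :=
  (1 / 2) * ∑ a, ∑ b, π (a - b) * (ψ a - ψ b) ^ 2

/-- a symmetric step distribution of range `1/γ` -/
structure Step (π : Tor d M → ℝ) (γ c : ℝ) : Prop where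
  γ_pos : 0 < γ
  γ_le : γ ≤ 1
  c_pos : 0 < c
  c_le : c ≤ 1
  nonneg : ∀ x, 0 ≤ π x
  even : ∀ x, π (-x) = π x
  sum_one : ∑ x, π x = 1
  symb : ∀ p, |hat π p| ≤ 1 - c * mm γ p
  mom : ∑ x, π x * Real.exp (2 * (c * γ) * nrm x) ≤ 2

lemma mm_nonneg (γ : ℝ) (p : Tor d M) : 0 ≤ mm γ p := le_min zero_le_one (sq_nonneg _)

lemma mm_le_one (γ : ℝ) (p : Tor d M) : mm γ p ≤ 1 := min_le_left _ _

lemma mm_pos {γ : ℝ} (hγ : 0 < γ) {p : Tor d M} (hp : p ≠ 0) : 0 < mm γ p := by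
  have hM : (0 : ℝ) < M := Nat.cast_pos.2 (NeZero.pos M)
  have : (0 : ℝ) < nrm p := Nat.cast_pos.2 (Nat.pos_of_ne_zero (mt nrm_eq_zero.1 hp))
  exact lt_min one_pos (by positivity)

lemma fF_even {π : Tor d M → ℝ} (he : ∀ x, π (-x) = π x) (p : Tor d M) :
    fF (fun x => (π x : ℂ)) p = hat π p := by
  have h1 : fF (fun x => (π x : ℂ)) p = ∑ x, (π x : ℂ) * ch p x := by
    unfold fF
    rw [← Equiv.sum_comp (Equiv.neg _)]
    simp [he]
  have h2 : fF (fun x => (π x : ℂ)) p = ∑ x, (π x : ℂ) * conj (ch p x) := by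
    simp only [fF, conj_ch]
  have h3 : (2 : ℂ) * fF (fun x => (π x : ℂ)) p = 2 * hat π p := by
    rw [two_mul]
    nth_rw 1 [h1]
    rw [h2, ← sum_add_distrib, hat]
    push_cast
    rw [mul_sum]
    refine sum_congr rfl fun x _ => ?_
    rw [← mul_add, Complex.add_conj]; push_cast; ring
  exact mul_left_cancel₀ two_ne_zero h3

lemma fF_shift (f : Tor d M → ℂ) (u p : Tor d M) :
    fF (fun x => f (x + u)) p = fF f p * ch p u := by
  unfold fF
  rw [sum_mul, ← sum_add_right (fun x => f x * ch p (-x) * ch p u) u]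
  refine sum_congr rfl fun x _ => ?_
  rw [mul_assoc, ← ch_add]; congr 2; abel

/-- Fourier weight of a real function -/
noncomputable def wt (ψ : Tor d M → ℝ) (p : Tor d M) : ℝ := ‖fF (fun x => (ψ x : ℂ)) p‖ ^ 2

lemma wt_nonneg (ψ : Tor d M → ℝ) (p : Tor d M) : 0 ≤ wt ψ p := sq_nonneg _

lemma sum_sq_eq (ψ : Tor d M → ℝ) : ∑ x, ψ x ^ 2 = av (wt ψ) := by
  have := parseval_fF (fun x => (ψ x : ℂ))
  simp only [Complex.norm_real, Real.norm_eq_abs, sq_abs] at this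
  exact this

lemma normSq_ch_sub_one (p u : Tor d M) : ‖ch p u - 1‖ ^ 2 = 2 * (1 - (ch p u).re) := by
  have h2 : ‖ch p u‖ ^ 2 = 1 := by simp
  rw [Complex.sq_norm, Complex.normSq_apply] at h2 ⊢
  simp only [sub_re, one_re, sub_im, one_im, sub_zero]
  linear_combination h2

lemma sum_shift_sq (ψ : Tor d M → ℝ) (u : Tor d M) :
    ∑ x, (ψ (x + u) - ψ x) ^ 2 = av fun p => ‖ch p u - 1‖ ^ 2 * wt ψ p := by
  rw [sum_sq_eq]
  congr 1; funext p
  have : fF (fun x => ((ψ (x + u) - ψ x : ℝ) : ℂ)) p =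
      (ch p u - 1) * fF (fun x => (ψ x : ℂ)) p := by
    rw [sub_mul, one_mul, mul_comm, ← fF_shift (fun x => (ψ x : ℂ))]
    simp only [fF, ← sum_sub_distrib]
    refine sum_congr rfl fun x _ => ?_
    push_cast; ring
  simp only [wt, this, norm_mul, mul_pow]

lemma sum_sum_sub (F : Tor d M → Tor d M → ℝ) :
    ∑ a, ∑ b, F a b = ∑ u, ∑ x, F (x + u) x := by
  rw [sum_comm]
  conv_rhs => rw [sum_comm]
  refine sum_congr rfl fun x _ => ?_
  rw [← sum_add_right (fun a => F a x) x]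
  simp only [add_comm]

lemma Dir_eq_shift (π ψ : Tor d M → ℝ) :
    Dir π ψ = (1 / 2) * ∑ u, π u * ∑ x, (ψ (x + u) - ψ x) ^ 2 := by
  unfold Dir
  rw [sum_sum_sub]
  simp only [add_sub_cancel_left, mul_sum]

lemma Dir_eq {π : Tor d M → ℝ} (h1 : ∑ x, π x = 1) (ψ : Tor d M → ℝ) :
    Dir π ψ = av fun p => (1 - hat π p) * wt ψ p := by
  rw [Dir_eq_shift]
  simp only [sum_shift_sq, normSq_ch_sub_one, av, mul_sum]
  rw [sum_comm]
  refine sum_congr rfl fun p _ => ?_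
  rw [hat, ← h1, ← sum_sub_distrib, sum_mul, mul_sum]
  simp only [h1]
  exact sum_congr rfl fun u _ => by ring

lemma Step.Dir_nonneg {π : Tor d M → ℝ} {γ c : ℝ} (h : Step π γ c) (ψ : Tor d M → ℝ) :
    0 ≤ Dir π ψ :=
  mul_nonneg (by norm_num) (sum_nonneg fun _ _ => sum_nonneg fun _ _ =>
    mul_nonneg (h.nonneg _) (sq_nonneg _))

lemma Step.le_lam {π : Tor d M → ℝ} {γ c : ℝ} (h : Step π γ c) (p : Tor d M) :
    c * mm γ p ≤ 1 - hat π p := by
  linarith [h.symb p, le_abs_self (hat π p)]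

/-! ### leaf statements -/

/-- Poincaré inequalities -/
def PoinStmt : Prop := ∀ (d : ℕ) (c : ℝ), 0 < c → ∃ C : ℝ, 1 ≤ C ∧
  ∀ (M : ℕ) [NeZero M] (π : Tor d M → ℝ) (γ : ℝ), Step π γ c →
    (∀ (ψ : Tor d M → ℝ) (u : Tor d M),
      ∑ x, (ψ (x + u) - ψ x) ^ 2 ≤ C * (1 + (γ * nrm u) ^ 2) * Dir π ψ) ∧
    (∀ θ : ℝ, 0 < θ → θ ≤ 1 → ∑ u : Tor d M, Real.exp (-θ * nrm u) ≤ (C / θ) ^ d) ∧
    (∀ θ : ℝ, 0 < θ → θ ≤ 1 → ∀ ψ : Tor d M → ℝ,
      ∑ a, ∑ b, Real.exp (-θ * tdist a b) * (ψ a - ψ b) ^ 2 ≤ (C / θ) ^ (d + 3) * Dir π ψ)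

/-- sliding cut-offs -/
def CutStmt : Prop := ∀ (d : ℕ) (c K : ℝ), 1 ≤ d → 0 < c → 1 ≤ K → ∃ C : ℝ, 1 ≤ C ∧
  ∀ (M : ℕ) [NeZero M], 8 ≤ M → ∀ (π : Tor d M → ℝ) (γ σ μ : ℝ), Step π γ c → 0 < σ → σ ≤ 1 →
    σ ^ 2 / K ≤ γ → γ ≤ K * σ ^ 2 → σ ^ 2 / K ≤ μ → ∀ L : ℕ, 1 ≤ σ ^ 2 * L →
      ∃ χ cp, Cut (fun ψ => μ * Dir π ψ) σ C L χ cp

/-- the Hadamard square of the free resolvent -/
def RRStmt : Prop := ∀ d : ℕ, 3 ≤ d → ∃ C : ℝ, 1 ≤ C ∧ ∀ γ0 : ℝ, 0 < γ0 → ∃ M0 : ℕ,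
  ∀ (M : ℕ) [NeZero M], M0 ≤ M → ∀ z : ℂ, z.re + 2 * d ≤ 1 / 4 → γ0 ≤ z.im → z.im ≤ 1 →
    ‖(Matrix.of fun x y : Tor d M => G0 z (x - y) * G0 z (x - y))‖ ≤ C / √z.im

end Crest.Agent.N334.AC.I
end

-- ▼ part N334/AC/I/Est
section

/-!
# Row 334, S0520, part I (helper24): uniform bounds for large tori; the step distribution `γ|G0|²`
-/

set_option autoImplicit false
set_option linter.unusedSectionVars false

open Finset Complex
open scoped ComplexConjugate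

namespace Crest.Agent.N334.AC.I

theorem est {d : ℕ} (hd : 3 ≤ d) {γ0 ε : ℝ} (hγ0 : 0 < γ0) (hε : 0 < ε) : ∃ M0 : ℕ,
    ∀ (M : ℕ) [NeZero M], M0 ≤ M → ∀ z : ℂ, z.re + 2 * d ≤ 1 / 4 → γ0 ≤ z.im →
      (∀ x : Tor d M, ‖G0 z x‖ ≤ 11669) ∧ ∀ z' : ℂ, z'.re + 2 * d ≤ 1 / 4 → γ0 ≤ z'.im →
        ∀ x : Tor d M, ‖G0 z x - G0 z' x‖ ≤ 70000 * √‖z - z'‖ + ε := by
  have hd0 : (0 : ℝ) < d := by exact_mod_cast (by omega)
  set θ := min 1 (γ0 / (8 * d)) with hθ
  have hθ0 : 0 < θ := by positivity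
  have hθ1 : θ ≤ 1 := min_le_left _ _
  have hθ2 : 8 * d * θ ≤ γ0 := by
    have := min_le_right 1 (γ0 / (8 * d))
    rw [le_div_iff₀ (by positivity)] at this; linarith
  set e := min 1 ε with he
  have he0 : 0 < e := by positivity
  have he1 : e ≤ 1 := min_le_left _ _
  have he2 : e ≤ ε := min_le_right _ _
  obtain ⟨X, hX0, hX⟩ : ∃ X : ℝ, 0 ≤ X ∧ 4 * γ0⁻¹ * Real.exp (-(θ * X)) ≤ e := by
    refine ⟨4 * γ0⁻¹ / e / θ, by positivity, ?_⟩
    rw [mul_div_cancel₀ _ hθ0.ne', Real.exp_neg, ← div_eq_mul_inv, div_le_iff₀ (Real.exp_pos _)]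
    have := Real.add_one_le_exp (4 * γ0⁻¹ / e)
    have h2 : e * (4 * γ0⁻¹ / e) = 4 * γ0⁻¹ := by field_simp
    nlinarith
  refine ⟨⌈err γ0 X / e⌉₊ + 32, fun M _ hM z hr hz => ?_⟩
  have hM0 : (0 : ℝ) < M := Nat.cast_pos.2 (NeZero.pos M)
  have hM32 : 32 ≤ M := by omega
  have herr : ∀ x : Tor d M, (nrm x : ℝ) ≤ X → err γ0 (nrm x) / M ≤ e := by
    intro x hx
    have h1 : (⌈err γ0 X / e⌉₊ : ℝ) ≤ M := by exact_mod_cast (by omega)
    have h2 := (Nat.le_ceil _).trans h1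
    rw [div_le_iff₀ he0] at h2
    have h3 : err γ0 (nrm x) ≤ err γ0 X := by unfold err; gcongr
    rw [div_le_iff₀ hM0]; linarith
  have hfar : ∀ z : ℂ, γ0 ≤ z.im → ∀ x : Tor d M, X ≤ nrm x → ‖G0 z x‖ ≤ e / 2 := by
    intro z hz x hx
    refine (norm_G0_le_exp (hγ0.trans_le hz) hθ0.le hθ1 (hθ2.trans hz) x).trans ?_
    have : 2 * z.im⁻¹ * Real.exp (-(θ * nrm x)) ≤ 2 * γ0⁻¹ * Real.exp (-(θ * X)) := by gcongr
    linarith
  refine ⟨fun x => ?_, fun z' hr' hz' x => ?_⟩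
  · rcases le_total (nrm x : ℝ) X with hx | hx
    · linarith [norm_G0_near hd hM32 hγ0 hz (by linarith) x, herr x hx]
    · linarith [hfar z hz x hx]
  · rcases le_total (nrm x : ℝ) X with hx | hx
    · linarith [norm_G0_sub_near hd hM32 hγ0 hz hz' (by linarith) (by linarith) x, herr x hx]
    · linarith [hfar z hz x hx, hfar z' hz' x hx, norm_sub_le (G0 z x) (G0 z' x),
        Real.sqrt_nonneg ‖z - z'‖]

theorem four {d : ℕ} (hd : 3 ≤ d) {γ0 : ℝ} (hγ0 : 0 < γ0) : ∃ M0 : ℕ,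
    ∀ (M : ℕ) [NeZero M], M0 ≤ M → ∀ z : ℂ, z.re + 2 * d ≤ 1 / 4 → γ0 ≤ z.im → z.im ≤ 1 →
      ∑ x : Tor d M, ‖G0 z x‖ ^ 4 ≤ 10 ^ 16 / √z.im := by
  obtain ⟨M0, h⟩ := est hd hγ0 hγ0
  refine ⟨M0, fun M _ hM z hr hz hz1 => ?_⟩
  have hγ : 0 < z.im := hγ0.trans_le hz
  set a := √z.im with ha
  have ha0 : 0 < a := Real.sqrt_pos.2 hγ
  have ha2 : a ^ 2 = z.im := Real.sq_sqrt hγ.le
  have ha1 : a ≤ 1 := Real.sqrt_le_one.2 hz1
  have haγ : z.im ≤ a := by nlinarith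
  let z' : ℂ := ⟨z.re, a⟩
  obtain ⟨s1, h1⟩ := h M hM z hr hz
  obtain ⟨s2, -⟩ := h M hM z' hr (hz.trans haγ)
  have hzz : ‖z - z'‖ ≤ a := by
    have : z - z' = ((z.im - a : ℝ) : ℂ) * I := by apply Complex.ext <;> simp [z']
    rw [this, norm_mul, Complex.norm_I, mul_one, Complex.norm_real, Real.norm_eq_abs, abs_le]
    constructor <;> linarith
  have h2 : ∀ x : Tor d M, ‖G0 z x - G0 z' x‖ ^ 2 ≤ 70001 ^ 2 * a := by
    intro x
    have e1 := h1 z' hr (hz.trans haγ) x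
    have e2 : √‖z - z'‖ ≤ √a := Real.sqrt_le_sqrt hzz
    have e3 : a ≤ √a := by
      apply Real.le_sqrt_of_sq_le; nlinarith
    have e4 : ‖G0 z x - G0 z' x‖ ≤ 70001 * √a := by linarith
    calc _ ≤ (70001 * √a) ^ 2 := pow_le_pow_left₀ (norm_nonneg _) e4 2
      _ = _ := by rw [mul_pow, Real.sq_sqrt ha0.le]
  have w1 : a ^ 2 * ∑ x : Tor d M, ‖G0 z x‖ ^ 2 ≤ 11669 := by
    rw [ha2, ward]
    exact (le_abs_self _).trans ((Complex.abs_im_le_norm _).trans (s1 0))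
  have w2 : a * ∑ x : Tor d M, ‖G0 z' x‖ ^ 2 ≤ 11669 := by
    have := ward (d := d) (M := M) z'
    rw [show z'.im = a from rfl] at this
    rw [this]
    exact (le_abs_self _).trans ((Complex.abs_im_le_norm _).trans (s2 0))
  have h3 : ∀ x : Tor d M, ‖G0 z x‖ ^ 4 ≤ 8 * 11669 ^ 2 * ‖G0 z' x‖ ^ 2 +
      16 * 70001 ^ 2 * a * (‖G0 z x‖ ^ 2 + ‖G0 z' x‖ ^ 2) := by
    intro x
    have e1 := norm_le_norm_add_norm_sub' (G0 z x) (G0 z' x)
    have e2 := norm_sub_le (G0 z x) (G0 z' x)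
    have e3 := h2 x
    have e4 := s2 x
    have n1 := norm_nonneg (G0 z x)
    have n2 := norm_nonneg (G0 z' x)
    have n3 := norm_nonneg (G0 z x - G0 z' x)
    generalize ‖G0 z x‖ = u at *
    generalize ‖G0 z' x‖ = v at *
    generalize ‖G0 z x - G0 z' x‖ = w at *
    have f1 : u ^ 2 ≤ 2 * (v ^ 2 + w ^ 2) := by nlinarith [sq_nonneg (v - w)]
    have f2 : u ^ 4 ≤ 8 * (v ^ 2 * v ^ 2) + 8 * (w ^ 2 * w ^ 2) := by
      have : (u ^ 2) ^ 2 ≤ (2 * (v ^ 2 + w ^ 2)) ^ 2 := pow_le_pow_left₀ (sq_nonneg _) f1 2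
      nlinarith [sq_nonneg (v ^ 2 - w ^ 2)]
    have f3 : w ^ 2 ≤ 2 * (u ^ 2 + v ^ 2) := by nlinarith [sq_nonneg (u - v)]
    have f4 : v ^ 2 ≤ 11669 ^ 2 := pow_le_pow_left₀ n2 e4 2
    have f5 : v ^ 2 * v ^ 2 ≤ 11669 ^ 2 * v ^ 2 := mul_le_mul_of_nonneg_right f4 (sq_nonneg _)
    have f6 : w ^ 2 * w ^ 2 ≤ 70001 ^ 2 * a * (2 * (u ^ 2 + v ^ 2)) :=
      mul_le_mul e3 f3 (sq_nonneg _) (by positivity)
    linarith
  refine (sum_le_sum fun x _ => h3 x).trans ?_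
  rw [sum_add_distrib, ← mul_sum, ← mul_sum, sum_add_distrib, le_div_iff₀ ha0]
  have n2 : 0 ≤ ∑ x : Tor d M, ‖G0 z' x‖ ^ 2 := sum_nonneg fun _ _ => sq_nonneg _
  nlinarith [mul_le_mul_of_nonneg_left ha1 n2, mul_le_mul_of_nonneg_left w2 ha0.le]

variable {d M : ℕ} [NeZero M]

/-- the step distribution `γ |G0|² / Im g` -/
noncomputable def stp (z : ℂ) (x : Tor d M) : ℝ :=
  z.im * ‖G0 z x‖ ^ 2 / (G0 z (0 : Tor d M)).im

lemma exists_nrm (hd : 1 ≤ d) (p : Tor d M) : ∃ j, (p j).valMinAbs.natAbs = nrm p := by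
  have : Nonempty (Fin d) := ⟨⟨0, hd⟩⟩
  obtain ⟨j, -, hj⟩ := exists_mem_eq_sup (univ : Finset (Fin d)) univ_nonempty
    fun j => (p j).valMinAbs.natAbs
  exact ⟨j, hj.symm⟩

lemma step_stp (hd : 1 ≤ d) {c : ℝ} (hc : 0 < c) (hc1 : c ≤ 1 / 10) {z : ℂ} (hz : 0 < z.im)
    (hz1 : z.im ≤ c) (hr : z.re + 2 * d ≤ 1 / 4) (hs : ‖G0 z (0 : Tor d M)‖ ≤ 11669)
    (h : ∀ j : Fin d, c * z.im ≤ av fun k : Tor d M => if Sh c z j k then 1 else 0) :
    Step (stp (d := d) (M := M) z) z.im (c ^ 3 / (466760 * d)) := by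
  have hd1 : (1 : ℝ) ≤ d := by exact_mod_cast hd
  have hM0 : (0 : ℝ) < M := Nat.cast_pos.2 (NeZero.pos M)
  have hg := im_G0_of_shell hz (h ⟨0, hd⟩)
  set g := (G0 z (0 : Tor d M)).im with hgdef
  have hg0 : 0 < g := by linarith
  have hg1 : g ≤ 11669 := (le_abs_self _).trans ((Complex.abs_im_le_norm _).trans hs)
  have hc3 : c ^ 3 ≤ c := by nlinarith [sq_nonneg c]
  have hc30 : 0 < c ^ 3 := by positivity
  have hc' : c ^ 3 / (466760 * d) ≤ c ^ 3 / 466760 := by gcongr; linarith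
  have hone : ∑ x : Tor d M, stp z x = 1 := by
    simp only [stp, ← sum_div, ← mul_sum, ward]; exact div_self hg0.ne'
  have hhat : ∀ (p : Tor d M) (s : ℝ), 1 + s * hat (stp z) p =
      (z.im * ∑ x : Tor d M, ‖G0 z x‖ ^ 2 * (1 + s * (ch p x).re)) / g := by
    intro p s
    nth_rw 1 [← hone]
    simp only [hat, mul_sum, ← sum_add_distrib, sum_div, stp]
    exact sum_congr rfl fun x _ => by rw [← hgdef]; ring
  refine ⟨hz, by linarith, by positivity, hc'.trans (by linarith), fun x => ?_, fun x => ?_, hone,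
    fun p => ?_, ?_⟩
  · unfold stp; positivity
  · simp only [stp, G0_neg]
  · have m0 := mm_nonneg z.im p
    have m1 := mm_le_one z.im p
    have hb : c ^ 3 / (466760 * d) * mm z.im p ≤ c ^ 3 / 466760 * mm z.im p := by gcongr
    rw [abs_le]
    constructor
    · have e1 := hhat p 1
      simp only [one_mul] at e1
      have e2 : c / 8 / 11669 ≤ 1 + hat (stp z) p := by
        rw [e1]; exact div_le_div₀ (by linarith [symb_plus hz (h ⟨0, hd⟩) p])
          (symb_plus hz (h ⟨0, hd⟩) p) hg0 hg1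
      nlinarith
    · obtain ⟨j, hj⟩ := exists_nrm hd p
      have e1 := hhat p (-1)
      simp only [neg_mul, one_mul, ← sub_eq_add_neg] at e1
      have e3 := symb_minus hc hc1 hz hz1 hr (h j) p
      have e4 : mm z.im p ≤ min 1 ((ang (p j) / z.im) ^ 2) := by
        refine min_le_min le_rfl ?_
        rw [← sq_abs (ang (p j) / z.im), abs_div, abs_ang_eq, abs_of_pos hz, hj, div_div,
          mul_comm (M : ℝ)]
        gcongr
        nlinarith [Real.pi_gt_three, Nat.cast_nonneg (α := ℝ) (nrm p)]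
      have e5 : c ^ 3 / 40 * mm z.im p ≤ c ^ 3 / 40 * min 1 ((ang (p j) / z.im) ^ 2) := by gcongr
      have e2 : c ^ 3 / 40 * mm z.im p / 11669 ≤ 1 - hat (stp z) p := by
        rw [e1]; exact div_le_div₀ (le_trans (by positivity) (e5.trans e3)) (e5.trans e3) hg0 hg1
      linarith
  · have hθ : 8 * d * (c ^ 3 / (466760 * d) * z.im) ≤ z.im := by
      have : 8 * d * (c ^ 3 / (466760 * d) * z.im) = c ^ 3 / 58345 * z.im := by field_simp; norm_num
      rw [this]; nlinarith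
    have := ct (d := d) (M := M) hz (θ := c ^ 3 / (466760 * d) * z.im) (by positivity)
      (by nlinarith [show 0 ≤ c ^ 3 / (466760 * d) * z.im by positivity]) hθ
    simp only [stp, div_mul_eq_mul_div _ g, ← hgdef, ← sum_div]
    rw [div_le_iff₀ hg0]
    refine le_trans (le_of_eq ?_) this
    rw [mul_sum]
    exact sum_congr rfl fun x _ => by ring

end Crest.Agent.N334.AC.I
end

-- ▼ part N334/AC/I/Alg
section

/-!
# Row 334, S0520, part I (helper24): the Green matrix of the uniform absorber is `G0`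
-/

set_option autoImplicit false
set_option linter.unusedSectionVars false

open Finset Complex
open scoped ComplexConjugate

namespace Crest.Agent.N334.AC.I

variable {d M : ℕ} [NeZero M]

lemma hop_symm (x y : Tor d M) : hop d M x y = hop d M y x := by
  unfold hop
  congr 1
  refine sum_congr rfl fun j _ => ?_
  rw [add_comm]
  congr 1
  · exact if_congr (by rw [eq_sub_iff_add_eq, eq_comm]) rfl rfl
  · exact if_congr (by rw [eq_sub_iff_add_eq, eq_comm]) rfl rfl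

lemma conj_hop (x y : Tor d M) : conj (hop d M x y) = hop d M x y := by
  unfold hop
  rw [map_neg, map_sum]
  congr 1
  refine sum_congr rfl fun j _ => ?_
  rw [map_add]
  congr 1 <;> split_ifs <;> simp

lemma Hm_mul (E : ℝ) {w0 : ℂ} (hw : 0 < -w0.im) :
    Hm (Aop d M E) (fun _ => w0) * (Matrix.of fun x y : Tor d M => G0 (E - w0) (x - y)) = 1 := by
  have hz : 0 < ((E : ℂ) - w0).im := by simpa using hw
  ext x y
  have e := G0_eq (d := d) (M := M) hz (x - y)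
  have h1 : ∑ u, hop d M x u * G0 (E - w0) (u - y) =
      -∑ j, (G0 (E - w0) (x - y + Pi.single j 1) + G0 (E - w0) (x - y - Pi.single j 1)) := by
    simp only [hop, neg_mul, sum_neg_distrib, sum_mul, add_mul, ite_mul, one_mul, zero_mul]
    rw [sum_comm]
    simp only [sum_add_distrib, sum_ite_eq', mem_univ, if_true]
    congr 2 <;> refine sum_congr rfl fun j _ => ?_ <;> congr 1 <;> abel
  rw [Hm, Aop, Matrix.add_mul, Matrix.sub_mul, Matrix.smul_mul, Matrix.one_mul, Matrix.add_apply,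
    Matrix.sub_apply, Matrix.diagonal_mul, Matrix.mul_apply, Matrix.one_apply]
  simp only [Matrix.of_apply, Matrix.smul_apply, smul_eq_mul, h1, sub_eq_zero] at e ⊢
  rw [← e]; ring

lemma Gm_eq (E : ℝ) {w0 : ℂ} (hw : 0 < -w0.im) :
    Gm (Aop d M E) (fun _ => w0) = Matrix.of fun x y : Tor d M => G0 (E - w0) (x - y) :=
  Matrix.inv_eq_right_inv (Hm_mul E hw)

lemma adm_const (E : ℝ) {w0 : ℂ} (hw : 0 < -w0.im) : Adm (Aop d M E) fun _ => w0 := by
  refine ⟨?_, ?_, fun _ => hw.le, Matrix.isUnit_det_of_right_inverse (Hm_mul E hw)⟩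
  · ext x y
    simp only [Aop, Matrix.transpose_apply, Matrix.sub_apply, Matrix.smul_apply, Matrix.one_apply,
      hop_symm y x, eq_comm (a := y)]
  · ext x y
    simp only [Aop, Matrix.conjTranspose_apply, Matrix.sub_apply, Matrix.smul_apply,
      Matrix.one_apply, hop_symm y x, eq_comm (a := y), star_sub, RCLike.star_def, conj_hop]
    split_ifs <;> simp

lemma En_Km (E : ℝ) {w0 : ℂ} (hw : 0 < -w0.im) (hg : 0 < (G0 (E - w0) (0 : Tor d M)).im) :
    En (Km (Aop d M E) fun _ => w0) =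
      fun ψ => (-w0.im * (G0 (E - w0) (0 : Tor d M)).im) * Dir (stp (E - w0)) ψ := by
  funext ψ
  unfold En Dir Km
  rw [Gm_eq E hw, mul_left_comm]
  congr 1
  rw [mul_sum]
  refine sum_congr rfl fun a _ => ?_
  rw [mul_sum]
  refine sum_congr rfl fun b _ => ?_
  simp only [Matrix.of_apply, gam, norm_mul, Complex.norm_real, Real.norm_eq_abs, mul_pow, sq_abs,
    Real.sq_sqrt hw.le, stp, sub_im, ofReal_im, zero_sub]
  field_simp

lemma Cut.mono {E0 : (Tor d M → ℝ) → ℝ} (h0 : ∀ ψ, 0 ≤ E0 ψ) {σ C C' : ℝ} (hC : 0 ≤ C)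
    (hC' : C ≤ C') {L : ℕ} {χ : Tor d M → Tor d M → ℝ} {cp : Tor d M → (Tor d M → ℝ) →ₗ[ℝ] ℝ}
    (h : Cut E0 σ C L χ cp) : Cut E0 σ C' L χ cp := by
  have hv : 0 ≤ AC.vol d M L := Nat.cast_nonneg _
  refine ⟨h.nonneg, h.le_one, h.one, h.zero, h.van, fun ψ => (h.ims ψ).trans ?_,
    fun θ h1 h2 ψ => (h.err θ h1 h2 ψ).trans ?_⟩
  · have := h0 ψ; gcongr
  · have := h0 ψ; gcongr

end Crest.Agent.N334.AC.I
end

-- ▼ part N334/AC/I/Cap
section

/-!
# Row 334, S0520, part I (helper24): capacity bounds for a step distribution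
-/

set_option autoImplicit false
set_option linter.unusedSectionVars false

open Finset Complex
open scoped ComplexConjugate

namespace Crest.Agent.N334.AC.I

variable {d M : ℕ} [NeZero M]

lemma sum_natAbs_le (g : ℕ → ℝ) (hg : ∀ r, 0 ≤ g r) :
    ∑ a : ZMod M, g a.valMinAbs.natAbs ≤ 2 * ∑ r ∈ range (M + 1), g r := by
  rw [← sum_fiberwise_of_maps_to (s := univ) (t := range (M + 1))
    (g := fun a : ZMod M => a.valMinAbs.natAbs) (fun a _ => mem_range.2 (by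
      have := ZMod.natAbs_valMinAbs_le a; omega)), mul_sum]
  refine sum_le_sum fun r _ => ?_
  rw [sum_congr rfl (g := fun _ => g r) (fun a ha => by rw [(mem_filter.1 ha).2]), sum_const,
    nsmul_eq_mul]
  refine mul_le_mul_of_nonneg_right ?_ (hg r)
  have : (univ.filter fun a : ZMod M => a.valMinAbs.natAbs = r) ⊆ {(r : ZMod M), -(r : ZMod M)} := by
    intro a ha
    have h := (mem_filter.1 ha).2
    rw [mem_insert, mem_singleton, ← ZMod.coe_valMinAbs a]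
    rcases Int.natAbs_eq a.valMinAbs with e | e <;> rw [e, h] <;> simp
  exact_mod_cast (card_le_card this).trans card_le_two

lemma sum_rpow_le (N : ℕ) :
    ∑ r ∈ range (N + 1), (max 1 (r : ℝ)) ^ (-(5 / 6) : ℝ) ≤ 1 + 6 * (N : ℝ) ^ (1 / 6 : ℝ) := by
  induction N with
  | zero => simp
  | succ N ih =>
    rw [sum_range_succ]
    have hN : (0 : ℝ) < N + 1 := by positivity
    have h1 := rpow_one_add_le_one_add_mul_self (s := -(1 / (N + 1 : ℝ))) (p := 1 / 6)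
      (by rw [neg_le_neg_iff, div_le_one hN]; linarith [Nat.cast_nonneg (α := ℝ) N])
      (by norm_num) (by norm_num)
    have h2 : (N : ℝ) = (N + 1) * (1 + -(1 / (N + 1 : ℝ))) := by field_simp; ring
    have h3 : (N : ℝ) ^ (1 / 6 : ℝ) ≤ (N + 1) ^ (1 / 6 : ℝ) * (1 + 1 / 6 * -(1 / (N + 1 : ℝ))) := by
      conv_lhs => rw [h2]
      rw [Real.mul_rpow hN.le (by rw [← mul_nonneg_iff_of_pos_left hN, ← h2]; positivity)]
      gcongr
    have h4 : (N + 1 : ℝ) ^ (-(5 / 6) : ℝ) = (N + 1) ^ (1 / 6 : ℝ) * (1 / (N + 1 : ℝ)) := by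
      rw [show (-(5 / 6) : ℝ) = 1 / 6 - 1 by norm_num, Real.rpow_sub_one hN.ne']; ring
    push_cast
    rw [max_eq_right (by linarith [Nat.cast_nonneg (α := ℝ) N]), h4]
    linarith

/-- `√(M / |p|)` -/
noncomputable def uu (p : Tor d M) : ℝ := √((M : ℝ) / nrm p)

lemma nrm_le_M (p : Tor d M) : nrm p ≤ M :=
  nrm_le.2 fun j => (ZMod.natAbs_valMinAbs_le _).trans (Nat.div_le_self _ _)

lemma nrm_pos {p : Tor d M} (hp : p ≠ 0) : (1 : ℝ) ≤ nrm p := by
  exact_mod_cast Nat.pos_of_ne_zero (mt nrm_eq_zero.1 hp)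

lemma one_le_ratio {p : Tor d M} (hp : p ≠ 0) : 1 ≤ (M : ℝ) / nrm p := by
  rw [one_le_div (by linarith [nrm_pos hp])]; exact_mod_cast nrm_le_M p

lemma one_le_uu {p : Tor d M} (hp : p ≠ 0) : 1 ≤ uu p := Real.one_le_sqrt.2 (one_le_ratio hp)

lemma uu_nonneg (p : Tor d M) : 0 ≤ uu p := Real.sqrt_nonneg _

lemma av_uu (hd : 3 ≤ d) : av (fun p : Tor d M => uu p ^ 5) ≤ 14 ^ d := by
  have hM : (0 : ℝ) < M := Nat.cast_pos.2 (NeZero.pos M)
  have hM1 : (1 : ℝ) ≤ M := by exact_mod_cast NeZero.pos M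
  let f : ZMod M → ℝ := fun a =>
    (M : ℝ) ^ (5 / 6 : ℝ) * (max 1 (a.valMinAbs.natAbs : ℝ)) ^ (-(5 / 6) : ℝ)
  have h1 : ∀ p : Tor d M, uu p ^ 5 ≤ ∏ j, f (p j) := by
    intro p
    by_cases hp : p = 0
    · simp only [hp, uu, nrm_zero, Nat.cast_zero, div_zero, Real.sqrt_zero]
      exact le_trans (by norm_num) (prod_nonneg fun j _ => by positivity)
    have h0 := one_le_ratio hp
    have e1 : uu p ^ 5 = (((M : ℝ) / nrm p) ^ (5 / 6 : ℝ)) ^ 3 := by
      rw [uu, Real.sqrt_eq_rpow, ← Real.rpow_mul_natCast (by positivity),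
        ← Real.rpow_mul_natCast (by positivity)]
      norm_num
    rw [e1]
    calc _ ≤ (((M : ℝ) / nrm p) ^ (5 / 6 : ℝ)) ^ d :=
          pow_le_pow_right₀ (Real.one_le_rpow h0 (by norm_num)) hd
      _ = ∏ _j : Fin d, ((M : ℝ) / nrm p) ^ (5 / 6 : ℝ) := by simp
      _ ≤ _ := by
        refine prod_le_prod (fun j _ => by positivity) fun j _ => ?_
        simp only [f]
        rw [Real.rpow_neg (by positivity), ← div_eq_mul_inv, ← Real.div_rpow hM.le (by positivity)]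
        have : max 1 ((p j).valMinAbs.natAbs : ℝ) ≤ nrm p :=
          max_le (nrm_pos hp) (by exact_mod_cast le_nrm p j)
        gcongr
  have h2 : ∑ a, f a ≤ 14 * M := by
    simp only [f, ← mul_sum]
    have e1 := sum_natAbs_le (M := M) (fun r => (max 1 (r : ℝ)) ^ (-(5 / 6) : ℝ))
      fun r => by positivity
    have e2 := sum_rpow_le M
    have e3 : 1 ≤ (M : ℝ) ^ (1 / 6 : ℝ) := Real.one_le_rpow hM1 (by norm_num)
    have e4 : (M : ℝ) ^ (5 / 6 : ℝ) * (M : ℝ) ^ (1 / 6 : ℝ) = M := by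
      rw [← Real.rpow_add hM]; norm_num
    calc _ ≤ (M : ℝ) ^ (5 / 6 : ℝ) * (14 * (M : ℝ) ^ (1 / 6 : ℝ)) := by gcongr; linarith
      _ = _ := by rw [mul_left_comm, e4]
  refine (av_mono h1).trans ?_
  unfold av
  rw [← Fintype.piFinset_univ, ← Finset.prod_univ_sum (fun _ => univ) (fun _ a => f a),
    inv_mul_le_iff₀ vol_pos, prod_const, card_univ, Fintype.card_fin, vol, ← mul_pow, mul_comm]
  exact pow_le_pow_left₀ (sum_nonneg fun a _ => by positivity) h2 d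

lemma uu_pow_four (p : Tor d M) : uu p ^ 4 = ((M : ℝ) / nrm p) ^ 2 := by
  rw [show 4 = 2 * 2 by norm_num, pow_mul, uu, Real.sq_sqrt (by positivity)]

lemma inv_mm_le {γ : ℝ} (hγ : 0 < γ) {p : Tor d M} (hp : p ≠ 0) :
    (mm γ p)⁻¹ ≤ 1 + γ ^ 2 * uu p ^ 4 ∧ (γ ≤ 1 → (mm γ p)⁻¹ ≤ uu p ^ 4) := by
  have hM : (0 : ℝ) < M := Nat.cast_pos.2 (NeZero.pos M)
  have h1 := nrm_pos hp
  have h2 : 1 ≤ uu p ^ 4 := one_le_pow₀ (one_le_uu hp)
  have e : (((nrm p : ℝ) / (γ * M)) ^ 2)⁻¹ = γ ^ 2 * uu p ^ 4 := by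
    rw [uu_pow_four]; field_simp
  unfold mm
  rcases min_choice 1 (((nrm p : ℝ) / (γ * M)) ^ 2) with h | h <;> rw [h]
  · exact ⟨by rw [inv_one]; nlinarith [sq_nonneg γ], fun _ => by rwa [inv_one]⟩
  · rw [e]
    exact ⟨by linarith, fun h => mul_le_of_le_one_left (by linarith) (by nlinarith)⟩

lemma wt_le (l p : _) : wt (d := d) (M := M) l p ≤ (∑ x, |l x|) ^ 2 := by
  refine pow_le_pow_left₀ (norm_nonneg _) ((norm_sum_le _ _).trans (le_of_eq ?_)) 2
  simp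

lemma av_hat_sq {π : Tor d M → ℝ} (he : ∀ x, π (-x) = π x) :
    av (fun p => hat π p ^ 2) = ∑ x, π x ^ 2 := by
  rw [sum_sq_eq]; congr 1; funext p
  rw [wt, fF_even he, Complex.norm_real, Real.norm_eq_abs, sq_abs]

lemma card_core (hd : 1 ≤ d) (hM : 8 ≤ M) :
    ∑ x : Tor d M, (if x ∈ absb d M then (0 : ℝ) else 1) ≤ 4 / 5 * vol d M := by
  have hM0 : (0 : ℝ) < M := Nat.cast_pos.2 (NeZero.pos M)
  have h := sum_update (fun x : Tor d M => if x ∈ absb d M then (0 : ℝ) else 1) ⟨0, hd⟩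
  have h2 : ∀ k : Tor d M, ∑ a : ZMod M,
      (if Function.update k ⟨0, hd⟩ a ∈ absb d M then (0 : ℝ) else 1) ≤ 4 / 5 * M := by
    intro k
    have e := sum_window (M := M) (-(M / 4 : ℕ)) (2 * (M / 4) + 1) (by omega) (by omega)
      (fun _ => (1 : ℝ))
    simp only [sum_const, card_range, nsmul_eq_mul, mul_one] at e
    have e2 : ((2 * (M / 4) + 1 : ℕ) : ℝ) * 5 ≤ 4 * M := by exact_mod_cast (by omega)
    refine le_trans (sum_le_sum fun a _ => ?_) (e.le.trans (by linarith))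
    split_ifs with c1 c2 c2
    · exact zero_le_one
    · rfl
    · rfl
    · exfalso; apply c1
      simp only [absb, mem_filter, mem_univ, true_and]
      exact ⟨⟨0, hd⟩, rfl, by rw [Function.update_self]; omega⟩
  have h3 := sum_le_sum fun (k : Tor d M) (_ : k ∈ univ) => h2 k
  rw [h, sum_const, card_univ, nsmul_eq_mul, card_tor] at h3
  rw [← mul_le_mul_iff_right₀ hM0]; linarith

lemma av_split (F : Tor d M → ℝ) :
    av F = (vol d M)⁻¹ * F 0 + av fun p => if p = 0 then 0 else F p := by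
  unfold av
  rw [← mul_add]; congr 1
  have : ∀ p : Tor d M, F p = (if p = 0 then F 0 else 0) + if p = 0 then 0 else F p := by
    intro p; split_ifs with h <;> simp [h]
  rw [sum_congr rfl fun p _ => this p, sum_add_distrib]; simp

lemma zero_mode (hd : 1 ≤ d) (hM : 8 ≤ M) {ψ : Tor d M → ℝ} (hψ : Van ψ) :
    (vol d M)⁻¹ * wt ψ 0 ≤ 4 * av fun p => if p = 0 then 0 else wt ψ p := by
  have h1 := av_split (wt ψ)
  rw [← sum_sq_eq] at h1
  have h2 : wt ψ 0 = (∑ x, ψ x) ^ 2 := by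
    simp only [wt, fF, ch_zero', mul_one]
    rw [← Complex.ofReal_sum, Complex.norm_real, Real.norm_eq_abs, sq_abs]
  have h3 : (∑ x, ψ x) ^ 2 ≤ (∑ x : Tor d M, if x ∈ absb d M then (0 : ℝ) else 1) * ∑ x, ψ x ^ 2 := by
    refine sum_sq_le_sum_mul_sum_of_sq_le_mul _ (fun x _ => by positivity) (fun x _ => sq_nonneg _)
      fun x _ => ?_
    split_ifs with h
    · simp [hψ x h]
    · simp
  have h4 : (vol d M)⁻¹ * wt ψ 0 ≤ 4 / 5 * ∑ x, ψ x ^ 2 := by
    rw [inv_mul_le_iff₀ vol_pos, h2]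
    have := mul_le_mul_of_nonneg_right (card_core hd hM) (sum_nonneg fun x (_ : x ∈ univ) =>
      sq_nonneg (ψ x))
    linarith
  linarith

/-- weak duality -/
lemma Step.dual {π : Tor d M → ℝ} {γ c : ℝ} (h : Step π γ c) (hd : 1 ≤ d) (hM : 8 ≤ M)
    (l : Tor d M → ℝ) {ψ : Tor d M → ℝ} (hψ : Van ψ) {t : ℝ} (ht : 0 < t) :
    (∑ x, l x * ψ x) ^ 2 ≤ (1 + t) * ((av fun p => if p = 0 then 0 else wt l p / (1 - hat π p)) +
      4 * (1 + (γ * M) ^ 2) / (c * t * vol d M) * (∑ x, |l x|) ^ 2) * Dir π ψ := by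
  have hM0 : (0 : ℝ) < M := Nat.cast_pos.2 (NeZero.pos M)
  have hγ := h.γ_pos
  have hc := h.c_pos
  have hv := vol_pos (d := d) (M := M)
  set b := c / (4 * (1 + (γ * M) ^ 2)) with hb
  have hb0 : 0 < b := by positivity
  have hlam : ∀ p : Tor d M, p ≠ 0 → 4 * b ≤ 1 - hat π p := by
    intro p hp
    refine le_trans ?_ (h.le_lam p)
    have e1 := (inv_mm_le hγ hp).1
    have e2 : uu p ^ 4 ≤ M ^ 2 := by
      rw [uu_pow_four]; gcongr; exact div_le_self hM0.le (nrm_pos hp)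
    have e3 : (1 + (γ * M) ^ 2)⁻¹ ≤ mm γ p :=
      inv_le_of_inv_le₀ (mm_pos hγ hp) (e1.trans (by rw [mul_pow]; gcongr))
    calc 4 * b = c * (1 + (γ * M) ^ 2)⁻¹ := by rw [hb]; field_simp
      _ ≤ _ := by gcongr
  let lam : Tor d M → ℝ := fun p => if p = 0 then t * b else 1 - hat π p
  have hl0 : ∀ p, 0 < lam p := by
    intro p; simp only [lam]; split_ifs with hp
    · positivity
    · linarith [hlam p hp]
  have h1 : |∑ x, l x * ψ x| ≤
      av fun p => ‖fF (fun x => (l x : ℂ)) p‖ * ‖fF (fun x => (ψ x : ℂ)) p‖ := by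
    have e := parseval' (fF fun x => (l x : ℂ)) (fF fun x => (ψ x : ℂ))
    simp only [iF_fF, Complex.conj_ofReal, ← Complex.ofReal_mul] at e
    rw [← Complex.ofReal_sum] at e
    rw [← Real.norm_eq_abs, ← Complex.norm_real, e, norm_mul, norm_inv, Complex.norm_real,
      Real.norm_of_nonneg hv.le]
    refine mul_le_mul_of_nonneg_left ((norm_sum_le _ _).trans (le_of_eq ?_)) (by positivity)
    simp
  have h2 : (av fun p => ‖fF (fun x => (l x : ℂ)) p‖ * ‖fF (fun x => (ψ x : ℂ)) p‖) ^ 2 ≤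
      (av fun p => wt l p / lam p) * av fun p => lam p * wt ψ p := by
    unfold av
    rw [mul_pow, mul_mul_mul_comm, sq]
    refine mul_le_mul_of_nonneg_left (sum_sq_le_sum_mul_sum_of_sq_le_mul _
      (fun p _ => div_nonneg (wt_nonneg _ _) (hl0 p).le)
      (fun p _ => mul_nonneg (hl0 p).le (wt_nonneg _ _)) fun p _ => le_of_eq ?_) (by positivity)
    have := (hl0 p).ne'
    simp only [wt]; field_simp
  have h3 : (av fun p => if p = 0 then 0 else (1 - hat π p) * wt ψ p) ≤ Dir π ψ := by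
    rw [Dir_eq h.sum_one]
    refine av_mono fun p => ?_
    split_ifs
    · exact mul_nonneg (by nlinarith [h.le_lam p, mm_nonneg γ p]) (wt_nonneg _ _)
    · rfl
  have h4 : (av fun p => lam p * wt ψ p) ≤ (1 + t) * Dir π ψ := by
    rw [av_split]
    have e1 : (av fun p => if p = 0 then 0 else lam p * wt ψ p) ≤ Dir π ψ :=
      le_trans (av_mono fun p => by split_ifs with hp <;> simp [lam, hp]) h3
    have e2 : 4 * b * (av fun p => if p = 0 then 0 else wt ψ p) ≤ Dir π ψ := by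
      rw [← av_mul]
      refine le_trans (av_mono fun p => ?_) h3
      split_ifs with hp
      · simp
      · exact mul_le_mul_of_nonneg_right (hlam p hp) (wt_nonneg _ _)
    have e3 := mul_le_mul_of_nonneg_left (zero_mode hd hM hψ) (mul_pos ht hb0).le
    simp only [lam, if_true]
    nlinarith
  have h5 : (av fun p => wt l p / lam p) ≤
      (av fun p => if p = 0 then 0 else wt l p / (1 - hat π p)) +
      4 * (1 + (γ * M) ^ 2) / (c * t * vol d M) * (∑ x, |l x|) ^ 2 := by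
    rw [av_split, add_comm]
    refine add_le_add (av_mono fun p => by split_ifs with hp <;> simp [lam, hp]) ?_
    simp only [lam, if_true]
    calc _ ≤ (vol d M)⁻¹ * ((∑ x, |l x|) ^ 2 / (t * b)) := by gcongr; exact wt_le l 0
      _ = _ := by rw [hb]; field_simp
  have h6 : 0 ≤ av fun p => wt l p / lam p :=
    av_nonneg fun p => div_nonneg (wt_nonneg _ _) (hl0 p).le
  have h7 := h.Dir_nonneg ψ
  calc _ = |∑ x, l x * ψ x| ^ 2 := (sq_abs _).symm
    _ ≤ _ := pow_le_pow_left₀ (abs_nonneg _) h1 2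
    _ ≤ _ := h2
    _ ≤ (av fun p => wt l p / lam p) * ((1 + t) * Dir π ψ) := by gcongr
    _ = (1 + t) * (av fun p => wt l p / lam p) * Dir π ψ := by ring
    _ ≤ _ := by gcongr

lemma Step.av_rem {π : Tor d M → ℝ} {γ c : ℝ} (h : Step π γ c) (hd : 3 ≤ d) :
    (av fun p : Tor d M => if p = 0 then 0 else hat π p ^ 2 / (c * mm γ p)) ≤
      (∑ x, π x ^ 2 + 14 ^ d * γ ^ 2) / c := by
  have hc := h.c_pos
  have : (av fun p : Tor d M => if p = 0 then 0 else hat π p ^ 2 / (c * mm γ p)) ≤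
      av fun p : Tor d M => c⁻¹ * (hat π p ^ 2 + γ ^ 2 * uu p ^ 5) := by
    refine av_mono fun p => ?_
    split_ifs with hp
    · have := uu_nonneg p; positivity
    have e1 := (inv_mm_le h.γ_pos hp).1
    have e2 : hat π p ^ 2 ≤ 1 := by
      rw [sq_le_one_iff_abs_le_one]; nlinarith [h.symb p, mm_nonneg γ p]
    have e3 : uu p ^ 4 ≤ uu p ^ 5 := pow_le_pow_right₀ (one_le_uu hp) (by norm_num)
    have e4 : 0 ≤ γ ^ 2 * uu p ^ 4 := by positivity
    calc _ = c⁻¹ * (hat π p ^ 2 * (mm γ p)⁻¹) := by field_simp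
      _ ≤ c⁻¹ * (hat π p ^ 2 * (1 + γ ^ 2 * uu p ^ 4)) := by gcongr
      _ ≤ _ := by
        gcongr
        nlinarith [mul_le_mul_of_nonneg_left e3 (sq_nonneg γ)]
  refine this.trans ?_
  rw [av_mul, av_add, av_mul, av_hat_sq h.even, div_eq_inv_mul]
  have := mul_le_mul_of_nonneg_left (av_uu (M := M) hd) (sq_nonneg γ)
  exact mul_le_mul_of_nonneg_left (by linarith) (by positivity)

theorem Step.cap1 {π : Tor d M → ℝ} {γ c : ℝ} (h : Step π γ c) (hd : 3 ≤ d) (hM : 8 ≤ M)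
    (l : Tor d M → ℝ) {ψ : Tor d M → ℝ} (hψ : Van ψ) {ε : ℝ} (hε : 0 < ε) (hε1 : ε ≤ 1) :
    (∑ x, l x * ψ x) ^ 2 ≤ ((1 + ε) * ∑ x, l x ^ 2 + 24 / (c * ε) * (∑ x, π x ^ 2 + 14 ^ d * γ ^ 2 +
      (1 + (γ * M) ^ 2) / vol d M) * (∑ x, |l x|) ^ 2) * Dir π ψ := by
  have hc := h.c_pos
  have hc1 := h.c_le
  have hv := vol_pos (d := d) (M := M)
  refine (h.dual (by omega) hM l hψ (t := ε / 3) (by positivity)).trans
    (mul_le_mul_of_nonneg_right ?_ (h.Dir_nonneg ψ))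
  set L := (∑ x, |l x|) ^ 2
  have hL : 0 ≤ L := sq_nonneg _
  have h1 : (av fun p => if p = 0 then 0 else wt l p / (1 - hat π p)) ≤
      av fun p => (1 + ε / 3) * wt l p + (L / ε * hat π p ^ 2 +
        L * if p = 0 then 0 else hat π p ^ 2 / (c * mm γ p)) := by
    refine av_mono fun p => ?_
    have w0 := wt_nonneg l p
    have w1 := wt_le l p
    split_ifs with hp
    · positivity
    have m0 := mul_pos hc (mm_pos h.γ_pos hp)
    have l0 := m0.trans_le (h.le_lam p)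
    have e1 : wt l p / (1 - hat π p) =
        wt l p + wt l p * hat π p + wt l p * (hat π p ^ 2 / (1 - hat π p)) := by field_simp; ring
    have e2 : hat π p ^ 2 / (1 - hat π p) ≤ hat π p ^ 2 / (c * mm γ p) := by
      gcongr; exact h.le_lam p
    have e3 : hat π p ≤ ε / 3 + hat π p ^ 2 / ε := by
      rw [← sub_le_iff_le_add', le_div_iff₀ hε]; nlinarith [sq_nonneg (hat π p - ε / 2)]
    have e4 : wt l p * (hat π p ^ 2 / ε) ≤ L / ε * hat π p ^ 2 := by
      rw [div_mul_eq_mul_div, mul_div_assoc]; gcongr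
    have e5 : wt l p * (hat π p ^ 2 / (1 - hat π p)) ≤ L * (hat π p ^ 2 / (c * mm γ p)) := by gcongr
    nlinarith [mul_le_mul_of_nonneg_left e3 w0]
  rw [av_add, av_add, av_mul, av_mul, av_mul, ← sum_sq_eq, av_hat_sq h.even] at h1
  have h2 := mul_le_mul_of_nonneg_left (h.av_rem hd) hL
  set q := ∑ x, π x ^ 2
  have hq : 0 ≤ q := sum_nonneg fun _ _ => sq_nonneg _
  set s := ∑ x, l x ^ 2
  have hs : 0 ≤ s := sum_nonneg fun _ _ => sq_nonneg _
  set g : ℝ := 14 ^ d * γ ^ 2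
  have hg : 0 ≤ g := by positivity
  set B := (1 + (γ * M) ^ 2) / vol d M with hB
  have hB0 : 0 ≤ B := by positivity
  set κ := L / (c * ε) with hκ
  have hκ0 : 0 ≤ κ := by positivity
  have e1 : L / ε * q ≤ κ * q := by rw [hκ]; gcongr; nlinarith
  have e2 : L * ((q + g) / c) ≤ κ * (q + g) := by
    rw [hκ, div_mul_eq_mul_div, mul_div_assoc]; gcongr; nlinarith
  have e3 : 4 * (1 + (γ * M) ^ 2) / (c * (ε / 3) * vol d M) * L = 12 * (κ * B) := by
    rw [hκ, hB]; field_simp; ring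
  have e4 : 24 / (c * ε) * (q + g + B) * L = 24 * (κ * q + κ * g + κ * B) := by rw [hκ]; ring
  rw [e3, e4]
  have e5 : (1 + ε / 3) * ((1 + ε / 3) * s) ≤ (1 + ε) * s := by nlinarith [mul_nonneg hε.le hs]
  have e6 : 0 ≤ κ * q := by positivity
  have e7 : 0 ≤ κ * g := by positivity
  have e8 : 0 ≤ κ * B := by positivity
  nlinarith

end Crest.Agent.N334.AC.I
end

-- ▼ part N334/AC/I/RR
section

/-!
# Row 334, S0520, part I: the Hadamard square of the free resolvent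
(typed by helper66 after helper24's sketch)
-/

set_option autoImplicit false
set_option linter.unusedSectionVars false

open Finset Complex MeasureTheory
open scoped ComplexConjugate Matrix.Norms.L2Operator

namespace Crest.Agent.N334.AC.I

variable {d M : ℕ} [NeZero M]

namespace RR

lemma fF_conv (f v : Tor d M → ℂ) (p : Tor d M) :
    fF (fun x => ∑ y, f (x - y) * v y) p = fF f p * fF v p := by
  unfold fF
  simp only [sum_mul]
  rw [sum_comm]
  simp only [mul_sum]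
  rw [sum_comm (f := fun x y => f x * ch p (-x) * (v y * ch p (-y)))]
  refine sum_congr rfl fun y _ => ?_
  rw [← Equiv.sum_comp (Equiv.addRight y) (fun x => f (x - y) * v y * ch p (-x))]
  refine sum_congr rfl fun x _ => ?_
  simp only [Equiv.coe_addRight, add_sub_cancel_right, neg_add, ch_add]
  ring

/-- the operator norm of a circulant matrix -/
lemma norm_circ_le (f : Tor d M → ℂ) {c : ℝ} (hc : 0 ≤ c) (h : ∀ p, ‖fF f p‖ ≤ c) :
    ‖(Matrix.of fun x y : Tor d M => f (x - y))‖ ≤ c := by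
  rw [Matrix.cstar_norm_def]
  refine ContinuousLinearMap.opNorm_le_bound _ hc fun v => ?_
  refine (sq_le_sq₀ (norm_nonneg _) (by positivity)).1 ?_
  rw [mul_pow, EuclideanSpace.norm_sq_eq, EuclideanSpace.norm_sq_eq, parseval_fF, parseval_fF,
    ← av_mul]
  refine av_mono fun p => ?_
  have e : (Matrix.toEuclideanCLM (n := Tor d M) (𝕜 := ℂ)
      (Matrix.of fun x y : Tor d M => f (x - y)) v).ofLp = fun x => ∑ y, f (x - y) * v.ofLp y := rfl
  rw [e, fF_conv, norm_mul, mul_pow]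
  gcongr
  exact h p

lemma fF_sq (z : ℂ) (p : Tor d M) :
    fF (fun x => G0 z x * G0 z x) p = ((vol d M : ℝ) : ℂ)⁻¹ * ∑ k, Gh z k * Gh z (k - p) := by
  have e : ∀ x, G0 z x * G0 z x * ch p (-x) = iF (Gh z) x * iF (fun k => Gh z (k - -p)) x := by
    intro x
    rw [← iF_mul_ch, ch_neg_neg, mul_assoc]; rfl
  unfold fF
  simp only [e]
  rw [sum_iF_mul]
  congr 1
  refine sum_congr rfl fun k _ => ?_
  rw [fF_iF, show -k - -p = -(k - p) by abel]
  simp only [Gh, eps_neg]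

lemma sum_Gh_eq {z : ℂ} (hz : 0 < z.im) (a : Tor d M → ℂ) (τ : Tor d M → Tor d M) :
    ∑ k, a k * Gh z (τ k) = I * ∫ t in Set.Ioi (0 : ℝ), exp (I * z * t) *
      ∑ k, a k * exp (((-(t * eps (τ k)) : ℝ) : ℂ) * I) := by
  let F : Tor d M → ℝ → ℂ := fun k t => a k *
    (exp (I * z * t) * exp (((-(t * eps (τ k)) : ℝ) : ℂ) * I))
  have e : ∀ t : ℝ, exp (I * z * t) * ∑ k, a k * exp (((-(t * eps (τ k)) : ℝ) : ℂ) * I)
      = ∑ k, F k t := by
    intro t
    simp only [mul_sum, F]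
    exact sum_congr rfl fun k _ => by ring
  have hF : ∀ k, IntegrableOn (F k) (Set.Ioi 0) := fun k => (Gh_eq_int hz (τ k)).1.const_mul _
  simp only [e]
  rw [integral_finsetSum _ fun k _ => hF k]
  simp only [mul_sum, F, integral_const_mul]
  refine sum_congr rfl fun k _ => ?_
  rw [(Gh_eq_int hz (τ k)).2]
  ring

/-- the two-time kernel -/
lemma two_time (t : ℝ) {s : ℝ} (hs : s ≠ 0) (p : Tor d M) :
    ∑ k, (if In k ∧ In (k - p) then ((vol d M : ℝ) : ℂ)⁻¹ else 0) *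
      exp (((-(t * eps k) : ℝ) : ℂ) * I) * exp (((-(s * eps (k - p)) : ℝ) : ℂ) * I)
      = ∏ j, ker2 t s (p j) 0 := by
  unfold ker2
  rw [prod_mul_distrib, prod_const, card_univ, Fintype.card_fin, Finset.prod_univ_sum,
    Fintype.piFinset_univ, mul_sum]
  refine sum_congr rfl fun k _ => ?_
  rw [prod_ite_zero]
  simp only [mem_univ, forall_true_left, hs, false_or, In, ite_mul, zero_mul, forall_and,
    Pi.sub_apply, mul_zero, AddChar.map_zero_eq_one, mul_one, mul_ite]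
  split_ifs
  · rw [mul_assoc, ← Complex.exp_add, ← Complex.exp_sum, ← sum_mul, ← add_mul]
    congr 1
    · simp [vol]
    congr 2
    simp only [eps, mul_neg, neg_neg, mul_sum, Pi.sub_apply]
    push_cast
    rw [← sum_add_distrib]
    exact sum_congr rfl fun j _ => by ring
  · rfl

lemma norm_two_time (hd : 3 ≤ d) (hM : 32 ≤ M) {t s : ℝ} (ht : 0 ≤ t) (hs : 0 ≤ s) (p : Tor d M) :
    ‖∏ j, ker2 t s (p j) (0 : ZMod M)‖ ≤
      5832 * (√(1 + (t + s)) ^ 3)⁻¹ + 8 * (1 + t) / M * (1 + s) := by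
  rw [norm_prod]
  have hM0 : (0 : ℝ) < M := Nat.cast_pos.2 (NeZero.pos M)
  refine (prod_le_cube hd _ (a := 9 / √(1 + (t + s))) (b := 4 * ((1 + t) * (1 + s)) / M)
    (fun j => norm_nonneg _) (fun j => norm_ker2_le_one _ _ _ _) (by positivity) (by positivity)
    fun j => ?_).trans (le_of_eq (by ring))
  refine (norm_ker2_le' hM ht hs (p j) 0).trans ?_
  simp only [ZMod.valMinAbs_zero, Int.natAbs_zero, Nat.cast_zero, add_zero]
  gcongr
  nlinarith [mul_nonneg ht hs]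

lemma int_step {γ : ℝ} (hγ : 0 < γ) (hγ1 : γ ≤ 1) {z : ℂ} (hz : γ ≤ z.im) (F : ℝ → ℂ)
    (a g : ℝ → ℝ) (hg : IntegrableOn g (Set.Ioi 0)) {B : ℝ} (hB : 0 ≤ B)
    (hF : ∀ t, 0 < t → ‖F t‖ ≤ a t + B * (1 + t)) (ha : ∀ t, 0 < t → Real.exp (-γ * t) * a t ≤ g t) :
    ‖∫ t in Set.Ioi (0 : ℝ), exp (I * z * t) * F t‖ ≤
      (∫ t in Set.Ioi (0 : ℝ), g t) + B * (4 / γ ^ 2) := by
  have hγ2 : -(γ / 2) < 0 := by linarith
  have hi := integrableOn_exp_mul_Ioi hγ2 0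
  have hb : ‖∫ t in Set.Ioi (0 : ℝ), exp (I * z * t) * F t‖ ≤ ∫ t in Set.Ioi (0 : ℝ),
      (g t + B * (2 / γ) * Real.exp (-(γ / 2) * t)) := by
    refine norm_integral_le_of_norm_le (hg.add (hi.const_mul _)) ?_
    refine (ae_restrict_iff' measurableSet_Ioi).2 (Filter.Eventually.of_forall fun t ht => ?_)
    have ht : 0 < t := ht
    rw [norm_mul]
    refine (mul_le_mul (norm_exp_Iz hz ht.le) (hF t ht) (norm_nonneg _)
      (Real.exp_pos _).le).trans ?_
    rw [mul_add]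
    refine add_le_add (ha t ht) ?_
    have e1 : Real.exp (-γ * t) = Real.exp (-(γ / 2) * t) * Real.exp (-(γ / 2) * t) := by
      rw [← Real.exp_add]; ring_nf
    have e2 : (1 + t) * Real.exp (-(γ / 2) * t) ≤ 2 / γ := by
      have := Real.add_one_le_exp (γ / 2 * t)
      rw [neg_mul, Real.exp_neg, ← div_eq_mul_inv, div_le_div_iff₀ (Real.exp_pos _) hγ]
      nlinarith
    calc Real.exp (-γ * t) * (B * (1 + t))
        = B * ((1 + t) * Real.exp (-(γ / 2) * t)) * Real.exp (-(γ / 2) * t) := by rw [e1]; ring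
      _ ≤ _ := by gcongr
  refine hb.trans (le_of_eq ?_)
  rw [integral_add hg (hi.const_mul _), integral_const_mul, integral_exp_mul_Ioi hγ2]
  simp only [mul_zero, Real.exp_zero]
  field_simp
  ring

lemma int_cube' {t : ℝ} (ht : 0 ≤ t) :
    IntegrableOn (fun s : ℝ => (√(1 + (t + s)) ^ 3)⁻¹) (Set.Ioi 0) ∧
    ∫ s in Set.Ioi (0 : ℝ), (√(1 + (t + s)) ^ 3)⁻¹ = 2 * (√(1 + t))⁻¹ := by
  have hd : ∀ s ∈ Set.Ici (0 : ℝ),
      HasDerivAt (fun s => -2 * (√(1 + (t + s)))⁻¹) (√(1 + (t + s)) ^ 3)⁻¹ s := by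
    intro s hs
    have hs : 0 ≤ s := hs
    have hr : 0 < √(1 + (t + s)) := Real.sqrt_pos.2 (by linarith)
    have h1 : HasDerivAt (fun s => √(1 + (t + s))) (1 / (2 * √(1 + (t + s)))) s :=
      (hasDerivAt_r (t := t + s) (by linarith)).comp_const_add t s
    refine ((h1.inv hr.ne').const_mul (-2)).congr_deriv ?_
    field_simp
  have hl : Filter.Tendsto (fun s : ℝ => -2 * (√(1 + (t + s)))⁻¹) Filter.atTop (nhds 0) := by
    simpa using (tendsto_inv_atTop_zero.comp (tendsto_r.comp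
      (Filter.tendsto_atTop_add_const_left _ t Filter.tendsto_id))).const_mul (-2)
  refine ⟨integrableOn_Ioi_deriv_of_nonneg' hd (fun t _ => by positivity) hl, ?_⟩
  rw [integral_Ioi_of_hasDerivAt_of_nonneg' hd (fun t _ => by positivity) hl]
  simp

/-- the inner-inner part -/
lemma norm_inner_le (hd : 3 ≤ d) (hM : 32 ≤ M) {z : ℂ} (hz : 0 < z.im) (hz1 : z.im ≤ 1)
    (p : Tor d M) :
    ‖∑ k, (if In k ∧ In (k - p) then ((vol d M : ℝ) : ℂ)⁻¹ else 0) * Gh z (k - p) * Gh z k‖ ≤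
      93312 / √z.im + 128 / z.im ^ 4 / M := by
  have hM0 : (0 : ℝ) < M := Nat.cast_pos.2 (NeZero.pos M)
  set γ := z.im with hγ
  have ha : 0 < √γ := Real.sqrt_pos.2 hz
  have ha2 : √γ ^ 2 = γ := Real.sq_sqrt hz.le
  rw [sum_Gh_eq hz _ fun k => k, norm_mul, Complex.norm_I, one_mul]
  refine (int_step hz hz1 le_rfl _ (fun t => 11664 * (√(1 + t))⁻¹) _
    ((int_hold ha).1.const_mul (46656 / γ)) (B := 8 / M * (4 / γ ^ 2)) (by positivity)
    (fun t ht => ?_) fun t ht => ?_).trans ?_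
  · have e : ∑ k, (if In k ∧ In (k - p) then ((vol d M : ℝ) : ℂ)⁻¹ else 0) * Gh z (k - p) *
        exp (((-(t * eps k) : ℝ) : ℂ) * I) = ∑ k, (if In k ∧ In (k - p) then
          ((vol d M : ℝ) : ℂ)⁻¹ else 0) * exp (((-(t * eps k) : ℝ) : ℂ) * I) * Gh z (k - p) :=
      sum_congr rfl fun k _ => by ring
    rw [e, sum_Gh_eq hz _ fun k => k - p, norm_mul, Complex.norm_I, one_mul]
    refine (int_step hz hz1 le_rfl _ (fun s => 5832 * (√(1 + (t + s)) ^ 3)⁻¹) _
      ((int_cube' ht.le).1.const_mul 5832) (B := 8 * (1 + t) / M) (by positivity)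
      (fun s hs => ?_) fun s hs => ?_).trans (le_of_eq ?_)
    · rw [two_time t hs.ne' p]
      exact norm_two_time hd hM ht.le hs.le p
    · exact mul_le_of_le_one_left (by positivity) (Real.exp_le_one_iff.2 (by nlinarith))
    · rw [integral_const_mul, (int_cube' ht.le).2]
      ring
  · have hr : 0 < √(1 + t) := Real.sqrt_pos.2 (by linarith)
    have hr2 : √(1 + t) ^ 2 = 1 + t := Real.sq_sqrt (by linarith)
    set r := √(1 + t)
    set a := √γ
    have h1 : (1 + a * r) ^ 2 ≤ 4 * Real.exp (γ * t) := by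
      have e1 := Real.add_one_le_exp (γ * t)
      have e2 : (a * r) ^ 2 = γ * (1 + t) := by rw [mul_pow, ha2, hr2]
      nlinarith [sq_nonneg (1 - a * r), mul_pos hz ht]
    have h2 : Real.exp (-γ * t) ≤ 4 * ((1 + a * r) ^ 2)⁻¹ := by
      rw [neg_mul, Real.exp_neg, ← div_eq_mul_inv, ← one_div, div_le_div_iff₀ (Real.exp_pos _)
        (by positivity)]
      linarith
    calc Real.exp (-γ * t) * (11664 * r⁻¹) ≤ 4 * ((1 + a * r) ^ 2)⁻¹ * (11664 * r⁻¹) := by gcongr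
      _ = _ := by rw [ha2]; field_simp; norm_num
  · rw [integral_const_mul]
    refine add_le_add ((mul_le_mul_of_nonneg_left (int_hold ha).2 (by positivity)).trans_eq ?_)
      (le_of_eq (by field_simp; norm_num))
    conv_lhs => rw [← ha2]
    rw [Real.sqrt_sq ha.le]
    field_simp
    norm_num

lemma av_Gh_le {z : ℂ} (hz : 0 < z.im) {B : ℝ} (hB : ‖G0 z (0 : Tor d M)‖ ≤ B) :
    av (fun k : Tor d M => ‖Gh z k‖) ≤ (B + 1) / 2 / √z.im := by
  have ha : 0 < √z.im := Real.sqrt_pos.2 hz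
  have ha2 : √z.im ^ 2 = z.im := Real.sq_sqrt hz.le
  have h1 : av (fun k : Tor d M => (Gh z k).im) ≤ B := by
    rw [← im_G0_zero]
    exact ((le_abs_self _).trans (Complex.abs_im_le_norm _)).trans hB
  have h2 : ∀ k : Tor d M, ‖Gh z k‖ ≤ (2 * √z.im)⁻¹ * ((Gh z k).im + 1) := fun k => by
    rw [im_Gh, le_inv_mul_iff₀ (by positivity)]
    nlinarith [sq_nonneg (√z.im * ‖Gh z k‖ - 1)]
  refine (av_mono h2).trans ?_
  rw [av_mul, av_add, av_const, div_div, div_eq_inv_mul]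
  gcongr

lemma norm_fF_sq_le (hd : 3 ≤ d) (hM : 32 ≤ M) {z : ℂ} (hz : 0 < z.im) (hz1 : z.im ≤ 1)
    (hr : z.re ≤ -2 * d + 1 / 4) (hbig : 128 / z.im ^ 4 ≤ M) (p : Tor d M) :
    ‖fF (fun x => G0 z x * G0 z x) p‖ ≤ 140000 / √z.im := by
  have hM0 : (0 : ℝ) < M := Nat.cast_pos.2 (NeZero.pos M)
  have ha : 0 < √z.im := Real.sqrt_pos.2 hz
  have ha1 : √z.im ≤ 1 := Real.sqrt_le_one.2 hz1
  have e1 : 128 / z.im ^ 4 / M ≤ 1 := (div_le_one hM0).2 hbig
  have hG : ‖G0 z (0 : Tor d M)‖ ≤ 11669 := by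
    have h1 := norm_G0_near hd hM hz le_rfl hr (0 : Tor d M)
    have h2 : err z.im (nrm (0 : Tor d M)) ≤ 128 / z.im ^ 4 := by
      simp only [err, nrm_zero, Nat.cast_zero, add_zero]
      rw [div_le_div_iff₀ hz (by positivity)]
      have : z.im ^ 3 ≤ z.im := pow_le_of_le_one hz.le hz1 (by norm_num)
      have e : 32 * (2 / z.im) * z.im ^ 4 = 64 * z.im ^ 3 := by field_simp; norm_num
      linarith
    have h3 := div_le_div_of_nonneg_right h2 hM0.le
    linarith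
  have hav := av_Gh_le hz hG
  have hav' : av (fun k : Tor d M => ‖Gh z (k - p)‖) = av fun k : Tor d M => ‖Gh z k‖ :=
    av_equiv (Equiv.subRight p) fun k => ‖Gh z k‖
  have hsplit : fF (fun x => G0 z x * G0 z x) p =
      ∑ k, (if In k ∧ In (k - p) then ((vol d M : ℝ) : ℂ)⁻¹ else 0) * Gh z (k - p) * Gh z k +
      iF (fun k => if In k ∧ In (k - p) then 0 else Gh z k * Gh z (k - p)) 0 := by
    rw [fF_sq, iF, mul_sum, mul_sum, ← sum_add_distrib]
    refine sum_congr rfl fun k _ => ?_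
    rw [ch_zero]
    split_ifs <;> ring
  have hout : ‖iF (fun k => if In k ∧ In (k - p) then 0 else Gh z k * Gh z (k - p)) 0‖ ≤
      4 * (av (fun k : Tor d M => ‖Gh z k‖) + av fun k : Tor d M => ‖Gh z (k - p)‖) := by
    rw [← av_add, ← av_mul]
    refine (norm_iF_le _ _).trans (av_mono fun k => ?_)
    have n1 := norm_nonneg (Gh z k)
    have n2 := norm_nonneg (Gh z (k - p))
    split_ifs with h
    · rw [norm_zero]; positivity
    · rw [norm_mul]
      rcases not_and_or.1 h with h | h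
      · nlinarith [norm_Gh_out hr h]
      · nlinarith [norm_Gh_out hr h]
  have h1 : 1 ≤ 1 / √z.im := by rw [le_div_iff₀ ha]; linarith
  rw [hsplit]
  refine (norm_add_le _ _).trans ((add_le_add (norm_inner_le hd hM hz hz1 p) hout).trans ?_)
  rw [hav']
  have e2 : ∀ c : ℝ, c / √z.im = c * (1 / √z.im) := fun c => by ring
  rw [e2] at hav
  rw [e2 93312, e2 140000]
  linarith

end RR

theorem rr : RRStmt := by
  intro d hd
  refine ⟨140000, by norm_num, fun γ0 hγ0 => ⟨max 32 ⌈128 / γ0 ^ 4⌉₊, fun M _ hM z hr h0 h1 => ?_⟩⟩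
  have hz : 0 < z.im := hγ0.trans_le h0
  refine RR.norm_circ_le (fun x => G0 z x * G0 z x) (by positivity) fun p =>
    RR.norm_fF_sq_le hd (le_of_max_le_left hM) hz h1 (by linarith) ?_ p
  refine le_trans ?_ (Nat.ceil_le.1 (le_of_max_le_right hM))
  gcongr

end Crest.Agent.N334.AC.I
end

-- ▼ part N334/AC/I/Cap2
section

/-!
# Row 334, S0520, part I (helper24): capacity bound for separated sets
-/

set_option autoImplicit false
set_option linter.unusedSectionVars false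

open Finset Complex
open scoped ComplexConjugate

namespace Crest.Agent.N334.AC.I

variable {d M : ℕ} [NeZero M]

/-- convolution powers -/
noncomputable def cv (π : Tor d M → ℝ) : ℕ → Tor d M → ℝ
  | 0 => fun x => if x = 0 then 1 else 0
  | k + 1 => fun x => ∑ y, π (x - y) * cv π k y

lemma cv_nonneg {π : Tor d M → ℝ} (h : ∀ x, 0 ≤ π x) (k : ℕ) : ∀ x, 0 ≤ cv π k x := by
  induction k with
  | zero => intro x; simp only [cv]; positivity
  | succ k ih => exact fun x => sum_nonneg fun y _ => mul_nonneg (h _) (ih y)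

lemma fF_cv {π : Tor d M → ℝ} (he : ∀ x, π (-x) = π x) (k : ℕ) (p : Tor d M) :
    fF (fun x => (cv π k x : ℂ)) p = ((hat π p ^ k : ℝ) : ℂ) := by
  induction k with
  | zero =>
    simp only [fF, cv, pow_zero, ofReal_one]
    rw [sum_eq_single 0 (fun b _ hb => by simp [hb]) (by simp)]
    simp
  | succ k ih =>
    have := RR.fF_conv (fun x => (π x : ℂ)) (fun x => (cv π k x : ℂ)) p
    rw [ih, fF_even he] at this
    simp only [cv]
    push_cast at this ⊢
    rw [this, pow_succ']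

lemma Step.cv_mom {π : Tor d M → ℝ} {γ c : ℝ} (h : Step π γ c) (k : ℕ) :
    ∑ x, cv π k x * Real.exp (2 * (c * γ) * nrm x) ≤ 2 ^ k := by
  have hθ : 0 ≤ 2 * (c * γ) := by have := h.c_pos; have := h.γ_pos; positivity
  induction k with
  | zero =>
    rw [sum_eq_single 0 (fun b _ hb => by simp [cv, hb]) (by simp)]
    simp [cv]
  | succ k ih =>
    simp only [cv, sum_mul]
    rw [sum_comm, pow_succ]
    refine le_trans (sum_le_sum fun y _ => ?_) (le_trans (le_of_eq (sum_mul _ _ _).symm)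
      (mul_le_mul_of_nonneg_right ih zero_le_two))
    rw [← sum_add_right _ y]
    refine le_trans (sum_le_sum fun x _ => ?_) (le_trans (le_of_eq (mul_sum _ _ _).symm)
      (mul_le_mul_of_nonneg_left h.mom (mul_nonneg (cv_nonneg h.nonneg k y) (Real.exp_pos _).le)))
    have e : Real.exp (2 * (c * γ) * nrm (x + y)) ≤
        Real.exp (2 * (c * γ) * nrm y) * Real.exp (2 * (c * γ) * nrm x) := by
      rw [← Real.exp_add, ← mul_add]
      have : (nrm (x + y) : ℝ) ≤ nrm y + nrm x := by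
        rw [add_comm (nrm y : ℝ)]; exact_mod_cast nrm_add_le x y
      gcongr
    have := mul_le_mul_of_nonneg_left e (mul_nonneg (h.nonneg x) (cv_nonneg h.nonneg k y))
    rw [add_sub_cancel_right]
    linarith

lemma quad_eq (l f F : Tor d M → ℝ) (hF : ∀ p, fF (fun x => (f x : ℂ)) p = F p) :
    (av fun p => wt l p * F p) = ∑ x, ∑ y, l x * l y * f (x - y) := by
  have e := parseval' (fF fun x => ∑ y, (f (x - y) : ℂ) * l y) (fF fun x => (l x : ℂ))
  simp only [iF_fF, RR.fF_conv (fun x => (f x : ℂ)), hF, mul_assoc, Complex.mul_conj,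
    Complex.normSq_eq_norm_sq, Complex.conj_ofReal] at e
  have e2 : ((av fun p => wt l p * F p : ℝ) : ℂ) = ((∑ x, ∑ y, l x * l y * f (x - y) : ℝ) : ℂ) := by
    unfold av wt
    push_cast at e ⊢
    simp only [mul_comm _ (F _ : ℂ)]
    rw [← e]
    refine sum_congr rfl fun x _ => ?_
    rw [sum_mul]
    exact sum_congr rfl fun y _ => by ring
  exact_mod_cast e2

lemma av_eq (f F : Tor d M → ℝ) (hF : ∀ p, fF (fun x => (f x : ℂ)) p = F p) : av F = f 0 := by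
  have e := iF_fF (fun x => (f x : ℂ)) 0
  simp only [iF, hF, ch_zero, mul_one] at e
  unfold av
  exact_mod_cast e

lemma Step.quad_le {π : Tor d M → ℝ} {γ c : ℝ} (h : Step π γ c) {R : ℕ} {S : Finset (Tor d M)}
    (hS : Sep R S) {l : Tor d M → ℝ} (hl : ∀ x, x ∉ S → l x = 0) (k : ℕ) :
    (av fun p => wt l p * hat π p ^ k) ≤ (av fun p => hat π p ^ k) * ∑ x, l x ^ 2 +
      2 ^ k * Real.exp (-(2 * (c * γ) * R)) * (∑ x, |l x|) ^ 2 := by
  have hθ : 0 ≤ 2 * (c * γ) := by have := h.c_pos; have := h.γ_pos; positivity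
  rw [quad_eq l _ _ (fF_cv h.even k), av_eq _ _ (fF_cv h.even k), sq (∑ x, |l x|), sum_mul_sum,
    mul_sum, mul_sum, ← sum_add_distrib]
  refine sum_le_sum fun x _ => ?_
  have : cv π k 0 * l x ^ 2 = ∑ y, if y = x then cv π k 0 * l x ^ 2 else 0 := by simp
  rw [this, mul_sum, ← sum_add_distrib]
  refine sum_le_sum fun y _ => ?_
  split_ifs with hy
  · subst hy
    rw [sub_self]
    have : 0 ≤ 2 ^ k * Real.exp (-(2 * (c * γ) * R)) * (|l y| * |l y|) := by positivity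
    linarith
  by_cases hx : x ∈ S
  swap
  · simp [hl x hx]
  by_cases hy' : y ∈ S
  swap
  · simp [hl y hy']
  have e1 : (R : ℝ) ≤ nrm (x - y) := by exact_mod_cast hS x hx y hy' (Ne.symm hy)
  have e2 : cv π k (x - y) * Real.exp (2 * (c * γ) * nrm (x - y)) ≤ 2 ^ k :=
    (single_le_sum (f := fun x => cv π k x * Real.exp (2 * (c * γ) * nrm x))
      (fun x _ => mul_nonneg (cv_nonneg h.nonneg k x) (Real.exp_pos _).le) (mem_univ _)).trans
      (h.cv_mom k)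
  have e0 := cv_nonneg h.nonneg k (x - y)
  have e3 : cv π k (x - y) ≤ 2 ^ k * Real.exp (-(2 * (c * γ) * R)) := by
    rw [Real.exp_neg, ← div_eq_mul_inv, le_div_iff₀ (Real.exp_pos _)]
    refine le_trans ?_ e2
    gcongr
  rw [zero_add, mul_comm (_ * _) (|l x| * |l y|), ← abs_mul]
  exact mul_le_mul (le_abs_self _) e3 e0 (abs_nonneg _)

lemma geom_le {x y : ℝ} (hy : 0 < y) (h : |x| ≤ 1 - y) (m : ℕ) :
    ∑ k ∈ range (m + 2), x ^ k ≤ 1 + x + x ^ 2 / y := by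
  have h1 : ∀ m : ℕ, ∑ k ∈ range m, |x| ^ k ≤ 1 / y := by
    intro m
    induction m with
    | zero => simp [hy.le]
    | succ m ih =>
      rw [geom_sum_succ]
      have : |x| * ∑ k ∈ range m, |x| ^ k ≤ (1 - y) * (1 / y) :=
        mul_le_mul h ih (sum_nonneg fun k _ => by positivity) (by linarith [abs_nonneg x])
      have e : (1 - y) * (1 / y) + 1 = 1 / y := by field_simp; ring
      linarith
  have h2 : ∑ k ∈ range m, x ^ k ≤ 1 / y :=
    le_trans (sum_le_sum fun k _ => by rw [← abs_pow]; exact le_abs_self _) (h1 m)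
  rw [geom_sum_succ, geom_sum_succ]
  have := mul_le_mul_of_nonneg_left h2 (sq_nonneg x)
  rw [mul_one_div] at this
  linarith

lemma le_one_add_pow_four (a : ℝ) : a ≤ 1 + a ^ 4 := by
  nlinarith [sq_nonneg (a ^ 2 - 1 / 2), sq_nonneg (a - 1 / 2)]

lemma one_sub_pow_le {y : ℝ} (h0 : 0 ≤ y) (h1 : y ≤ 1) (n : ℕ) : (1 - y) ^ n * (1 + n * y) ≤ 1 := by
  have e1 := one_add_mul_le_pow (a := y) (by linarith) n
  calc _ ≤ (1 - y) ^ n * (1 + y) ^ n := by gcongr
    _ = (1 - y ^ 2) ^ n := by rw [← mul_pow]; ring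
    _ ≤ 1 := pow_le_one₀ (by nlinarith) (by nlinarith)

theorem Step.cap2 {π : Tor d M → ℝ} {γ c : ℝ} (h : Step π γ c) (hd : 3 ≤ d) (hM : 8 ≤ M)
    {R : ℕ} (hR : R ≤ 2 * M) {S : Finset (Tor d M)} (hS : Sep R S) {l : Tor d M → ℝ}
    (hl : ∀ x, x ∉ S → l x = 0) {ψ : Tor d M → ℝ} (hψ : Van ψ) {t a : ℝ} (ht : 0 < t) (ha : 0 < a)
    (haR : a ^ 4 ≤ c ^ 2 * γ * R) :
    (∑ x, l x * ψ x) ^ 2 ≤ (1 + t) * ((1 + π 0 + (2 * M + 3) / vol d M +
      (∑ x, π x ^ 2 + 14 ^ d * γ ^ 2) / c) * ∑ x, l x ^ 2 + ((8 + 14 ^ d / c) / a +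
      4 * (1 + (γ * M) ^ 2) / (c * t * vol d M)) * (∑ x, |l x|) ^ 2) * Dir π ψ := by
  have hc := h.c_pos
  have hc1 := h.c_le
  have hγ := h.γ_pos
  have hγ1 := h.γ_le
  have hv := vol_pos (d := d) (M := M)
  refine (h.dual (by omega) hM l hψ ht).trans
    (mul_le_mul_of_nonneg_right (mul_le_mul_of_nonneg_left ?_ (by positivity)) (h.Dir_nonneg ψ))
  set L := (∑ x, |l x|) ^ 2
  have hL : 0 ≤ L := sq_nonneg _
  set s := ∑ x, l x ^ 2
  have hs : 0 ≤ s := sum_nonneg fun _ _ => sq_nonneg _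
  set T := c * γ * R with hT
  have hT0 : 0 ≤ T := by positivity
  set n := ⌈T⌉₊ + 2 with hn
  have hn1 : T ≤ n := (Nat.le_ceil T).trans (by rw [hn]; push_cast; linarith)
  have hn2 : (n : ℝ) ≤ T + 3 := by rw [hn]; push_cast; linarith [Nat.ceil_lt_add_one hT0]
  have h00 : hat π 0 = 1 := by simp [hat, h.sum_one]
  -- pointwise splitting
  have h1 : (av fun p => if p = 0 then 0 else wt l p / (1 - hat π p)) ≤
      av fun p => ∑ k ∈ range n, wt l p * hat π p ^ k + L / (c * a) * uu p ^ 5 := by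
    refine av_mono fun p => ?_
    have w0 := wt_nonneg l p
    have w1 := wt_le l p
    have u0 := uu_nonneg p
    split_ifs with hp
    · subst hp; rw [h00]; positivity
    have mp := mm_pos hγ hp
    have m0 := mul_pos hc mp
    have m1 : c * mm γ p ≤ 1 := by nlinarith [mm_le_one γ p]
    have l0 := m0.trans_le (h.le_lam p)
    have u1 := one_le_uu hp
    have e1 : wt l p / (1 - hat π p) =
        ∑ k ∈ range n, wt l p * hat π p ^ k + wt l p * (hat π p ^ n / (1 - hat π p)) := by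
      rw [← mul_sum, ← mul_add, div_eq_mul_one_div]
      congr 1
      rw [div_eq_iff l0.ne', add_mul, div_mul_cancel₀ _ l0.ne', mul_comm, mul_neg_geom_sum]; ring
    have e2 := (inv_mm_le hγ hp).2 hγ1
    have e3 : a / uu p ≤ 1 + n * (c * mm γ p) := by
      refine (le_one_add_pow_four _).trans ?_
      have : (uu p ^ 4)⁻¹ ≤ mm γ p := inv_le_of_inv_le₀ mp e2
      have e : a ^ 4 ≤ n * c := haR.trans (by nlinarith)
      rw [div_pow, div_eq_mul_inv, ← mul_assoc]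
      gcongr
    have e4 : |hat π p| ^ n ≤ uu p / a := by
      have e5 := one_sub_pow_le m0.le m1 n
      have e6 : |hat π p| ^ n ≤ (1 - c * mm γ p) ^ n := pow_le_pow_left₀ (abs_nonneg _) (h.symb p) n
      have e7 : |hat π p| ^ n * (a / uu p) ≤ 1 :=
        le_trans (mul_le_mul e6 e3 (by positivity) (pow_nonneg (by linarith) n)) e5
      rw [le_div_iff₀ ha]
      rwa [← mul_div_assoc, div_le_one (by linarith)] at e7
    have e5 : hat π p ^ n / (1 - hat π p) ≤ uu p / a * (c⁻¹ * uu p ^ 4) := by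
      rw [div_eq_mul_inv (hat π p ^ n)]
      refine mul_le_mul (le_trans (by rw [← abs_pow]; exact le_abs_self _) e4) ?_ (by positivity)
        (by positivity)
      refine (inv_anti₀ m0 (h.le_lam p)).trans ?_
      rw [mul_inv]; gcongr
    rw [e1]
    refine add_le_add_right ?_ _
    calc _ ≤ wt l p * (uu p / a * (c⁻¹ * uu p ^ 4)) := by gcongr
      _ ≤ L * (uu p / a * (c⁻¹ * uu p ^ 4)) := by gcongr
      _ = _ := by field_simp
  have hsum : ∀ F : ℕ → Tor d M → ℝ, (av fun p => ∑ k ∈ range n, F k p) =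
      ∑ k ∈ range n, av (F k) := by
    intro F; unfold av; rw [sum_comm, mul_sum]
  rw [av_add, av_mul, hsum] at h1
  have h2 : ∑ k ∈ range n, (av fun p => wt l p * hat π p ^ k) ≤
      (av fun p => ∑ k ∈ range n, hat π p ^ k) * s +
        (∑ k ∈ range n, (2 : ℝ) ^ k) * Real.exp (-(2 * (c * γ) * R)) * L := by
    rw [hsum, sum_mul, sum_mul, sum_mul, ← sum_add_distrib]
    exact sum_le_sum fun k _ => h.quad_le hS hl k
  have h3 : (av fun p => ∑ k ∈ range n, hat π p ^ k) ≤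
      1 + π 0 + (2 * M + 3) / vol d M + (∑ x, π x ^ 2 + 14 ^ d * γ ^ 2) / c := by
    rw [av_split]
    have e1 : (av fun p => if p = 0 then 0 else ∑ k ∈ range n, hat π p ^ k) ≤
        av fun p => (1 + hat π p) + if p = 0 then 0 else hat π p ^ 2 / (c * mm γ p) := by
      refine av_mono fun p => ?_
      split_ifs with hp
      · subst hp; rw [h00]; norm_num
      · exact geom_le (mul_pos hc (mm_pos hγ hp)) (h.symb p) _
    rw [av_add, av_add, av_const, av_eq _ _ (fF_even h.even)] at e1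
    have e2 : (vol d M)⁻¹ * ∑ k ∈ range n, hat π 0 ^ k ≤ (2 * M + 3) / vol d M := by
      simp only [h00, one_pow, sum_const, card_range, nsmul_eq_mul, mul_one]
      rw [div_eq_inv_mul]
      have e3 : (R : ℝ) ≤ 2 * M := by exact_mod_cast hR
      have e4 : T ≤ R := mul_le_of_le_one_left (by positivity) (by nlinarith)
      gcongr; linarith
    linarith [h.av_rem hd]
  have h4 : (∑ k ∈ range n, (2 : ℝ) ^ k) * Real.exp (-(2 * (c * γ) * R)) ≤ 8 / a := by
    have e1 : ∑ k ∈ range n, (2 : ℝ) ^ k ≤ 8 * Real.exp T := by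
      rw [geom_sum_eq (by norm_num)]
      have e2 : (2 : ℝ) ^ n ≤ 2 ^ (T + 3) := by
        rw [← Real.rpow_natCast]; exact Real.rpow_le_rpow_of_exponent_le (by norm_num) hn2
      have e3 : (2 : ℝ) ^ T ≤ Real.exp T := by
        rw [← Real.exp_one_rpow]
        exact Real.rpow_le_rpow (by norm_num) (by linarith [Real.add_one_le_exp 1]) hT0
      rw [Real.rpow_add (by norm_num)] at e2
      norm_num at e2 ⊢
      linarith
    have e2 : a ≤ Real.exp T := by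
      have : c ^ 2 * γ * R ≤ T := by rw [hT]; gcongr; nlinarith
      linarith [le_one_add_pow_four a, Real.add_one_le_exp T]
    calc _ ≤ 8 * Real.exp T * Real.exp (-(2 * (c * γ) * R)) := by gcongr
      _ = 8 / Real.exp T := by
        rw [mul_assoc, ← Real.exp_add, div_eq_mul_inv, ← Real.exp_neg]; congr 2; rw [hT]; ring
      _ ≤ _ := by gcongr
  have h5 : L / (c * a) * (av fun p : Tor d M => uu p ^ 5) ≤ 14 ^ d / c / a * L := by
    calc _ ≤ L / (c * a) * 14 ^ d := by gcongr; exact av_uu hd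
      _ = _ := by field_simp
  have h6 := mul_le_mul_of_nonneg_right h3 hs
  have h7 := mul_le_mul_of_nonneg_right h4 hL
  rw [add_div (8 : ℝ), add_mul _ _ L, add_mul _ _ L]
  linarith

end Crest.Agent.N334.AC.I
private theorem rz_cc3dd7f20c : type_of% @_root_.Crest.Agent.N334.AC.I.cv.eq_def := @_root_.Crest.Agent.N334.AC.I.cv.eq_def -- L19
private theorem rz_db6aef81a3 : type_of% @_root_.Crest.Agent.N334.AC.I.cv.eq_1 := @_root_.Crest.Agent.N334.AC.I.cv.eq_1 -- L19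
end

-- ▼ part N334/AC/I/Poin
section

/-!
# Row 334, S0520, part I: Poincaré inequalities for step distributions (helper6)
-/

set_option autoImplicit false
set_option linter.unusedSectionVars false

open Finset Complex

namespace Crest.Agent.N334.AC.I

variable {d M : ℕ} [NeZero M]

lemma abs_vma_le (u : Tor d M) (j : Fin d) : |((u j).valMinAbs : ℝ)| ≤ nrm u := by
  rw [← Int.cast_abs, Int.abs_eq_natAbs]
  exact_mod_cast le_nrm u j

lemma norm_ch_sub_one_le (p u : Tor d M) :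
    ‖ch p u - 1‖ ≤ 2 * Real.pi * d * (nrm p / M) * nrm u := by
  have hM : (0 : ℝ) < M := Nat.cast_pos.2 (NeZero.pos M)
  have h1 : ch p u = exp (((∑ j, (u j).valMinAbs * ang (p j) : ℝ) : ℂ) * I) := by
    rw [ch_eq_prod, ofReal_sum, sum_mul, Complex.exp_sum]
    exact prod_congr rfl fun j _ => by rw [← std_mul_int, ZMod.coe_valMinAbs]
  have h2 := norm_exp_sub_le (∑ j, (u j).valMinAbs * ang (p j)) 0
  rw [← h1, ofReal_zero, zero_mul, Complex.exp_zero, sub_zero] at h2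
  refine h2.trans ((abs_sum_le_sum_abs _ _).trans ((sum_le_card_nsmul _ _
    (nrm u * (2 * Real.pi * (nrm p / M))) fun j _ => ?_).trans_eq ?_))
  · rw [abs_mul, ang, mul_div_assoc, abs_mul, abs_div, abs_of_pos hM,
      abs_of_pos Real.two_pi_pos]
    gcongr <;> exact abs_vma_le _ j
  · rw [card_univ, Fintype.card_fin, nsmul_eq_mul]; ring

lemma normSq_ch_le {γ : ℝ} (hγ : 0 < γ) (p u : Tor d M) :
    ‖ch p u - 1‖ ^ 2 ≤ (4 + 64 * d ^ 2) * (1 + (γ * nrm u) ^ 2) * mm γ p := by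
  have hM : (0 : ℝ) < M := Nat.cast_pos.2 (NeZero.pos M)
  rw [mm, mul_min_of_nonneg _ _ (by positivity), le_min_iff]
  constructor
  · have h1 : (ch p u).re ≥ -1 := by
      have := (abs_le.1 (Complex.abs_re_le_norm (ch p u))).1
      rwa [norm_ch] at this
    rw [normSq_ch_sub_one]
    nlinarith [sq_nonneg (γ * nrm u), sq_nonneg (d : ℝ),
      mul_nonneg (sq_nonneg (d : ℝ)) (sq_nonneg (γ * nrm u))]
  · have h1 : ‖ch p u - 1‖ ≤ 8 * d * (γ * nrm u) * (nrm p / (γ * M)) :=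
      (norm_ch_sub_one_le p u).trans (by
        rw [show 8 * d * (γ * nrm u) * (nrm p / (γ * M)) = 2 * 4 * (d : ℝ) * (nrm p / M) * nrm u by
          field_simp; ring]
        gcongr
        exact Real.pi_le_four)
    refine (pow_le_pow_left₀ (norm_nonneg _) h1 2).trans ?_
    rw [mul_pow]
    gcongr
    nlinarith [sq_nonneg (γ * nrm u), sq_nonneg (d : ℝ)]

lemma Step.shift_le {π : Tor d M → ℝ} {γ c : ℝ} (h : Step π γ c) (ψ : Tor d M → ℝ) (u : Tor d M) :
    ∑ x, (ψ (x + u) - ψ x) ^ 2 ≤ (4 + 64 * d ^ 2) / c * (1 + (γ * nrm u) ^ 2) * Dir π ψ := by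
  have hc := h.c_pos
  rw [sum_shift_sq, Dir_eq h.sum_one, ← av_mul]
  refine av_mono fun p => ?_
  rw [← mul_assoc]
  refine mul_le_mul_of_nonneg_right ((normSq_ch_le h.γ_pos p u).trans ?_) (wt_nonneg _ _)
  refine le_trans (le_of_eq ?_) (mul_le_mul_of_nonneg_left (h.le_lam p) (by positivity))
  field_simp

lemma sum_pow_val_le {r : ℝ} (h0 : 0 ≤ r) (h1 : r < 1) : ∑ a : ZMod M, r ^ a.val ≤ (1 - r)⁻¹ := by
  rw [← tsum_geometric_of_lt_one h0 h1]
  refine le_of_eq_of_le ?_ ((summable_geometric_of_lt_one h0 h1).sum_le_tsum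
    (univ.map ⟨ZMod.val, ZMod.val_injective M⟩) fun n _ => by positivity)
  rw [sum_map]
  rfl

lemma sum_exp_line {s : ℝ} (h0 : 0 < s) (h1 : s ≤ 1) :
    ∑ a : ZMod M, Real.exp (-s) ^ a.valMinAbs.natAbs ≤ 4 / s := by
  have r0 := (Real.exp_pos (-s)).le
  have r1 : Real.exp (-s) ≤ 1 - s / 2 := by
    rw [Real.exp_neg, inv_le_iff_one_le_mul₀ (Real.exp_pos s)]
    nlinarith [Real.add_one_le_exp s]
  have h2 := sum_pow_val_le (M := M) r0 (by linarith)
  have h3 : (1 - Real.exp (-s))⁻¹ ≤ 2 / s := by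
    rw [← inv_div]
    exact inv_anti₀ (by positivity) (by linarith)
  have h4 : ∀ a : ZMod M, Real.exp (-s) ^ a.valMinAbs.natAbs ≤
      Real.exp (-s) ^ a.val + Real.exp (-s) ^ (-a).val := fun a => by
    rw [ZMod.valMinAbs_natAbs_eq_min, ZMod.neg_val]
    split_ifs with h
    · simp [h]
    · rcases min_choice a.val (M - a.val) with e | e <;> rw [e]
      · exact le_add_of_nonneg_right (by positivity)
      · exact le_add_of_nonneg_left (by positivity)
  refine (sum_le_sum fun a _ => h4 a).trans ?_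
  rw [sum_add_distrib, show ∑ a : ZMod M, Real.exp (-s) ^ (-a).val = _ from
    Equiv.sum_comp (Equiv.neg _) fun a : ZMod M => Real.exp (-s) ^ a.val,
    show 4 / s = 2 / s + 2 / s by ring]
  linarith

lemma sum_exp_nrm_le {θ : ℝ} (h0 : 0 < θ) (h1 : θ ≤ 1) :
    ∑ u : Tor d M, Real.exp (-θ * nrm u) ≤ (4 * (d + 1) / θ) ^ d := by
  have hd : (0 : ℝ) ≤ d := Nat.cast_nonneg d
  have s0 : 0 < θ / (d + 1) := by positivity
  have h2 := sum_exp_line (M := M) s0 ((div_le_one (by positivity)).2 (by linarith))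
  calc ∑ u : Tor d M, Real.exp (-θ * nrm u)
      ≤ ∑ u : Tor d M, ∏ j, Real.exp (-(θ / (d + 1))) ^ (u j).valMinAbs.natAbs := by
        refine sum_le_sum fun u _ => ?_
        rw [prod_pow_eq_pow_sum, ← Real.exp_nat_mul, Real.exp_le_exp]
        have h3 : ((∑ j, (u j).valMinAbs.natAbs : ℕ) : ℝ) ≤ (d + 1) * nrm u := by
          have := sum_le_card_nsmul univ _ _ fun j _ => le_nrm u j
          rw [card_univ, Fintype.card_fin, smul_eq_mul] at this
          exact_mod_cast this.trans (Nat.mul_le_mul_right _ (Nat.le_succ d))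
        have h4 := mul_le_mul_of_nonneg_right h3 s0.le
        rw [show (d + 1) * nrm u * (θ / (d + 1)) = θ * nrm u by field_simp] at h4
        linarith
    _ = (∑ a : ZMod M, Real.exp (-(θ / (d + 1))) ^ a.valMinAbs.natAbs) ^ d := by
        rw [← Fintype.piFinset_univ, ← Finset.prod_univ_sum (fun _ => univ)
          (fun (_ : Fin d) (a : ZMod M) => Real.exp (-(θ / (d + 1))) ^ a.valMinAbs.natAbs),
          prod_const, card_univ, Fintype.card_fin]
    _ ≤ _ := pow_le_pow_left₀ (sum_nonneg fun _ _ => by positivity) (h2.trans_eq (by field_simp)) d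

lemma sq_mul_exp_le {θ r : ℝ} (h0 : 0 < θ) (h1 : θ ≤ 1) (hr : 0 ≤ r) :
    Real.exp (-θ * r) * (1 + r ^ 2) ≤ 9 / θ ^ 2 * Real.exp (-(θ / 2) * r) := by
  have h2 := Real.quadratic_le_exp_of_nonneg (x := θ / 2 * r) (by positivity)
  have h3 : Real.exp (-(θ / 2) * r) = Real.exp (-θ * r) * Real.exp (θ / 2 * r) := by
    rw [← Real.exp_add]; congr 1; ring
  rw [h3, mul_left_comm]
  refine mul_le_mul_of_nonneg_left ?_ (Real.exp_pos _).le
  rw [div_mul_eq_mul_div, le_div_iff₀ (by positivity)]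
  nlinarith [mul_nonneg h0.le hr, sq_nonneg (θ * r)]

theorem poin : PoinStmt := by
  intro d c hc
  have hd : (0 : ℝ) ≤ d := Nat.cast_nonneg d
  have hK : 0 ≤ (4 + 64 * (d : ℝ) ^ 2) / c := by positivity
  set K := (4 + 64 * (d : ℝ) ^ 2) / c with hKd
  refine ⟨K + 8 * (d + 1), by linarith, fun M _ π γ h => ⟨fun ψ u => (h.shift_le ψ u).trans ?_,
    fun θ h0 h1 => (sum_exp_nrm_le h0 h1).trans ?_, fun θ h0 h1 ψ => ?_⟩⟩
  · have := h.Dir_nonneg ψ
    gcongr
    linarith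
  · gcongr
    linarith
  have hD := h.Dir_nonneg ψ
  have hγ := h.γ_pos
  rw [sum_sum_sub]
  simp only [tdist_eq, add_sub_cancel_left, ← mul_sum]
  calc ∑ u : Tor d M, Real.exp (-θ * nrm u) * ∑ x, (ψ (x + u) - ψ x) ^ 2
      ≤ ∑ u : Tor d M, K * (9 / θ ^ 2) * Dir π ψ * Real.exp (-(θ / 2) * nrm u) := by
        refine sum_le_sum fun u _ => ?_
        have h2 : ∑ x, (ψ (x + u) - ψ x) ^ 2 ≤ K * (1 + (nrm u : ℝ) ^ 2) * Dir π ψ :=
          (h.shift_le ψ u).trans (by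
            gcongr
            exact mul_le_of_le_one_left (Nat.cast_nonneg _) h.γ_le)
        have h3 := mul_le_mul_of_nonneg_left (sq_mul_exp_le h0 h1 (Nat.cast_nonneg (nrm u)))
          (mul_nonneg hK hD)
        nlinarith [mul_le_mul_of_nonneg_left h2 (Real.exp_pos (-θ * nrm u)).le]
    _ ≤ K * (9 / θ ^ 2) * Dir π ψ * (4 * (d + 1) / (θ / 2)) ^ d := by
        rw [← mul_sum]
        exact mul_le_mul_of_nonneg_left (sum_exp_nrm_le (half_pos h0) (by linarith))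
          (by positivity)
    _ ≤ (K + 8 * (d + 1)) / θ * ((K + 8 * (d + 1)) / θ) ^ 2 * Dir π ψ *
          ((K + 8 * (d + 1)) / θ) ^ d := by
        rw [show 4 * (d + 1) / (θ / 2) = 8 * (d + 1) / θ by field_simp; ring,
          show 9 / θ ^ 2 = (3 / θ) ^ 2 by rw [div_pow]; norm_num]
        gcongr
        · rw [le_div_iff₀ h0]; nlinarith
        · linarith
        · linarith
    _ = _ := by ring

end Crest.Agent.N334.AC.I
end

-- ▼ part N334/AC/I/Cut

/-!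
# Row 334, S0520, part I: sliding cut-offs (`CutStmt` from `PoinStmt`)
-/

set_option autoImplicit false
set_option linter.unusedSectionVars false

open Finset

namespace Crest.Agent.N334.AC.I

namespace Ct

variable {d M : ℕ} [NeZero M]

/-! ### counting -/

lemma mem_tball {p x : Tor d M} {r : ℕ} : x ∈ tball p r ↔ tdist x p ≤ r := by simp [tball]

lemma tdist_comm (x y : Tor d M) : tdist x y = tdist y x := nrm_sub_comm x y

lemma tdist_tri (x y z : Tor d M) : tdist x z ≤ tdist x y + tdist y z := by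
  have := nrm_add_le (x - y) (y - z)
  rwa [sub_add_sub_cancel] at this

lemma card_le_one (p : Tor d M) (r : ℕ) : (tball p r).card ≤ (2 * r + 1) ^ d := by
  have h : (Fintype.piFinset fun _ : Fin d => Icc (-(r : ℤ)) r).card = (2 * r + 1) ^ d := by
    rw [Fintype.card_piFinset, prod_const, card_univ, Fintype.card_fin, Int.card_Icc]
    congr 1
    omega
  rw [← h]
  refine card_le_card_of_injOn (fun x j => (x j - p j).valMinAbs) (fun x hx => ?_)
    fun x _ y _ e => funext fun j => ?_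
  · refine mem_coe.2 (Fintype.mem_piFinset.2 fun j => mem_Icc.2 ?_)
    have : (x j - p j).valMinAbs.natAbs ≤ r := nrm_le.1 (mem_tball.1 hx) j
    change -(r : ℤ) ≤ (x j - p j).valMinAbs ∧ (x j - p j).valMinAbs ≤ r
    constructor <;> omega
  · exact sub_left_injective (ZMod.injective_valMinAbs (congrFun e j))

lemma card_le_two (p : Tor d M) (r : ℕ) : (tball p r).card ≤ M ^ d := by
  simpa [Fintype.card_pi, ZMod.card] using card_le_univ (tball p r)

lemma card_ge {A : Finset (Tor d M)} (x₀ : Tor d M) {s : ℤ} (hs : s = 1 ∨ s = -1) {t : ℕ}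
    (ht : t ≤ M) (h : ∀ k : Fin d → ℕ, (∀ j, k j < t) → (x₀ + fun j => ((s * k j : ℤ) : ZMod M)) ∈ A) :
    t ^ d ≤ A.card := by
  have e : (Fintype.piFinset fun _ : Fin d => range t).card = t ^ d := by simp
  rw [← e]
  refine card_le_card_of_injOn (fun k => x₀ + fun j => ((s * k j : ℤ) : ZMod M))
    (fun k hk => h k fun j => mem_range.1 (Fintype.mem_piFinset.1 hk j))
    fun k hk k' hk' e => funext fun j => ?_
  have h1 := mem_range.1 (Fintype.mem_piFinset.1 hk j)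
  have h2 := mem_range.1 (Fintype.mem_piFinset.1 hk' j)
  have h3 : ((k j : ℕ) : ZMod M) = (k' j : ℕ) := by
    have := congrFun (add_left_cancel e) j
    rcases hs with rfl | rfl <;> simpa using this
  have := congrArg ZMod.val h3
  rwa [ZMod.val_natCast_of_lt (by omega), ZMod.val_natCast_of_lt (by omega)] at this

lemma tdist_step (x₀ : Tor d M) {s : ℤ} (hs : s = 1 ∨ s = -1) {t : ℕ} {k : Fin d → ℕ}
    (h : ∀ j, k j < t) : tdist (x₀ + fun j => ((s * k j : ℤ) : ZMod M)) x₀ ≤ t := by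
  rw [tdist_eq, add_sub_cancel_left, nrm_le]
  intro j
  have := natAbs_valMinAbs_int (M := M) (s * k j)
  have := h j
  rcases hs with rfl | rfl <;> omega

lemma exists_sign {b : ZMod M} (hb : M < 4 * b.valMinAbs.natAbs) : ∃ s : ℤ, (s = 1 ∨ s = -1) ∧
    ∀ k : ℕ, 8 * k ≤ M → M < 4 * (b + ((s * k : ℤ) : ZMod M)).valMinAbs.natAbs := by
  have h0 := ZMod.valMinAbs_mem_Ioc b
  have key : ∀ n : ℤ, (M : ℤ) ∣ b.valMinAbs + n - (b + (n : ZMod M)).valMinAbs := fun n =>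
    (ZMod.intCast_zmod_eq_zero_iff_dvd _ M).1 (by simp)
  simp only [Set.mem_Ioc] at h0
  rcases le_total 0 b.valMinAbs with h | h
  · refine ⟨1, Or.inl rfl, fun k hk => not_le.1 fun hc => ?_⟩
    have := Int.le_of_dvd (by omega) (key (1 * k))
    omega
  · refine ⟨-1, Or.inr rfl, fun k hk => not_le.1 fun hc => ?_⟩
    have := Int.le_of_dvd (by omega) (dvd_neg.2 (key (-1 * k)))
    omega

open Classical in
/-- the centring set -/
noncomputable def cs (L : ℕ) (p : Tor d M) : Finset (Tor d M) :=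
  if ∃ x ∈ absb d M, tdist x p ≤ 3 * L then absb d M ∩ tball p (4 * L) else tball p (4 * L)

lemma cs_sub (L : ℕ) (p : Tor d M) : cs L p ⊆ tball p (4 * L) := by
  unfold cs
  split_ifs
  exacts [inter_subset_right, Subset.rfl]

lemma ball_ge (p : Tor d M) {t r : ℕ} (ht : t ≤ M) (hr : t ≤ r) : t ^ d ≤ (tball p r).card :=
  card_ge p (Or.inl rfl) ht fun _ hk => mem_tball.2 ((tdist_step p (Or.inl rfl) hk).trans hr)

lemma cs_ge (L : ℕ) (p : Tor d M) : (min L (M / 8)) ^ d ≤ (cs L p).card := by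
  unfold cs
  split_ifs with h
  · obtain ⟨x, hx, hp⟩ := h
    obtain ⟨j, hj, hb⟩ := (mem_filter.1 hx).2
    obtain ⟨s, hs, h⟩ := exists_sign hb
    refine card_ge x hs (by omega) fun k hk => mem_inter.2
      ⟨mem_filter.2 ⟨mem_univ _, j, hj, h (k j) (by have := hk j; omega)⟩, mem_tball.2 ?_⟩
    have := tdist_step x hs hk
    have := tdist_tri (x + fun j => ((s * k j : ℤ) : ZMod M)) x p
    omega
  · exact ball_ge p (by omega) (by omega)

lemma ball_le (hM : 8 ≤ M) {L r : ℕ} (hL : 1 ≤ L) (hr : r ≤ 8 * L) (p : Tor d M) :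
    (tball p r).card ≤ 17 ^ d * (min L (M / 8)) ^ d := by
  rw [← mul_pow]
  rcases le_total L (M / 8) with h | h
  · exact (card_le_one p r).trans (Nat.pow_le_pow_left (by omega) d)
  · exact (card_le_two p r).trans (Nat.pow_le_pow_left (by omega) d)

lemma sum_ball {r : ℕ} {U : ℝ} (hU : ∀ p : Tor d M, ((tball p r).card : ℝ) ≤ U) {F : Tor d M → ℝ}
    (hF : ∀ x, 0 ≤ F x) : ∑ p, ∑ x ∈ tball p r, F x ≤ U * ∑ x, F x := by
  rw [sum_comm' (t' := univ) (s' := fun x => tball x r) fun p x => by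
    simp only [mem_univ, true_and, and_true, mem_tball, tdist_comm], mul_sum]
  refine sum_le_sum fun x _ => ?_
  rw [sum_const, nsmul_eq_mul]
  exact mul_le_mul_of_nonneg_right (hU x) (hF x)

lemma sum_ball_shift (r : ℕ) (G : Tor d M → Tor d M → ℝ) :
    ∑ x, ∑ a ∈ tball x r, G a x = ∑ u ∈ tball (0 : Tor d M) r, ∑ x, G (x + u) x := by
  rw [sum_comm]
  refine sum_congr rfl fun x _ => (sum_bijective (fun u => x + u) (Equiv.addLeft x).bijective
    (fun u => ?_) fun _ _ => rfl).symm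
  simp only [mem_tball, tdist_eq, add_sub_cancel_left, sub_zero]

/-! ### the centring functional -/

/-- average over the centring set -/
noncomputable def cp (L : ℕ) (p : Tor d M) : (Tor d M → ℝ) →ₗ[ℝ] ℝ :=
  ((cs L p).card : ℝ)⁻¹ • ∑ a ∈ cs L p, LinearMap.proj a

lemma cp_apply (L : ℕ) (p : Tor d M) (ψ : Tor d M → ℝ) :
    cp L p ψ = ((cs L p).card : ℝ)⁻¹ * ∑ a ∈ cs L p, ψ a := by
  simp [cp]

lemma jensen {L : ℕ} {T : ℝ} (hT : 0 < T) {p : Tor d M} (h : T ≤ (cs L p).card) (ψ : Tor d M → ℝ)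
    (r : ℝ) : (r - cp L p ψ) ^ 2 ≤ T⁻¹ * ∑ a ∈ tball p (4 * L), (ψ a - r) ^ 2 := by
  have h0 : (0 : ℝ) < (cs L p).card := hT.trans_le h
  have h1 : r - cp L p ψ = -(((cs L p).card : ℝ)⁻¹ * ∑ a ∈ cs L p, (ψ a - r)) := by
    rw [cp_apply, sum_sub_distrib, sum_const, nsmul_eq_mul]
    field_simp
    ring
  have h2 := sq_sum_le_card_mul_sum_sq (s := cs L p) (f := fun a => ψ a - r)
  calc (r - cp L p ψ) ^ 2 = (((cs L p).card : ℝ)⁻¹) ^ 2 * (∑ a ∈ cs L p, (ψ a - r)) ^ 2 := by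
        rw [h1]; ring
    _ ≤ (((cs L p).card : ℝ)⁻¹) ^ 2 * ((cs L p).card * ∑ a ∈ cs L p, (ψ a - r) ^ 2) := by gcongr
    _ = ((cs L p).card : ℝ)⁻¹ * ∑ a ∈ cs L p, (ψ a - r) ^ 2 := by field_simp
    _ ≤ _ := mul_le_mul (inv_anti₀ hT h) (sum_le_sum_of_subset_of_nonneg (cs_sub L p)
        fun _ _ _ => sq_nonneg _) (sum_nonneg fun _ _ => sq_nonneg _) (inv_nonneg.2 hT.le)

/-- the key estimate -/
lemma key {L r : ℕ} (hr : r ≤ 4 * L) {T D P : ℝ} (hT : 0 < T) (hD : 0 ≤ D) (hP : 0 ≤ P)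
    (h1 : ∀ p : Tor d M, T ≤ (cs L p).card)
    (h2 : ∀ r ≤ 8 * L, ∀ p : Tor d M, ((tball p r).card : ℝ) ≤ D * T) {ψ : Tor d M → ℝ}
    (h3 : ∀ u : Tor d M, nrm u ≤ 8 * L → ∑ x, (ψ (x + u) - ψ x) ^ 2 ≤ P) :
    ∑ p, ∑ x ∈ tball p r, (ψ x - cp L p ψ) ^ 2 ≤ D ^ 2 * T * P := by
  calc ∑ p, ∑ x ∈ tball p r, (ψ x - cp L p ψ) ^ 2
      ≤ ∑ p, ∑ x ∈ tball p r, T⁻¹ * ∑ a ∈ tball x (8 * L), (ψ a - ψ x) ^ 2 := by
        refine sum_le_sum fun p _ => sum_le_sum fun x hx => (jensen hT (h1 p) ψ _).trans ?_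
        refine mul_le_mul_of_nonneg_left (sum_le_sum_of_subset_of_nonneg (fun a ha => ?_)
          fun _ _ _ => sq_nonneg _) (inv_nonneg.2 hT.le)
        rw [mem_tball] at *
        have := tdist_tri a p x
        rw [tdist_comm p x] at this
        omega
    _ ≤ D * T * ∑ x, T⁻¹ * ∑ a ∈ tball x (8 * L), (ψ a - ψ x) ^ 2 :=
        sum_ball (F := fun x => T⁻¹ * ∑ a ∈ tball x (8 * L), (ψ a - ψ x) ^ 2) (h2 r (by omega))
          fun x => mul_nonneg (inv_nonneg.2 hT.le) (sum_nonneg fun _ _ => sq_nonneg _)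
    _ = D * ∑ u ∈ tball (0 : Tor d M) (8 * L), ∑ x, (ψ (x + u) - ψ x) ^ 2 := by
        rw [← mul_sum, sum_ball_shift _ fun a x => (ψ a - ψ x) ^ 2]
        field_simp
    _ ≤ D * (D * T * P) := by
        refine mul_le_mul_of_nonneg_left ((sum_le_card_nsmul _ _ P fun u hu => h3 u ?_).trans ?_) hD
        · simpa [tdist_eq] using mem_tball.1 hu
        · rw [nsmul_eq_mul]
          exact mul_le_mul_of_nonneg_right (h2 _ le_rfl 0) hP
    _ = _ := by ring

/-! ### the cut-off -/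

/-- the cut-off -/
noncomputable def chi (L : ℕ) (p x : Tor d M) : ℝ := max 0 (min 1 ((3 * L - tdist x p) / L))

lemma clamp_lip (s t : ℝ) : |max 0 (min 1 s) - max 0 (min 1 t)| ≤ |s - t| := by
  have h1 := abs_max_sub_max_le_max 0 (min 1 s) 0 (min 1 t)
  have h2 := abs_min_sub_min_le_max 1 s 1 t
  simp only [sub_self, abs_zero, abs_nonneg, max_eq_right] at h1 h2
  exact h1.trans h2

lemma chi_lip {L : ℕ} (hL : 1 ≤ L) (p a b : Tor d M) :
    (chi L p a - chi L p b) ^ 2 ≤ ((tdist a b : ℝ) / L) ^ 2 := by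
  have h0 : (0 : ℝ) < L := by exact_mod_cast hL
  rw [← sq_abs]
  refine pow_le_pow_left₀ (abs_nonneg _) ((clamp_lip _ _).trans ?_) 2
  rw [← sub_div, abs_div, abs_of_pos h0]
  refine div_le_div_of_nonneg_right ?_ h0.le
  have h1 : (tdist a p : ℝ) ≤ tdist a b + tdist b p := by exact_mod_cast tdist_tri a b p
  have h2 : (tdist b p : ℝ) ≤ tdist a b + tdist a p := by
    rw [tdist_comm a b]; exact_mod_cast tdist_tri b a p
  rw [abs_le]
  constructor <;> linarith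

lemma chi_nonneg (L : ℕ) (p x : Tor d M) : 0 ≤ chi L p x := le_max_left _ _

lemma chi_le_one (L : ℕ) (p x : Tor d M) : chi L p x ≤ 1 := max_le zero_le_one (min_le_left _ _)

lemma chi_zero {L : ℕ} {p x : Tor d M} (h : 3 * L < tdist x p) : chi L p x = 0 := by
  have : (3 * L : ℝ) ≤ tdist x p := by exact_mod_cast h.le
  exact max_eq_left (min_le_of_right_le (div_nonpos_of_nonpos_of_nonneg (by linarith)
    (Nat.cast_nonneg _)))

lemma chi_one {L : ℕ} (hL : 1 ≤ L) {p x : Tor d M} (h : tdist x p ≤ 2 * L) : chi L p x = 1 := by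
  have h0 : (0 : ℝ) < L := by exact_mod_cast hL
  have : (tdist x p : ℝ) ≤ 2 * L := by exact_mod_cast h
  rw [chi, min_eq_left ((one_le_div h0).2 (by linarith)), max_eq_right zero_le_one]

lemma ims_pt {s t x y δ : ℝ} (h0 : 0 ≤ t) (h1 : t ≤ 1) (h : (s - t) ^ 2 ≤ δ) :
    (s * x - t * y) ^ 2 ≤ 2 * (x - y) ^ 2 + 2 * x ^ 2 * δ := by
  have h2 : (t * (x - y)) ^ 2 ≤ (x - y) ^ 2 := by
    rw [mul_pow]
    exact mul_le_of_le_one_left (sq_nonneg _) (pow_le_one₀ h0 h1)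
  have h3 : x ^ 2 * (s - t) ^ 2 ≤ x ^ 2 * δ := mul_le_mul_of_nonneg_left h (sq_nonneg _)
  nlinarith [sq_nonneg (t * (x - y) - (s - t) * x)]

lemma mom2 {π : Tor d M → ℝ} {γ c : ℝ} (h : Step π γ c) (a : Tor d M) :
    ∑ b, π (a - b) * (tdist a b : ℝ) ^ 2 ≤ ((c * γ) ^ 2)⁻¹ := by
  have hs : 0 < c * γ := mul_pos h.c_pos h.γ_pos
  rw [show ∑ b, π (a - b) * (tdist a b : ℝ) ^ 2 = ∑ u, π u * (nrm u : ℝ) ^ 2 from
    Equiv.sum_comp (Equiv.subLeft a) fun u => π u * (nrm u : ℝ) ^ 2]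
  have h1 : ∑ u, π u * (nrm u : ℝ) ^ 2 ≤
      ∑ u, (2 * (c * γ) ^ 2)⁻¹ * (π u * Real.exp (2 * (c * γ) * nrm u)) := by
    refine sum_le_sum fun u _ => ?_
    rw [mul_left_comm]
    refine mul_le_mul_of_nonneg_left ?_ (h.nonneg u)
    rw [le_inv_mul_iff₀ (by positivity)]
    have := Real.pow_div_factorial_le_exp (2 * (c * γ) * nrm u) (by positivity) 2
    simp only [Nat.factorial_two, Nat.cast_ofNat] at this
    nlinarith
  rw [← mul_sum] at h1
  refine h1.trans ((mul_le_mul_of_nonneg_left h.mom (by positivity)).trans_eq ?_)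
  field_simp

lemma Dir_cut {π : Tor d M → ℝ} {γ c : ℝ} (h : Step π γ c) {L : ℕ} (hL : 1 ≤ L) (p : Tor d M)
    (ψ : Tor d M → ℝ) (r : ℝ) : Dir π (fun x => chi L p x * (ψ x - r)) ≤
      ∑ a ∈ tball p (3 * L), (2 * ∑ b, π (a - b) * (ψ a - ψ b) ^ 2 +
        2 * ((c * γ * L) ^ 2)⁻¹ * (ψ a - r) ^ 2) := by
  classical
  let g : Tor d M → Tor d M → ℝ := fun a b => if a ∈ tball p (3 * L) then
    2 * (ψ a - ψ b) ^ 2 + 2 * (ψ a - r) ^ 2 * ((tdist a b : ℝ) / L) ^ 2 else 0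
  have g0 : ∀ a b, 0 ≤ g a b := fun a b => by
    simp only [g]
    split_ifs
    · positivity
    · rfl
  have g1 : ∀ a b, a ∈ tball p (3 * L) →
      (chi L p a * (ψ a - r) - chi L p b * (ψ b - r)) ^ 2 ≤ g a b := fun a b ha => by
    simp only [g, if_pos ha]
    simpa only [sub_sub_sub_cancel_right] using ims_pt (x := ψ a - r) (y := ψ b - r)
      (chi_nonneg L p b) (chi_le_one L p b) (chi_lip hL p a b)
  have g2 : ∀ a b, (chi L p a * (ψ a - r) - chi L p b * (ψ b - r)) ^ 2 ≤ g a b + g b a := by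
    intro a b
    by_cases ha : a ∈ tball p (3 * L)
    · linarith [g1 a b ha, g0 b a]
    by_cases hb : b ∈ tball p (3 * L)
    · rw [← neg_sq, neg_sub]
      linarith [g1 b a hb, g0 a b]
    rw [chi_zero (not_le.1 (mt mem_tball.2 ha)), chi_zero (not_le.1 (mt mem_tball.2 hb))]
    simpa using add_nonneg (g0 a b) (g0 b a)
  have h1 : ∑ a, ∑ b, π (a - b) * g b a = ∑ a, ∑ b, π (a - b) * g a b := by
    rw [sum_comm]
    exact sum_congr rfl fun a _ => sum_congr rfl fun b _ => by rw [← h.even, neg_sub]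
  have h2 : Dir π (fun x => chi L p x * (ψ x - r)) ≤ ∑ a, ∑ b, π (a - b) * g a b := by
    have := sum_le_sum fun a (_ : a ∈ univ) => sum_le_sum fun b (_ : b ∈ univ) =>
      mul_le_mul_of_nonneg_left (g2 a b) (h.nonneg (a - b))
    simp only [mul_add, sum_add_distrib, h1] at this
    unfold Dir
    linarith
  refine h2.trans ?_
  rw [← sum_subset (subset_univ (tball p (3 * L))) fun a _ ha => by simp [g, ha]]
  refine sum_le_sum fun a ha => ?_
  have h3 : ∑ b, π (a - b) * g a b = 2 * ∑ b, π (a - b) * (ψ a - ψ b) ^ 2 +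
      2 * (ψ a - r) ^ 2 * ((L : ℝ) ^ 2)⁻¹ * ∑ b, π (a - b) * (tdist a b : ℝ) ^ 2 := by
    simp only [g, if_pos ha, mul_sum, ← sum_add_distrib]
    exact sum_congr rfl fun b _ => by ring
  rw [h3]
  refine add_le_add_right ((mul_le_mul_of_nonneg_left (mom2 h a) (by positivity)).trans_eq ?_) _
  ring

lemma ims_part {π : Tor d M → ℝ} {γ c K σ T D C : ℝ} (h : Step π γ c) {L : ℕ} (hLn : 1 ≤ L)
    (hK : 1 ≤ K) (hγ : σ ^ 2 / K ≤ γ) (hL : 1 ≤ σ ^ 2 * L) (hT0 : 0 < T) (hC : 1 ≤ C)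
    (h2 : ∀ p : Tor d M, ((tball p (3 * L)).card : ℝ) ≤ D * T) (ψ : Tor d M → ℝ)
    (hk : ∑ p, ∑ x ∈ tball p (3 * L), (ψ x - cp L p ψ) ^ 2 ≤
      D ^ 2 * T * (C * (1 + (γ * (8 * L)) ^ 2) * Dir π ψ)) :
    ∑ p, Dir π (fun x => chi L p x * (ψ x - cp L p ψ)) ≤
      (4 * D + 2 * D ^ 2 * C * (K ^ 2 + 64) / c ^ 2) * (T * Dir π ψ) := by
  have hE := h.Dir_nonneg ψ
  have hc := h.c_pos
  have hγ0 := h.γ_pos
  have hL0 : (0 : ℝ) < L := by exact_mod_cast hLn
  have e1 := sum_le_sum fun p (_ : p ∈ univ) => Dir_cut h hLn p ψ (cp L p ψ)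
  simp only [sum_add_distrib, ← mul_sum] at e1
  have e2 := sum_ball h2 (F := fun a => ∑ b, π (a - b) * (ψ a - ψ b) ^ 2)
    fun a => sum_nonneg fun b _ => mul_nonneg (h.nonneg _) (sq_nonneg _)
  have e3 : ∑ a, ∑ b, π (a - b) * (ψ a - ψ b) ^ 2 = 2 * Dir π ψ := by unfold Dir; ring
  have e4 : ((c * γ * L) ^ 2)⁻¹ * (1 + (γ * (8 * L)) ^ 2) ≤ (K ^ 2 + 64) / c ^ 2 := by
    have h3 : 1 ≤ K * (γ * L) := by
      have := (div_le_iff₀ (by positivity)).1 hγ
      nlinarith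
    rw [inv_mul_le_iff₀ (by positivity)]
    have h4 : (c * γ * L) ^ 2 * ((K ^ 2 + 64) / c ^ 2) =
        (K * (γ * L)) ^ 2 + (γ * (8 * L)) ^ 2 := by field_simp; ring
    rw [h4]
    linarith [one_le_pow₀ (n := 2) h3]
  rw [e3] at e2
  generalize ∑ p, ∑ x ∈ tball p (3 * L), (ψ x - cp L p ψ) ^ 2 = A at *
  have e5 : 2 * ((c * γ * L) ^ 2)⁻¹ * A ≤ 2 * D ^ 2 * C * (K ^ 2 + 64) / c ^ 2 * (T * Dir π ψ) :=
    calc _ ≤ 2 * ((c * γ * L) ^ 2)⁻¹ * (D ^ 2 * T * (C * (1 + (γ * (8 * L)) ^ 2) * Dir π ψ)) :=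
          mul_le_mul_of_nonneg_left hk (by positivity)
      _ = 2 * D ^ 2 * C * (((c * γ * L) ^ 2)⁻¹ * (1 + (γ * (8 * L)) ^ 2)) * (T * Dir π ψ) := by
          ring
      _ ≤ 2 * D ^ 2 * C * ((K ^ 2 + 64) / c ^ 2) * (T * Dir π ψ) :=
          mul_le_mul_of_nonneg_right (mul_le_mul_of_nonneg_left e4 (by positivity)) (by positivity)
      _ = _ := by ring
  linarith

lemma err_pt {θ B : ℝ} (P2 : ∑ u : Tor d M, Real.exp (-θ * nrm u) ≤ B) (ψ : Tor d M → ℝ) (r : ℝ)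
    (y : Tor d M) : ∑ b, Real.exp (-θ * tdist b y) * (ψ b - r) ^ 2 ≤
      2 * ∑ b, Real.exp (-θ * tdist b y) * (ψ b - ψ y) ^ 2 + 2 * B * (ψ y - r) ^ 2 := by
  have h3 : ∑ b, Real.exp (-θ * tdist b y) ≤ B :=
    (Equiv.sum_comp (Equiv.subRight y) fun u => Real.exp (-θ * nrm u)).trans_le P2
  calc _ ≤ ∑ b, (2 * (Real.exp (-θ * tdist b y) * (ψ b - ψ y) ^ 2) +
        2 * Real.exp (-θ * tdist b y) * (ψ y - r) ^ 2) := sum_le_sum fun b _ => by
        have := mul_le_mul_of_nonneg_left (show (ψ b - r) ^ 2 ≤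
          2 * (ψ b - ψ y) ^ 2 + 2 * (ψ y - r) ^ 2 by
            nlinarith [sq_nonneg (ψ b - ψ y - (ψ y - r))]) (Real.exp_pos (-θ * tdist b y)).le
        linarith
    _ ≤ _ := by
        rw [sum_add_distrib, ← mul_sum, ← sum_mul, ← mul_sum]
        gcongr

lemma err_part {π : Tor d M → ℝ} {γ c T D C θ : ℝ} (h : Step π γ c) {L : ℕ} (hLn : 1 ≤ L)
    (hT0 : 0 < T) (hC : 1 ≤ C) (hD : 0 ≤ D) (hθ : 0 < θ) (hθ1 : θ ≤ 1)
    (h2 : ∀ p : Tor d M, ((tball p L).card : ℝ) ≤ D * T) (ψ : Tor d M → ℝ)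
    (hk : ∑ p, ∑ x ∈ tball p L, (ψ x - cp L p ψ) ^ 2 ≤
      D ^ 2 * T * (C * (1 + (γ * (8 * L)) ^ 2) * Dir π ψ))
    (P2 : ∑ u : Tor d M, Real.exp (-θ * nrm u) ≤ (C / θ) ^ d)
    (P3 : ∑ a, ∑ b, Real.exp (-θ * tdist a b) * (ψ a - ψ b) ^ 2 ≤ (C / θ) ^ (d + 3) * Dir π ψ) :
    ∑ p, ∑ y ∈ tball p L, ∑ b, Real.exp (-θ * tdist b y) * (ψ b - cp L p ψ) ^ 2 ≤
      (2 * D + 130 * D ^ 2) * (C * L / θ) ^ (d + 3) * (T * Dir π ψ) := by
  have hE := h.Dir_nonneg ψ
  have hγ0 := h.γ_pos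
  have hL1 : (1 : ℝ) ≤ L := by exact_mod_cast hLn
  have w0 : C / θ ≤ C * L / θ :=
    div_le_div_of_nonneg_right (le_mul_of_one_le_right (by positivity) hL1) hθ.le
  have w1 : (C / θ) ^ (d + 3) ≤ (C * L / θ) ^ (d + 3) := pow_le_pow_left₀ (by positivity) w0 _
  have w2 : (C / θ) ^ d * (C * L ^ 2) ≤ (C * L / θ) ^ (d + 3) := by
    rw [pow_add]
    refine mul_le_mul (pow_le_pow_left₀ (by positivity) w0 _) ?_ (by positivity) (by positivity)
    have h3 : C * L ≤ C * L / θ := le_div_self (by positivity) hθ hθ1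
    have h4 : (L : ℝ) ≤ C * L := le_mul_of_one_le_left (by positivity) hC
    calc C * L ^ 2 = C * L * L * 1 := by ring
      _ ≤ C * L / θ * (C * L / θ) * (C * L / θ) := by gcongr <;> linarith
      _ = _ := by ring
  generalize (C * L / θ) ^ (d + 3) = W at *
  have e2 := sum_le_sum fun p (_ : p ∈ univ) => sum_le_sum fun y (_ : y ∈ tball p L) =>
    err_pt P2 ψ (cp L p ψ) y
  simp only [sum_add_distrib, ← mul_sum] at e2
  have e3 := sum_ball h2 (F := fun y => ∑ b, Real.exp (-θ * tdist b y) * (ψ b - ψ y) ^ 2)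
    fun y => sum_nonneg fun _ _ => mul_nonneg (Real.exp_pos _).le (sq_nonneg _)
  have e4 : ∑ y, ∑ b, Real.exp (-θ * tdist b y) * (ψ b - ψ y) ^ 2 ≤ W * Dir π ψ := by
    rw [sum_comm]
    exact P3.trans (mul_le_mul_of_nonneg_right w1 hE)
  have e5 : 1 + (γ * (8 * L)) ^ 2 ≤ 65 * (L : ℝ) ^ 2 := by
    have h3 : (γ * (8 * L)) ^ 2 ≤ (1 * (8 * L)) ^ 2 := by gcongr; exact h.γ_le
    nlinarith
  have e7 := mul_le_mul_of_nonneg_left e4 (mul_nonneg hD hT0.le)
  generalize ∑ p, ∑ x ∈ tball p L, (ψ x - cp L p ψ) ^ 2 = A at *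
  have e6 : 2 * (C / θ) ^ d * A ≤ 130 * D ^ 2 * W * (T * Dir π ψ) :=
    calc _ ≤ 2 * (C / θ) ^ d * (D ^ 2 * T * (C * (65 * L ^ 2) * Dir π ψ)) := by
          refine mul_le_mul_of_nonneg_left (hk.trans ?_) (by positivity)
          gcongr
      _ = 130 * D ^ 2 * ((C / θ) ^ d * (C * L ^ 2)) * (T * Dir π ψ) := by ring
      _ ≤ _ := by gcongr
  linarith

lemma err_num {A B Q W T V E K μ σ : ℝ} {n : ℕ} (hA : A ≤ B * W * (T * E)) (hB : 0 ≤ B)
    (hW : 0 ≤ W) (hT : 0 ≤ T) (hV : T ≤ V) (hE : 0 ≤ E) (hK : 1 ≤ K) (hσ : 0 < σ)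
    (hμ : σ ^ 2 / K ≤ μ) (hQ : K * B ≤ Q ^ n) : A ≤ Q ^ n * W / σ ^ 2 * V * (μ * E) := by
  have hμ0 : 0 < μ := lt_of_lt_of_le (by positivity) hμ
  have hV0 := hT.trans hV
  have e8 : 1 ≤ K * (μ / σ ^ 2) := by
    rw [← mul_div_assoc, one_le_div (by positivity)]
    have := (div_le_iff₀ (by positivity)).1 hμ
    linarith
  calc A ≤ B * W * (T * E) * 1 := by linarith
    _ ≤ B * W * (V * E) * (K * (μ / σ ^ 2)) := by gcongr
    _ = K * B * (W / σ ^ 2 * V * (μ * E)) := by ring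
    _ ≤ Q ^ n * (W / σ ^ 2 * V * (μ * E)) := by gcongr
    _ = _ := by ring

end Ct

open Ct in
/-- sliding cut-offs -/
theorem cut (hP : PoinStmt) : CutStmt := by
  intro d c K _ hc hK
  obtain ⟨C, hC, H⟩ := hP d c hc
  obtain ⟨D, hD⟩ : ∃ D : ℝ, D = 17 ^ d := ⟨_, rfl⟩
  have hD1 : 1 ≤ D := hD ▸ one_le_pow₀ (by norm_num)
  obtain ⟨C₁, hC₁⟩ : ∃ C₁ : ℝ, C₁ = 4 * D + 2 * D ^ 2 * C * (K ^ 2 + 64) / c ^ 2 := ⟨_, rfl⟩
  have hC₁0 : 0 ≤ C₁ := by rw [hC₁]; positivity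
  obtain ⟨Q, hQ⟩ : ∃ Q : ℝ, Q = K * (2 * D + 130 * D ^ 2) + C₁ := ⟨_, rfl⟩
  have hQ0 : 1 ≤ K * (2 * D + 130 * D ^ 2) := by nlinarith [sq_nonneg D]
  have hQ1 : 1 ≤ Q := by linarith
  have e7 : C₁ ≤ C * Q := by nlinarith
  have e9 : K * (2 * D + 130 * D ^ 2) ≤ Q ^ (d + 3) :=
    (show _ ≤ Q by linarith).trans (le_self_pow₀ hQ1 (by omega))
  refine ⟨C * Q, by nlinarith, fun M _ hM π γ σ μ h hσ hσ1 hγ _ hμ L hL => ?_⟩
  obtain ⟨P1, P2, P3⟩ := H M π γ h
  have hL1 : (1 : ℝ) ≤ L := hL.trans (mul_le_of_le_one_left (Nat.cast_nonneg _)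
    (pow_le_one₀ hσ.le hσ1))
  have hLn : 1 ≤ L := by exact_mod_cast hL1
  have hγ0 := h.γ_pos
  have hμ0 : 0 < μ := lt_of_lt_of_le (by positivity) hμ
  obtain ⟨T, hT⟩ : ∃ T : ℝ, T = ((min L (M / 8) : ℕ) : ℝ) ^ d := ⟨_, rfl⟩
  have hT0 : 0 < T := hT ▸ pow_pos (Nat.cast_pos.2 (by omega)) d
  have h1 : ∀ p : Tor d M, T ≤ (cs L p).card := fun p => by
    rw [hT]; exact_mod_cast cs_ge L p
  have h2 : ∀ r ≤ 8 * L, ∀ p : Tor d M, ((tball p r).card : ℝ) ≤ D * T := fun r hr p => by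
    rw [hT, hD]; exact_mod_cast ball_le hM hLn hr p
  have hV : T ≤ AC.vol d M L := by
    rw [hT, AC.vol]; exact_mod_cast ball_ge 0 (by omega) (min_le_left _ _)
  have hk : ∀ (ψ : Tor d M → ℝ), ∀ r ≤ 4 * L, ∑ p, ∑ x ∈ tball p r, (ψ x - cp L p ψ) ^ 2 ≤
      D ^ 2 * T * (C * (1 + (γ * (8 * L)) ^ 2) * Dir π ψ) := fun ψ r hr => by
    have := h.Dir_nonneg ψ
    refine key hr hT0 (by positivity) (by positivity) h1 h2 fun u hu => (P1 ψ u).trans ?_
    have : (nrm u : ℝ) ≤ 8 * L := by exact_mod_cast hu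
    gcongr
  refine ⟨chi L, cp L, chi_nonneg L, chi_le_one L, fun _ _ => chi_one hLn, fun _ _ => chi_zero,
    fun p ψ hψ hp => ?_, fun ψ => ?_, fun θ hθ hθ1 ψ => ?_⟩
  · rw [cp_apply, sum_eq_zero fun a ha => hψ a ?_, mul_zero]
    rw [cs, if_pos hp] at ha
    exact (mem_inter.1 ha).1
  · have hE := h.Dir_nonneg ψ
    have e6 := ims_part h hLn hK hγ hL hT0 hC (h2 _ (by omega)) ψ (hk ψ _ (by omega))
    rw [← hC₁] at e6
    calc _ = μ * ∑ p, Dir π (fun x => chi L p x * (ψ x - cp L p ψ)) := (mul_sum _ _ _).symm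
      _ ≤ μ * (C₁ * (T * Dir π ψ)) := mul_le_mul_of_nonneg_left e6 hμ0.le
      _ ≤ μ * (C * Q * (AC.vol d M L * Dir π ψ)) := by gcongr
      _ = _ := by ring
  · have e1 := err_part h hLn hT0 hC (by positivity) hθ hθ1 (h2 _ (by omega)) ψ
      (hk ψ _ (by omega)) (P2 θ hθ hθ1) (P3 θ hθ hθ1 ψ)
    refine (err_num e1 (by positivity) (by positivity) hT0.le hV (h.Dir_nonneg ψ) hK hσ hμ
      e9).trans_eq ?_
    rw [show C * Q * L / θ = Q * (C * L / θ) by ring, mul_pow]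

end Crest.Agent.N334.AC.I
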