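import Crest.Agent.N334.AC.I.Cut_Mg

/-!
# Row 334, S0520, part I (helper24): `InitStmt`
-/

set_option autoImplicit false
set_option linter.unusedSectionVars false

open Finset Complex Filter
open scoped ComplexConjugate Matrix.Norms.L2Operator

namespace Crest.Agent.N334.AC.I

lemma vol_ge {d M : ℕ} (hd : 3 ≤ d) (hM : 8 ≤ M) : (M : ℝ) ^ 3 ≤ vol d M :=
  pow_le_pow_right₀ (by exact_mod_cast (by omega)) hd

/-- the two capacity bounds, in terms of `σ` -/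
lemma caps {d : ℕ} (hd : 3 ≤ d) {c K : ℝ} (hc : 0 < c) (hK : 1 ≤ K) : ∀ᶠ C : ℝ in atTop,
    ∀ (M : ℕ) [NeZero M] (π : Tor d M → ℝ) (γ σ : ℝ), Step π γ c → 0 < σ → σ ≤ 1 → 8 ≤ M →
      3 / σ ^ 3 ≤ M → σ ^ 2 / K ≤ γ → γ ≤ K * σ ^ 2 → π 0 ≤ K * σ ^ 2 →
      ∑ x, π x ^ 2 ≤ K * σ ^ 3 →
      (∀ ε : ℝ, 0 < ε → ε ≤ 1 → ∀ l ψ : Tor d M → ℝ, Van ψ → (∑ x, l x * ψ x) ^ 2 ≤
        ((1 + ε) * ∑ x, l x ^ 2 + C * σ ^ 3 / ε * (∑ x, |l x|) ^ 2) * Dir π ψ) ∧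
      ∀ (R : ℕ) (F : ℝ), R ≤ 2 * M → 0 < F → C ≤ σ ^ 40 * R * F ^ 4 →
        ∀ (S : Finset (Tor d M)) (l ψ : Tor d M → ℝ), Sep R S → (∀ x, x ∉ S → l x = 0) → Van ψ →
        (∑ x, l x * ψ x) ^ 2 ≤
          ((1 + C * σ ^ 2) * ∑ x, l x ^ 2 + F * (∑ x, |l x|) ^ 2) * Dir π ψ := by
  set A : ℝ := K + 14 ^ d * K ^ 2 + 1 with hA
  set D : ℝ := 4 * (8 + 14 ^ d / c) with hD
  have hD0 : 0 < D := by positivity
  filter_upwards [eventually_ge_atTop (24 / c * A), eventually_ge_atTop (1 + 2 * (K + 1 + A / c)),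
    eventually_ge_atTop (D ^ 4 * K / c ^ 2), eventually_ge_atTop ((64 / c) ^ 4)] with C h1 h2 h3 h4
  intro M _ π γ σ h hσ hσ1 hM hMσ hγ1 hγ2 hπ0 hπ2
  have hγ := h.γ_pos
  have hv := vol_ge hd hM
  have hM8 : (8 : ℝ) ≤ M := by exact_mod_cast hM
  have hσ3 : 0 < σ ^ 3 := by positivity
  have hs32 : σ ^ 3 ≤ σ ^ 2 := pow_le_pow_of_le_one hσ.le hσ1 (by norm_num)
  have hs2 : σ ^ 2 ≤ 1 := pow_le_one₀ hσ.le hσ1
  have hM3 : 3 / (M : ℝ) ≤ σ ^ 3 := by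
    rw [div_le_iff₀ (by linarith), mul_comm, ← div_le_iff₀ hσ3]; exact hMσ
  have e1 : (1 + (γ * M) ^ 2) / vol d M ≤ 2 / M := by
    have : (γ * M) ^ 2 ≤ M ^ 2 := by
      gcongr; exact mul_le_of_le_one_left (by positivity) h.γ_le
    calc _ ≤ (2 * M ^ 2) / (M : ℝ) ^ 3 := by gcongr; nlinarith
      _ = _ := by field_simp
  have e1' : 2 / (M : ℝ) ≤ 3 / M := by gcongr; norm_num
  have e2 : γ ^ 2 ≤ K ^ 2 * σ ^ 3 := by
    calc γ ^ 2 ≤ (K * σ ^ 2) ^ 2 := by gcongr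
      _ = K ^ 2 * σ ^ 4 := by ring
      _ ≤ _ := by gcongr K ^ 2 * ?_; exact pow_le_pow_of_le_one hσ.le hσ1 (by norm_num)
  have e3 : (14 : ℝ) ^ d * γ ^ 2 ≤ 14 ^ d * (K ^ 2 * σ ^ 3) := by gcongr
  have e4 : ∑ x, π x ^ 2 + 14 ^ d * γ ^ 2 + σ ^ 3 ≤ A * σ ^ 3 := by rw [hA]; linarith
  constructor
  · intro ε hε hε1 l ψ hψ
    refine (h.cap1 hd hM l hψ hε hε1).trans (mul_le_mul_of_nonneg_right (add_le_add_right
      (mul_le_mul_of_nonneg_right ?_ (sq_nonneg _)) _) (h.Dir_nonneg ψ))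
    calc _ ≤ 24 / (c * ε) * (A * σ ^ 3) := by gcongr; linarith
      _ = 24 / c * A * σ ^ 3 / ε := by field_simp
      _ ≤ _ := by gcongr
  · intro R F hR hF hC S l ψ hS hl hψ
    have hC0 : 0 < C := lt_of_lt_of_le (by positivity) h4
    have hR1 : (1 : ℝ) ≤ R := by
      rcases Nat.eq_zero_or_pos R with h0 | h0
      · simp [h0] at hC; linarith
      · exact_mod_cast h0
    have hs40 : σ ^ 40 ≤ σ ^ 8 := pow_le_pow_of_le_one hσ.le hσ1 (by norm_num)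
    have hs8 : σ ^ 8 ≤ σ ^ 2 := pow_le_pow_of_le_one hσ.le hσ1 (by norm_num)
    have f1 : (D / F) ^ 4 ≤ c ^ 2 * γ * R := by
      rw [div_pow, div_le_iff₀ (by positivity)]
      calc D ^ 4 = c ^ 2 / K * (D ^ 4 * K / c ^ 2) := by field_simp
        _ ≤ c ^ 2 / K * (σ ^ 2 * R * F ^ 4) := by
          gcongr; refine h3.trans (hC.trans ?_); gcongr ?_ * _ * _; exact hs40.trans hs8
        _ = c ^ 2 * (σ ^ 2 / K) * R * F ^ 4 := by ring
        _ ≤ _ := by gcongr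
    have f2 : 64 / c ≤ σ ^ 2 * R * F := by
      refine le_of_pow_le_pow_left₀ (n := 4) (by norm_num) (by positivity) (h4.trans (hC.trans ?_))
      calc _ ≤ σ ^ 8 * (R : ℝ) ^ 4 * F ^ 4 := by gcongr; exact le_self_pow₀ hR1 (by norm_num)
        _ = _ := by ring
    refine (h.cap2 hd hM hR hS hl hψ (t := σ ^ 2) (by positivity) (by positivity) f1).trans
      (mul_le_mul_of_nonneg_right ?_ (h.Dir_nonneg ψ))
    rw [mul_add, ← mul_assoc, ← mul_assoc]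
    refine add_le_add (mul_le_mul_of_nonneg_right ?_ (sum_nonneg fun _ _ => sq_nonneg _))
      (mul_le_mul_of_nonneg_right ?_ (sq_nonneg _))
    · have g1 : (2 * M + 3) / vol d M ≤ 3 / (M : ℝ) := by
        calc _ ≤ (3 * M ^ 2) / (M : ℝ) ^ 3 := by gcongr; nlinarith
          _ = _ := by field_simp
      have g2 : (∑ x, π x ^ 2 + 14 ^ d * γ ^ 2) / c ≤ A / c * σ ^ 2 := by
        rw [div_mul_eq_mul_div]; gcongr
        have : A * σ ^ 3 ≤ A * σ ^ 2 := by gcongr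
        linarith
      set X := π 0 + (2 * M + 3) / vol d M + (∑ x, π x ^ 2 + 14 ^ d * γ ^ 2) / c with hX
      have g3 : X ≤ (K + 1 + A / c) * σ ^ 2 := by rw [hX]; linarith
      have g4 : 0 ≤ (K + 1 + A / c) * σ ^ 2 := by positivity
      have g5 : (1 + 2 * (K + 1 + A / c)) * σ ^ 2 ≤ C * σ ^ 2 := by gcongr
      calc _ = (1 + σ ^ 2) * (1 + X) := by rw [hX]; ring
        _ ≤ (1 + σ ^ 2) * (1 + (K + 1 + A / c) * σ ^ 2) := by gcongr
        _ ≤ _ := by nlinarith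
    · have hR2 : (R : ℝ) ≤ 2 * M := by exact_mod_cast hR
      have g1 : (8 + 14 ^ d / c) / (D / F) = F / 4 := by rw [hD]; field_simp
      have g2 : 4 * (1 + (γ * M) ^ 2) / (c * σ ^ 2 * vol d M) ≤ F / 4 := by
        calc _ = 4 / (c * σ ^ 2) * ((1 + (γ * M) ^ 2) / vol d M) := by field_simp
          _ ≤ 4 / (c * σ ^ 2) * (2 / M) := by gcongr
          _ = 64 / c / (8 * σ ^ 2 * M) := by field_simp; norm_num
          _ ≤ σ ^ 2 * (2 * M) * F / (8 * σ ^ 2 * M) := by gcongr; refine f2.trans ?_; gcongr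
          _ = _ := by field_simp; norm_num
      rw [g1]
      have hv0 := vol_pos (d := d) (M := M)
      calc _ ≤ (1 + 1) * (F / 4 + F / 4) := by gcongr
        _ = F := by ring

set_option maxHeartbeats 2000000 in
theorem init : InitStmt := by
  intro d hd
  have hd1 : (1 : ℝ) ≤ d := by exact_mod_cast (by omega : 1 ≤ d)
  obtain ⟨c, hc, hc1, hshell⟩ := shell d (a := 1 / 800) (by norm_num)
  obtain ⟨c', hc'⟩ : ∃ c' : ℝ, c' = c ^ 3 / (466760 * d) := ⟨_, rfl⟩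
  have hc'0 : 0 < c' := by rw [hc']; positivity
  obtain ⟨Cp, hCp, hpoin⟩ := poin d c' hc'0
  obtain ⟨Cr, hCr, hrr⟩ := rr d hd
  obtain ⟨K, hK1, hK2, hK3⟩ : ∃ K : ℝ, 11669 ≤ K ∧ 12 / c ^ 2 ≤ K ∧
      11669 ^ 2 * (6 * 10 ^ 16 / c) * (2 / c) ^ 2 ≤ K :=
    ((eventually_ge_atTop _).and ((eventually_ge_atTop _).and (eventually_ge_atTop _))).exists
  have hK4 : 11669 ^ 3 * (2 / c) ≤ K := by
    refine le_trans ?_ hK3
    have h1 : 1 ≤ 2 / c := by rw [le_div_iff₀ hc]; linarith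
    have h2 : 11669 ≤ 6 * 10 ^ 16 / c := by rw [le_div_iff₀ hc]; linarith
    calc _ = 11669 ^ 2 * 11669 * (2 / c) ^ 1 := by ring
      _ ≤ _ := by gcongr; norm_num
  have hK5 : 6 / c ≤ K := by
    refine le_trans ?_ hK2
    rw [div_le_div_iff₀ hc (by positivity)]; nlinarith
  have hK0 : 0 < K := by linarith
  obtain ⟨Cc, hCc, hcut⟩ := cut poin d c' K (by omega) hc'0 (by linarith)
  obtain ⟨C, hcaps, h1, h2, h3, h4, h5, h6⟩ := ((caps hd hc'0 (K := K) (by linarith)).and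
    ((eventually_ge_atTop (8 * d * K)).and ((eventually_ge_atTop (10 ^ 16 * K)).and
    ((eventually_ge_atTop (Cr * K)).and ((eventually_ge_atTop (Cp * K ^ 3)).and
    ((eventually_ge_atTop (Cp * K)).and (eventually_ge_atTop Cc))))))).exists
  have hKC : 2 * K ≤ C := by nlinarith
  have hC0 : 0 < C := by linarith
  refine ⟨C, by linarith, c / 10 ^ 7, by positivity, fun σ hσ hσc => ?_⟩
  have hσ1 : σ ≤ 1 := by linarith
  have hs2 : 0 < σ ^ 2 := by positivity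
  have hs3 : σ ^ 2 ≤ c / 10 ^ 7 := by nlinarith
  have hγ0 : 0 < σ ^ 2 * c / 6 := by positivity
  obtain ⟨M1, hM1⟩ := hshell _ hγ0
  obtain ⟨M2, hM2⟩ := est hd hγ0 hσ
  obtain ⟨M3, hM3⟩ := four hd hγ0
  obtain ⟨M4, hM4⟩ := hrr _ hγ0
  refine ⟨M1 + M2 + M3 + M4 + 8 + ⌈3 / σ ^ 3⌉₊, fun M _ hM E₀ hE₀ => ?_⟩
  have hMσ : 3 / σ ^ 3 ≤ M := (Nat.le_ceil _).trans (by exact_mod_cast (by omega))
  replace hM1 := hM1 M (by omega)
  replace hM2 := hM2 M (by omega)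
  replace hM3 := hM3 M (by omega)
  replace hM4 := hM4 M (by omega)
  obtain ⟨hE1, hE2⟩ := hE₀
  obtain ⟨z₀, hz₀⟩ : ∃ z₀ : ℂ, z₀ = E₀ + σ ^ 2 * I := ⟨_, rfl⟩
  have r0 : z₀.re = E₀ := by simp [hz₀, ← ofReal_pow]
  have i0 : z₀.im = σ ^ 2 := by simp [hz₀, ← ofReal_pow]
  have i1 : σ ^ 2 * c / 6 ≤ z₀.im := by rw [i0]; nlinarith
  have r1 : z₀.re + 2 * d ≤ 1 / 4 := by linarith
  obtain ⟨g₀, hg₀⟩ : ∃ g₀, g₀ = G0 z₀ (0 : Tor d M) := ⟨_, rfl⟩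
  have b0 : ‖g₀‖ ≤ 11669 := hg₀ ▸ (hM2 z₀ r1 i1).1 0
  have b1 : c / 2 ≤ g₀.im := hg₀ ▸ im_G0_of_shell (by linarith)
    (hM1 z₀ (by linarith) r1 i1 (by linarith) ⟨0, by omega⟩)
  obtain ⟨w0, hw0⟩ : ∃ w0 : ℂ, w0 = -((σ ^ 2 / 3 : ℝ) * g₀) := ⟨_, rfl⟩
  have n0 : ‖w0‖ ≤ σ ^ 2 * 3890 := by
    rw [hw0, norm_neg, norm_mul, Complex.norm_real, Real.norm_of_nonneg (by positivity)]; nlinarith
  have n1 : σ ^ 2 * c / 6 ≤ -w0.im := by
    rw [hw0, neg_im, neg_neg, im_ofReal_mul]; nlinarith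
  have n2 : -w0.im ≤ σ ^ 2 * 3890 :=
    (neg_le_abs _).trans ((Complex.abs_im_le_norm _).trans n0)
  have n3 := abs_le.1 ((Complex.abs_re_le_norm _).trans n0)
  have hw : 0 < -w0.im := by linarith
  refine ⟨w0, fun E hE hEE => ?_⟩
  obtain ⟨hE3, hE4⟩ := hE
  obtain ⟨z, hz⟩ : ∃ z : ℂ, z = E - w0 := ⟨_, rfl⟩
  have rz : z.re = E - w0.re := by simp [hz]
  have iz : z.im = -w0.im := by simp [hz]
  have hzi : 0 < z.im := by linarith
  have j1 : σ ^ 2 * c / 6 ≤ z.im := by linarith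
  have j2 : z.re + 2 * d ≤ 1 / 4 := by linarith
  have j3 : z.im ≤ c := by linarith
  have j4 : z.im ≤ 1 := by linarith
  have hsh := hM1 z (by linarith) j2 j1 j3
  obtain ⟨hsup, hhol⟩ := hM2 z j2 j1
  obtain ⟨g, hg⟩ : ∃ g, g = G0 z (0 : Tor d M) := ⟨_, rfl⟩
  have g1 : c / 2 ≤ g.im := hg ▸ im_G0_of_shell hzi (hsh ⟨0, by omega⟩)
  have g0 : 0 < g.im := by linarith
  have hst : Step (stp (d := d) (M := M) z) z.im c' := hc' ▸
    step_stp (by omega) hc hc1 hzi j3 j2 (hsup 0) hsh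
  have hG := Gm_eq (d := d) (M := M) E hw
  have hEn := En_Km (d := d) (M := M) E hw (hz ▸ hg ▸ g0)
  rw [← hz] at hG hEn
  rw [← hg] at hEn
  have hG0 : Gm (Aop d M E) (fun _ => w0) (0 : Tor d M) 0 = g := by rw [hG]; simp [hg]
  have k1 : σ ^ 2 / K ≤ z.im := by
    refine le_trans ?_ j1
    rw [div_le_iff₀ hK0]
    calc σ ^ 2 = σ ^ 2 * c / 6 * (6 / c) := by field_simp
      _ ≤ _ := by gcongr
  have k2' : 11669 * σ ^ 2 ≤ K * σ ^ 2 := by gcongr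
  have k2 : z.im ≤ K * σ ^ 2 := by linarith
  have k3 : σ ^ 2 / K ≤ -w0.im * g.im := by
    rw [div_le_iff₀ hK0]
    calc σ ^ 2 = σ ^ 2 * c / 6 * (c / 2) * (12 / c ^ 2) := by field_simp; norm_num
      _ ≤ _ := by gcongr
  have k4 : (√z.im)⁻¹ ≤ 6 / c / σ := by
    rw [inv_le_comm₀ (Real.sqrt_pos.2 hzi) (by positivity)]
    refine Real.le_sqrt_of_sq_le (le_trans ?_ j1)
    calc _ = σ ^ 2 * c / 6 * (c / 6) := by field_simp
      _ ≤ σ ^ 2 * c / 6 * 1 := by gcongr; linarith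
      _ = _ := mul_one _
  have k4' : (√z.im)⁻¹ ≤ K / σ := k4.trans (by gcongr)
  have k5 : ∑ x : Tor d M, ‖G0 z x‖ ^ 4 ≤ 10 ^ 16 * (6 / c / σ) :=
    (hM3 z j2 j1 j4).trans (by rw [div_eq_mul_inv]; gcongr)
  have k6 : stp z (0 : Tor d M) ≤ K * σ ^ 2 := by
    calc _ ≤ (σ ^ 2 * 11669) * 11669 ^ 2 / (c / 2) := by
          unfold stp; rw [← hg]; gcongr
          · linarith
          · exact hg ▸ hsup 0
      _ = 11669 ^ 3 * (2 / c) * σ ^ 2 := by field_simp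
      _ ≤ _ := by gcongr
  have k7 : ∑ x : Tor d M, stp z x ^ 2 ≤ K * σ ^ 3 := by
    calc _ = (z.im / g.im) ^ 2 * ∑ x : Tor d M, ‖G0 z x‖ ^ 4 := by
          rw [mul_sum]; exact sum_congr rfl fun x _ => by unfold stp; rw [← hg]; ring
      _ ≤ (σ ^ 2 * 11669 / (c / 2)) ^ 2 * (10 ^ 16 * (6 / c / σ)) := by gcongr; linarith
      _ = 11669 ^ 2 * (6 * 10 ^ 16 / c) * (2 / c) ^ 2 * σ ^ 3 := by field_simp
      _ ≤ _ := by gcongr
  obtain ⟨hc1', hc2'⟩ := hcaps M _ _ σ hst hσ hσ1 (by omega) hMσ k1 k2 k6 k7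
  obtain ⟨hp1, -, hp2⟩ := hpoin M _ _ hst
  have hμ : 0 < -w0.im * g.im := by positivity
  have hDir : ∀ ψ : Tor d M → ℝ, Dir (stp z) ψ ≤ K / σ ^ 2 * (-w0.im * g.im * Dir (stp z) ψ) := by
    intro ψ
    have := hst.Dir_nonneg ψ
    calc _ = K / σ ^ 2 * (σ ^ 2 / K * Dir (stp z) ψ) := by field_simp
      _ ≤ _ := by gcongr
  refine ⟨adm_const E hw, fun x y => ?_, ?_, ?_, fun x y => ?_, ?_, ?_, ?_, ?_, fun x y => ?_,
    fun ε hε hε1 l ψ hψ => ?_, fun R F hR hF hC S l ψ hS hl hψ => ?_, fun ψ u => ?_,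
    fun θ hθ hθ1 ψ => ?_, fun L hL => ?_⟩
  · simp [hG]
  · rw [← iz]; exact le_trans (by gcongr; linarith) k1
  · have : K * σ ^ 2 ≤ C * σ ^ 2 := by gcongr; linarith
    linarith
  · rw [hG]; exact (hsup _).trans (by linarith)
  · rw [hG0]
    refine le_trans ?_ g1
    rw [div_le_iff₀ hC0]
    calc (1 : ℝ) ≤ c / 2 * (6 / c) := by field_simp; norm_num
      _ ≤ _ := by gcongr; linarith
  · rw [hG0, hw0, neg_add_eq_sub, ← mul_sub, norm_mul, Complex.norm_real,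
      Real.norm_of_nonneg (by positivity)]
    have e1 := hhol z₀ r1 i1 0
    rw [← hg, ← hg₀] at e1
    have e2 : ‖z - z₀‖ ≤ (100 * σ) ^ 2 := by
      have : z - z₀ = ((E - E₀ : ℝ) : ℂ) - w0 - ((σ ^ 2 : ℝ) : ℂ) * I := by
        rw [hz, hz₀]; push_cast; ring
      rw [this]
      refine (norm_sub_le _ _).trans ((add_le_add_left (norm_sub_le _ _) _).trans ?_)
      rw [norm_mul, Complex.norm_real, Complex.norm_real, norm_I, Real.norm_eq_abs,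
        Real.norm_of_nonneg hs2.le]
      linarith
    have e3 : √‖z - z₀‖ ≤ 100 * σ := Real.sqrt_le_iff.2 ⟨by positivity, e2⟩
    calc _ ≤ σ ^ 2 / 3 * (C * σ) := by
          gcongr; refine e1.trans ?_
          have : 10 ^ 7 * σ ≤ C * σ := by gcongr; linarith
          linarith
      _ ≤ _ := by linarith [mul_pos hC0 (pow_pos hσ 3)]
  · simp only [hG, Matrix.of_apply, sub_zero]
    refine k5.trans ?_
    rw [← mul_div_assoc]; gcongr
    exact le_trans (by gcongr) h2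
  · have : Matrix.hadamard (Gm (Aop d M E) fun _ => w0) (Gm (Aop d M E) fun _ => w0) =
        Matrix.of fun x y : Tor d M => G0 z (x - y) * G0 z (x - y) := by
      rw [hG]; ext x y; simp
    rw [this]
    refine (hM4 z j2 j1 j4).trans ?_
    calc _ ≤ Cr * (K / σ) := by rw [div_eq_mul_inv]; gcongr
      _ ≤ _ := by rw [← mul_div_assoc]; gcongr
  · rw [hG, Matrix.of_apply, tdist_eq, neg_mul]
    have e1 : 8 * d * (σ ^ 2 / C) ≤ z.im := by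
      refine le_trans ?_ k1
      calc _ ≤ 8 * d * (σ ^ 2 / (8 * d * K)) := by gcongr
        _ = _ := by field_simp
    refine (norm_G0_le_exp hzi (by positivity) ((div_le_one hC0).2 (by linarith)) e1 _).trans ?_
    gcongr
    calc _ ≤ 2 * (σ ^ 2 / K)⁻¹ := by gcongr
      _ = 2 * K / σ ^ 2 := by field_simp
      _ ≤ _ := by gcongr
  · rw [hG0, hEn, mul_left_comm]
    exact mul_le_mul_of_nonneg_left (hc1' ε hε hε1 l ψ hψ) hμ.le
  · rw [hG0, hEn, mul_left_comm]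
    exact mul_le_mul_of_nonneg_left (hc2' R F hR hF hC S l ψ hS hl hψ) hμ.le
  · rw [hEn, tdist_eq, sub_zero]
    refine (hp1 ψ u).trans ?_
    have e1 : 1 + (z.im * nrm u) ^ 2 ≤ K ^ 2 * (1 + (σ ^ 2 * nrm u) ^ 2) := by
      have : (z.im * nrm u) ^ 2 ≤ (K * σ ^ 2 * nrm u) ^ 2 := by gcongr
      linarith [one_le_pow₀ (n := 2) (show 1 ≤ K by linarith)]
    have := hst.Dir_nonneg ψ
    calc _ ≤ Cp * (K ^ 2 * (1 + (σ ^ 2 * nrm u) ^ 2)) *
          (K / σ ^ 2 * (-w0.im * g.im * Dir (stp z) ψ)) := by gcongr; exact hDir ψ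
      _ = Cp * K ^ 3 * (1 + (σ ^ 2 * nrm u) ^ 2) / σ ^ 2 * (-w0.im * g.im * Dir (stp z) ψ) := by
          ring
      _ ≤ _ := by gcongr
  · rw [hEn]
    refine (hp2 θ hθ hθ1 ψ).trans ?_
    have := hst.Dir_nonneg ψ
    calc _ ≤ (Cp / θ) ^ (d + 3) * (K ^ (d + 3) / σ ^ 2 * (-w0.im * g.im * Dir (stp z) ψ)) := by
          gcongr
          refine (hDir ψ).trans ?_
          gcongr; exact le_self_pow₀ (by linarith) (by omega)
      _ = (Cp * K / θ) ^ (d + 3) / σ ^ 2 * (-w0.im * g.im * Dir (stp z) ψ) := by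
          rw [mul_div_right_comm, mul_pow]; ring
      _ ≤ _ := by gcongr
  · obtain ⟨χ, cp, h⟩ := hcut M (by omega) _ _ σ _ hst hσ hσ1 k1 k2 k3 L hL
    rw [hEn]
    exact ⟨χ, cp, Cut.mono (fun ψ => mul_nonneg hμ.le (hst.Dir_nonneg ψ)) (by linarith) h6 h⟩

end Crest.Agent.N334.AC.I
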