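import Mathlib

-- ▼ part N334/AC/I/Four
section

/-!
# Row 334, S0520, part I (helper24): Fourier analysis on the discrete torus and the free resolvent
-/

set_option autoImplicit false
set_option linter.unusedSectionVars false

open Finset Complex
open scoped ComplexConjugate

namespace Crest.Agent.N334.AC.I

/-- the discrete torus -/
abbrev Tor (d M : ℕ) := Fin d → ZMod M

variable {d M : ℕ} [NeZero M]

/-- the characters of the torus -/
noncomputable def ch (k x : Tor d M) : ℂ := ZMod.stdAddChar (∑ j, k j * x j)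

lemma ch_comm (k x : Tor d M) : ch k x = ch x k := by
  simp only [ch, mul_comm]

lemma ch_add (k x y : Tor d M) : ch k (x + y) = ch k x * ch k y := by
  simp only [ch, Pi.add_apply, mul_add, sum_add_distrib, AddChar.map_add_eq_mul]

lemma ch_add' (k l x : Tor d M) : ch (k + l) x = ch k x * ch l x := by
  rw [ch_comm, ch_add, ch_comm x, ch_comm x]

@[simp] lemma ch_zero (k : Tor d M) : ch k 0 = 1 := by simp [ch]

@[simp] lemma ch_zero' (k : Tor d M) : ch 0 k = 1 := by simp [ch]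

lemma norm_std (a : ZMod M) : ‖(ZMod.stdAddChar a : ℂ)‖ = 1 := by
  rw [ZMod.stdAddChar_apply]; exact Circle.norm_coe _

@[simp] lemma norm_ch (k x : Tor d M) : ‖ch k x‖ = 1 := norm_std _

lemma ch_mul_neg (k x : Tor d M) : ch k x * ch k (-x) = 1 := by
  rw [← ch_add]; simp

lemma conj_ch (k x : Tor d M) : conj (ch k x) = ch k (-x) := by
  have h1 : ch k x * conj (ch k x) = 1 := by
    rw [Complex.mul_conj, Complex.normSq_eq_norm_sq, norm_ch]; simp
  have h0 : ch k x ≠ 0 := by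
    intro h; have := norm_ch k x; rw [h] at this; simp at this
  exact mul_left_cancel₀ h0 (h1.trans (ch_mul_neg k x).symm)

lemma ch_neg_neg (k x : Tor d M) : ch (-k) x = ch k (-x) := by
  simp [ch]

lemma ch_eq_prod (k x : Tor d M) : ch k x = ∏ j, ZMod.stdAddChar (k j * x j) := by
  unfold ch
  induction (univ : Finset (Fin d)) using Finset.induction_on with
  | empty => simp
  | insert a s ha ih => rw [sum_insert ha, prod_insert ha, AddChar.map_add_eq_mul, ih]

/-- number of sites -/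
noncomputable def vol (d M : ℕ) : ℝ := (M : ℝ) ^ d

lemma vol_pos : 0 < vol d M := by
  have : (0 : ℝ) < M := Nat.cast_pos.2 (NeZero.pos M)
  unfold vol; positivity

lemma card_tor : (Fintype.card (Tor d M) : ℝ) = vol d M := by
  simp [vol, Fintype.card_pi, ZMod.card]

lemma sum_ch (x : Tor d M) : ∑ k, ch k x = if x = 0 then (vol d M : ℂ) else 0 := by
  simp only [ch_eq_prod]
  rw [← Fintype.piFinset_univ, ← Finset.prod_univ_sum (fun _ => univ)
    (fun j (a : ZMod M) => (ZMod.stdAddChar (a * x j) : ℂ))]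
  simp only [AddChar.sum_mulShift _ (ZMod.isPrimitive_stdAddChar M)]
  split_ifs with h
  · subst h; simp [vol, ZMod.card]
  · obtain ⟨j, hj⟩ := Function.ne_iff.1 h
    exact Finset.prod_eq_zero (mem_univ j) (by simp [show x j ≠ 0 from hj])

/-- average over the dual torus -/
noncomputable def av (F : Tor d M → ℝ) : ℝ := (vol d M)⁻¹ * ∑ k, F k

/-- inverse Fourier transform -/
noncomputable def iF (F : Tor d M → ℂ) (x : Tor d M) : ℂ :=
  ((vol d M : ℝ) : ℂ)⁻¹ * ∑ k, F k * ch k x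

/-- Fourier transform -/
noncomputable def fF (f : Tor d M → ℂ) (k : Tor d M) : ℂ := ∑ x, f x * ch k (-x)

lemma vol_ne : ((vol d M : ℝ) : ℂ) ≠ 0 := by exact_mod_cast (vol_pos (d := d) (M := M)).ne'

lemma fF_iF (F : Tor d M → ℂ) (k : Tor d M) : fF (iF F) k = F k := by
  unfold fF iF
  simp only [mul_assoc, ← mul_sum, sum_mul]
  rw [sum_comm]
  have : ∀ l : Tor d M, ∑ x, F l * (ch l x * ch k (-x)) =
      if l = k then F l * (vol d M : ℂ) else 0 := by
    intro l
    simp only [← ch_neg_neg, ← ch_add', ← mul_sum]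
    simp only [ch_comm (l + -k), sum_ch, add_neg_eq_zero]
    split_ifs <;> simp
  simp only [this, sum_ite_eq', mem_univ, if_true]
  rw [mul_left_comm, inv_mul_cancel₀ vol_ne, mul_one]

lemma iF_fF (f : Tor d M → ℂ) (x : Tor d M) : iF (fF f) x = f x := by
  unfold fF iF
  simp only [sum_mul, mul_assoc]
  rw [sum_comm]
  have : ∀ y : Tor d M, ∑ k, f y * (ch k (-y) * ch k x) =
      if y = x then f y * (vol d M : ℂ) else 0 := by
    intro y
    simp only [← ch_add, ← mul_sum, sum_ch, neg_add_eq_zero]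
    split_ifs <;> simp
  simp only [this, sum_ite_eq', mem_univ, if_true]
  rw [mul_left_comm, inv_mul_cancel₀ vol_ne, mul_one]

/-- bilinear Parseval -/
lemma sum_iF_mul (F : Tor d M → ℂ) (g : Tor d M → ℂ) :
    ∑ x, iF F x * g x = ((vol d M : ℝ) : ℂ)⁻¹ * ∑ k, F k * fF g (-k) := by
  unfold iF fF
  simp only [mul_assoc, ← mul_sum, sum_mul]
  congr 1
  rw [sum_comm]
  refine sum_congr rfl fun k _ => ?_
  rw [mul_sum]
  refine sum_congr rfl fun x _ => ?_
  rw [ch_neg_neg, neg_neg]; ring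

lemma fF_conj (g : Tor d M → ℂ) (k : Tor d M) :
    fF (fun x => conj (g x)) (-k) = conj (fF g k) := by
  unfold fF
  simp only [map_sum, map_mul, conj_ch, ch_neg_neg]

lemma parseval' (F G : Tor d M → ℂ) :
    ∑ x, iF F x * conj (iF G x) = ((vol d M : ℝ) : ℂ)⁻¹ * ∑ k, F k * conj (G k) := by
  rw [sum_iF_mul]
  simp only [fF_conj, fF_iF]

lemma parseval (F : Tor d M → ℂ) : ∑ x, ‖iF F x‖ ^ 2 = av fun k => ‖F k‖ ^ 2 := by
  have := parseval' F F
  simp only [Complex.mul_conj, Complex.normSq_eq_norm_sq] at this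
  unfold av
  exact_mod_cast this

lemma parseval_fF (f : Tor d M → ℂ) : ∑ x, ‖f x‖ ^ 2 = av fun k => ‖fF f k‖ ^ 2 := by
  rw [← parseval]; simp only [iF_fF]

lemma iF_add (F G : Tor d M → ℂ) (x : Tor d M) :
    iF (fun k => F k + G k) x = iF F x + iF G x := by
  simp only [iF, add_mul, sum_add_distrib, mul_add]

lemma iF_sub (F G : Tor d M → ℂ) (x : Tor d M) :
    iF (fun k => F k - G k) x = iF F x - iF G x := by
  simp only [iF, sub_mul, sum_sub_distrib, mul_sub]

lemma iF_mul_ch (F : Tor d M → ℂ) (p x : Tor d M) :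
    iF F x * ch p x = iF (fun k => F (k - p)) x := by
  unfold iF
  rw [mul_assoc, sum_mul]
  congr 1
  rw [← Equiv.sum_comp (Equiv.addRight p) (fun k => F (k - p) * ch k x)]
  refine sum_congr rfl fun k _ => ?_
  simp [ch_add', mul_assoc]

lemma iF_shift (F : Tor d M → ℂ) (u x : Tor d M) :
    iF F (x + u) = iF (fun k => F k * ch k u) x := by
  unfold iF
  congr 1
  refine sum_congr rfl fun k _ => ?_
  rw [ch_add]; ring

lemma av_nonneg {F : Tor d M → ℝ} (h : ∀ k, 0 ≤ F k) : 0 ≤ av F :=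
  mul_nonneg (inv_nonneg.2 vol_pos.le) (sum_nonneg fun k _ => h k)

lemma av_mono {F G : Tor d M → ℝ} (h : ∀ k, F k ≤ G k) : av F ≤ av G :=
  mul_le_mul_of_nonneg_left (sum_le_sum fun k _ => h k) (inv_nonneg.2 vol_pos.le)

lemma av_const (c : ℝ) : av (fun _ : Tor d M => c) = c := by
  unfold av
  rw [sum_const, card_univ, nsmul_eq_mul, card_tor]
  field_simp [(vol_pos (d := d) (M := M)).ne']

lemma av_add (F G : Tor d M → ℝ) : av (fun k => F k + G k) = av F + av G := by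
  simp only [av, sum_add_distrib, mul_add]

lemma av_mul (c : ℝ) (F : Tor d M → ℝ) : av (fun k => c * F k) = c * av F := by
  simp only [av, ← mul_sum]; ring

lemma av_equiv (e : Tor d M ≃ Tor d M) (F : Tor d M → ℝ) : av (fun k => F (e k)) = av F := by
  simp only [av, Equiv.sum_comp e F]

lemma norm_iF_le (F : Tor d M → ℂ) (x : Tor d M) : ‖iF F x‖ ≤ av fun k => ‖F k‖ := by
  unfold iF av
  rw [norm_mul, norm_inv, Complex.norm_real, Real.norm_of_nonneg vol_pos.le]
  refine mul_le_mul_of_nonneg_left ((norm_sum_le _ _).trans (le_of_eq ?_)) (inv_nonneg.2 vol_pos.le)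
  simp

lemma norm_iF_le_of {F : Tor d M → ℂ} {c : ℝ} (h : ∀ k, ‖F k‖ ≤ c) (x : Tor d M) :
    ‖iF F x‖ ≤ c :=
  (norm_iF_le F x).trans ((av_mono h).trans (av_const c).le)

/-! ### angles and the dispersion relation -/

/-- the angle in `(-π, π]` of a residue -/
noncomputable def ang (a : ZMod M) : ℝ := 2 * Real.pi * a.valMinAbs / M

lemma std_mul_int (a : ZMod M) (n : ℤ) :
    (ZMod.stdAddChar (a * (n : ZMod M)) : ℂ) = exp (((n * ang a : ℝ) : ℂ) * I) := by
  have : a * (n : ZMod M) = ((a.valMinAbs * n : ℤ) : ZMod M) := by simp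
  rw [this, ZMod.stdAddChar_coe]
  congr 1
  simp only [ang]
  push_cast
  ring

lemma std_eq (a : ZMod M) : (ZMod.stdAddChar a : ℂ) = exp (((ang a : ℝ) : ℂ) * I) := by
  simpa using std_mul_int a 1

lemma std_add_neg (a : ZMod M) :
    (ZMod.stdAddChar a : ℂ) + ZMod.stdAddChar (-a) = ((2 * Real.cos (ang a) : ℝ) : ℂ) := by
  have h := std_mul_int a (-1)
  simp only [Int.cast_neg, Int.cast_one, mul_neg, mul_one, neg_mul, one_mul] at h
  rw [h, std_eq]
  push_cast
  rw [Complex.two_cos]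

lemma cos_ang_int (n : ℤ) : Real.cos (ang (n : ZMod M)) = Real.cos (2 * Real.pi * n / M) := by
  have h1 := std_eq (n : ZMod M)
  rw [ZMod.stdAddChar_coe] at h1
  have h2 : (2 * Real.pi * I * n / M : ℂ) = ((2 * Real.pi * n / M : ℝ) : ℂ) * I := by
    push_cast; ring
  rw [h2] at h1
  have := congrArg Complex.re h1
  simpa only [Complex.exp_ofReal_mul_I_re] using this.symm


lemma cos_ang_sub (a b : ZMod M) : Real.cos (ang (a - b)) = Real.cos (ang a - ang b) := by
  have : a - b = ((a.valMinAbs - b.valMinAbs : ℤ) : ZMod M) := by simp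
  rw [this, cos_ang_int]
  congr 1
  simp only [ang]; push_cast; ring

lemma cos_ang_neg (a : ZMod M) : Real.cos (ang (-a)) = Real.cos (ang a) := by
  have := cos_ang_sub (0 : ZMod M) a
  simpa [ang] using this

lemma abs_ang_le (a : ZMod M) : |ang a| ≤ Real.pi := by
  have hM : (0 : ℝ) < M := Nat.cast_pos.2 (NeZero.pos M)
  have h := ZMod.valMinAbs_mem_Ioc a
  have h1 : (-(M : ℝ)) ≤ a.valMinAbs * 2 := by exact_mod_cast h.1.le
  have h2 : (a.valMinAbs : ℝ) * 2 ≤ M := by exact_mod_cast h.2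
  unfold ang
  rw [abs_le, le_div_iff₀ hM, div_le_iff₀ hM]
  constructor <;> nlinarith [Real.pi_pos]

/-- the dispersion relation of `-adjacency` -/
noncomputable def eps (k : Tor d M) : ℝ := -∑ j, 2 * Real.cos (ang (k j))

lemma ch_single (k : Tor d M) (j : Fin d) (a : ZMod M) :
    ch k (Pi.single j a) = ZMod.stdAddChar (k j * a) := by
  unfold ch
  congr 1
  rw [sum_eq_single j] <;> simp +contextual

lemma eps_eq (k : Tor d M) :
    ((eps k : ℝ) : ℂ) = -∑ j, (ch k (Pi.single j 1) + ch k (-Pi.single j 1)) := by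
  unfold eps
  push_cast
  congr 1
  refine sum_congr rfl fun j _ => ?_
  rw [← Pi.single_neg, ch_single, ch_single, mul_one, mul_neg, mul_one, std_add_neg]
  push_cast; rfl

lemma eps_neg (k : Tor d M) : eps (-k) = eps k := by
  simp only [eps, Pi.neg_apply, cos_ang_neg]

/-- the symbol of the free resolvent -/
noncomputable def Gh (z : ℂ) (k : Tor d M) : ℂ := ((eps k : ℂ) - z)⁻¹

/-- the free resolvent kernel `(-adj - z)⁻¹ (x, 0)` -/
noncomputable def G0 (z : ℂ) (x : Tor d M) : ℂ := iF (Gh z) x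

lemma eps_sub_ne {z : ℂ} (hz : 0 < z.im) (k : Tor d M) : (eps k : ℂ) - z ≠ 0 := by
  intro h
  have := congrArg Complex.im h
  simp at this
  linarith

lemma G0_neg (z : ℂ) (x : Tor d M) : G0 z (-x) = G0 z x := by
  unfold G0 iF
  congr 1
  rw [← Equiv.sum_comp (Equiv.neg _) (fun k => Gh z k * ch k x)]
  refine sum_congr rfl fun k _ => ?_
  simp [Gh, eps_neg, ch_neg_neg]

/-- the resolvent equation -/
lemma G0_eq {z : ℂ} (hz : 0 < z.im) (x : Tor d M) :
    -(∑ j, (G0 z (x + Pi.single j 1) + G0 z (x - Pi.single j 1))) - z * G0 z x =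
      if x = 0 then 1 else 0 := by
  have h1 : -(∑ j, (G0 z (x + Pi.single j 1) + G0 z (x - Pi.single j 1))) - z * G0 z x =
      iF (fun _ => 1) x := by
    simp only [G0, sub_eq_add_neg x, iF_shift]
    unfold iF
    simp only [← mul_add, ← sum_add_distrib]
    rw [← mul_sum, ← mul_neg, mul_left_comm z, ← mul_sub]
    congr 1
    rw [sum_comm, ← sum_neg_distrib, mul_sum, ← sum_sub_distrib]
    refine sum_congr rfl fun k _ => ?_
    have h2 : Gh z k * ((eps k : ℂ) - z) = 1 := inv_mul_cancel₀ (eps_sub_ne hz k)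
    have h3 : ∑ j, (Gh z k * ch k (Pi.single j 1) * ch k x + Gh z k * ch k (-Pi.single j 1) * ch k x)
        = Gh z k * (-(eps k : ℂ)) * ch k x := by
      rw [eps_eq, neg_neg, mul_sum, sum_mul]
      exact sum_congr rfl fun j _ => by ring
    rw [h3]; linear_combination ch k x * h2
  rw [h1]
  unfold iF
  simp only [one_mul, sum_ch]
  split_ifs
  · exact inv_mul_cancel₀ vol_ne
  · simp

lemma normSq_Gh (z : ℂ) (k : Tor d M) :
    ‖Gh z k‖ ^ 2 = ((eps k - z.re) ^ 2 + z.im ^ 2)⁻¹ := by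
  rw [Gh, norm_inv, inv_pow, Complex.sq_norm, Complex.normSq_apply]
  simp; ring_nf

lemma im_Gh (z : ℂ) (k : Tor d M) : (Gh z k).im = z.im * ‖Gh z k‖ ^ 2 := by
  rw [Gh, Complex.inv_im, norm_inv, inv_pow, Complex.sq_norm]
  simp [div_eq_mul_inv]

lemma norm_Gh_le {z : ℂ} (hz : 0 < z.im) (k : Tor d M) : ‖Gh z k‖ ≤ z.im⁻¹ := by
  rw [Gh, norm_inv]
  refine inv_anti₀ hz ?_
  have := Complex.abs_im_le_norm ((eps k : ℂ) - z)
  simp only [sub_im, ofReal_im, zero_sub, abs_neg] at this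
  exact (le_abs_self _).trans this

lemma im_G0_zero (z : ℂ) : (G0 z (0 : Tor d M)).im = av fun k : Tor d M => (Gh z k).im := by
  unfold G0 iF av
  rw [← Complex.ofReal_inv, Complex.im_ofReal_mul]
  simp [Complex.im_sum]

/-- Ward identity -/
lemma ward (z : ℂ) : z.im * ∑ x : Tor d M, ‖G0 z x‖ ^ 2 = (G0 z (0 : Tor d M)).im := by
  rw [im_G0_zero]
  simp only [G0, parseval, im_Gh, av_mul]


end Crest.Agent.N334.AC.I
end

-- ▼ part N334/AC/I/CT
section

/-!
# Row 334, S0520, part I (helper24): sup norm on the torus and Combes–Thomas for the free resolvent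
-/

set_option autoImplicit false
set_option linter.unusedSectionVars false

open Finset Complex
open scoped ComplexConjugate

namespace Crest.Agent.N334.AC.I

variable {d M : ℕ} [NeZero M]

/-- sup norm on the torus -/
def nrm (x : Tor d M) : ℕ := univ.sup fun j => (x j).valMinAbs.natAbs

lemma le_nrm (x : Tor d M) (j : Fin d) : (x j).valMinAbs.natAbs ≤ nrm x :=
  le_sup (f := fun j => (x j).valMinAbs.natAbs) (mem_univ j)

lemma nrm_le {x : Tor d M} {n : ℕ} : nrm x ≤ n ↔ ∀ j, (x j).valMinAbs.natAbs ≤ n := by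
  simp [nrm]

@[simp] lemma nrm_zero : nrm (0 : Tor d M) = 0 := by
  apply Nat.eq_zero_of_le_zero; rw [nrm_le]; simp

lemma nrm_eq_zero {x : Tor d M} : nrm x = 0 ↔ x = 0 := by
  refine ⟨fun h => ?_, fun h => h ▸ nrm_zero⟩
  funext j
  have := le_nrm x j
  rw [h] at this
  simpa using this

@[simp] lemma nrm_neg (x : Tor d M) : nrm (-x) = nrm x := by
  simp only [nrm, Pi.neg_apply, ZMod.natAbs_valMinAbs_neg]

lemma nrm_add_le (x y : Tor d M) : nrm (x + y) ≤ nrm x + nrm y := by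
  rw [nrm_le]
  intro j
  refine (ZMod.natAbs_valMinAbs_add_le _ _).trans ((Int.natAbs_add_le _ _).trans ?_)
  exact add_le_add (le_nrm x j) (le_nrm y j)

lemma nrm_sub_comm (x y : Tor d M) : nrm (x - y) = nrm (y - x) := by
  rw [← nrm_neg, neg_sub]

lemma natAbs_valMinAbs_int (n : ℤ) : ((n : ZMod M).valMinAbs).natAbs ≤ n.natAbs := by
  apply ZMod.natAbs_min_of_le_div_two M
  · simp
  · exact ZMod.natAbs_valMinAbs_le _

lemma nrm_single (j : Fin d) : nrm (Pi.single j 1 : Tor d M) ≤ 1 := by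
  rw [nrm_le]
  intro i
  by_cases h : i = j
  · subst h
    simpa using natAbs_valMinAbs_int (M := M) 1
  · simp [h]

lemma abs_nrm_step (x : Tor d M) (j : Fin d) :
    |(nrm (x + Pi.single j 1) : ℝ) - nrm x| ≤ 1 := by
  have h1 := nrm_add_le x (Pi.single j 1)
  have h2 := nrm_add_le (x + Pi.single j 1) (-Pi.single j 1)
  rw [add_neg_cancel_right, nrm_neg] at h2
  have h3 := nrm_single (M := M) j
  have h1' : (nrm (x + Pi.single j 1) : ℝ) ≤ nrm x + 1 := by exact_mod_cast (by omega)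
  have h2' : (nrm x : ℝ) ≤ nrm (x + Pi.single j 1) + 1 := by exact_mod_cast (by omega)
  rw [abs_le]; constructor <;> linarith

lemma abs_exp_sub_le {a b θ : ℝ} (h : |a - b| ≤ θ) (hθ : θ ≤ 1) :
    |Real.exp (2 * a) - Real.exp (2 * b)| ≤ 4 * θ * (Real.exp a * Real.exp b) := by
  have h1 : Real.exp (2 * a) - Real.exp (2 * b) =
      (Real.exp (a - b) - 1 - (Real.exp (-(a - b)) - 1)) * (Real.exp a * Real.exp b) := by
    rw [← Real.exp_add]
    have e1 : Real.exp (2 * a) = Real.exp (a - b) * Real.exp (a + b) := by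
      rw [← Real.exp_add]; ring_nf
    have e2 : Real.exp (2 * b) = Real.exp (-(a - b)) * Real.exp (a + b) := by
      rw [← Real.exp_add]; ring_nf
    rw [e1, e2]; ring
  rw [h1, abs_mul, abs_of_pos (by positivity : 0 < Real.exp a * Real.exp b)]
  refine mul_le_mul_of_nonneg_right ?_ (by positivity)
  have h2 := Real.abs_exp_sub_one_le (x := a - b) (h.trans hθ)
  have h3 := Real.abs_exp_sub_one_le (x := -(a - b)) (by rw [abs_neg]; exact h.trans hθ)
  rw [abs_neg] at h3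
  calc _ ≤ |Real.exp (a - b) - 1| + |Real.exp (-(a - b)) - 1| := abs_sub _ _
    _ ≤ _ := by linarith

lemma sum_add_right {β : Type*} [AddCommMonoid β] (f : Tor d M → β) (u : Tor d M) :
    ∑ x, f (x + u) = ∑ x, f x := by
  rw [← Equiv.sum_comp (Equiv.addRight u) f]
  simp only [Equiv.coe_addRight]

/-- Combes–Thomas estimate with a general Lipschitz weight -/
lemma ct_weight {z : ℂ} (hz : 0 < z.im) (φ : Tor d M → ℝ) {θ : ℝ} (hθ1 : θ ≤ 1)
    (hφ : ∀ x j, |φ (x + Pi.single j 1) - φ x| ≤ θ) :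
    (z.im - 4 * d * θ) * ∑ x, Real.exp (2 * φ x) * ‖G0 z x‖ ^ 2 ≤
      Real.exp (2 * φ 0) * (G0 z (0 : Tor d M)).im := by
  set u : Tor d M → ℂ := G0 z with hu
  set W : Tor d M → ℝ := fun x => Real.exp (2 * φ x) with hW
  have h1 : ∑ x, (W x : ℂ) * conj (u x) *
      (-(∑ j, (u (x + Pi.single j 1) + u (x - Pi.single j 1))) - z * u x) =
      (W 0 : ℂ) * conj (u 0) := by
    simp only [hu, G0_eq hz, mul_ite, mul_one, mul_zero, sum_ite_eq', mem_univ, if_true]
  have h2 : ∀ j : Fin d, ∑ x, (W x : ℂ) * conj (u x) * u (x - Pi.single j 1) =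
      ∑ x, (W (x + Pi.single j 1) : ℂ) * conj (u (x + Pi.single j 1)) * u x := by
    intro j
    rw [← Equiv.sum_comp (Equiv.addRight (Pi.single j 1 : Tor d M))]
    simp
  have h3 : ∑ x, (W x : ℂ) * conj (u x) *
      (-(∑ j, (u (x + Pi.single j 1) + u (x - Pi.single j 1))) - z * u x) =
      -(∑ j, ∑ x, ((W x : ℂ) * conj (u x) * u (x + Pi.single j 1) +
        (W (x + Pi.single j 1) : ℂ) * conj (u (x + Pi.single j 1)) * u x)) -
        z * ∑ x, ((W x * ‖u x‖ ^ 2 : ℝ) : ℂ) := by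
    simp only [sum_add_distrib, ← h2]
    simp only [mul_sub, mul_neg, mul_add, mul_sum, sum_sub_distrib, sum_neg_distrib,
      sum_add_distrib]
    congr 1
    · congr 2 <;> exact sum_comm
    · refine sum_congr rfl fun x _ => ?_
      have : ((‖u x‖ ^ 2 : ℝ) : ℂ) = conj (u x) * u x := by
        rw [Complex.conj_mul', ]; push_cast; rfl
      push_cast at this ⊢
      rw [this]; ring
  rw [h3] at h1
  have h4 := congrArg Complex.im h1
  rw [← Complex.ofReal_sum] at h4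
  simp only [sub_im, neg_im, Complex.im_sum, mul_im, ofReal_re, ofReal_im, mul_zero, zero_add,
    conj_im, zero_mul, add_zero, add_im, conj_re, mul_re, sub_zero] at h4
  have h5 : ∀ (j : Fin d) (x : Tor d M),
      -(2 * θ * (W x * ‖u x‖ ^ 2 + W (x + Pi.single j 1) * ‖u (x + Pi.single j 1)‖ ^ 2)) ≤
      W x * (u x).re * (u (x + Pi.single j 1)).im + W x * -(u x).im * (u (x + Pi.single j 1)).re +
        (W (x + Pi.single j 1) * (u (x + Pi.single j 1)).re * (u x).im +
          W (x + Pi.single j 1) * -(u (x + Pi.single j 1)).im * (u x).re) := by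
    intro j x
    set y := x + Pi.single j 1
    have e1 : W x * (u x).re * (u y).im + W x * -(u x).im * (u y).re +
        (W y * (u y).re * (u x).im + W y * -(u y).im * (u x).re) =
        (W x - W y) * (conj (u x) * u y).im := by
      simp only [mul_im, conj_re, conj_im]; ring
    rw [e1]
    have e2 : |W x - W y| ≤ 4 * θ * (Real.exp (φ x) * Real.exp (φ y)) :=
      abs_exp_sub_le (by rw [abs_sub_comm]; exact hφ x j) hθ1
    have e3 : |(conj (u x) * u y).im| ≤ ‖u x‖ * ‖u y‖ := by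
      refine (Complex.abs_im_le_norm _).trans (le_of_eq ?_)
      rw [norm_mul, Complex.norm_conj]
    have hθ0 : 0 ≤ θ := (abs_nonneg _).trans (hφ x j)
    have e4 : |(W x - W y) * (conj (u x) * u y).im| ≤
        4 * θ * (Real.exp (φ x) * Real.exp (φ y)) * (‖u x‖ * ‖u y‖) := by
      rw [abs_mul]; exact mul_le_mul e2 e3 (abs_nonneg _) (by positivity)
    have e5 : W x = Real.exp (φ x) ^ 2 := by
      simp only [hW]; rw [← Real.exp_nat_mul]; norm_num
    have e6 : W y = Real.exp (φ y) ^ 2 := by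
      simp only [hW]; rw [← Real.exp_nat_mul]; norm_num
    have e7 : 2 * (Real.exp (φ x) * Real.exp (φ y)) * (‖u x‖ * ‖u y‖) ≤
        W x * ‖u x‖ ^ 2 + W y * ‖u y‖ ^ 2 := by
      rw [e5, e6]
      nlinarith [sq_nonneg (Real.exp (φ x) * ‖u x‖ - Real.exp (φ y) * ‖u y‖)]
    have e8 := neg_abs_le ((W x - W y) * (conj (u x) * u y).im)
    nlinarith
  have h6 := sum_le_sum fun (j : Fin d) (_ : j ∈ univ) =>
    sum_le_sum fun (x : Tor d M) (_ : x ∈ univ) => h5 j x
  change (z.im - 4 * d * θ) * ∑ x, W x * ‖u x‖ ^ 2 ≤ W 0 * (u 0).im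
  clear_value u W
  have h7 : ∀ j : Fin d, ∑ x : Tor d M, W (x + Pi.single j 1) * ‖u (x + Pi.single j 1)‖ ^ 2 =
      ∑ x, W x * ‖u x‖ ^ 2 := fun j =>
    sum_add_right (fun x => W x * ‖u x‖ ^ 2) (Pi.single j 1)
  simp only [sum_neg_distrib, ← mul_sum, sum_add_distrib, h7, sum_const, card_univ,
    Fintype.card_fin, nsmul_eq_mul] at h6
  simp only [sum_add_distrib] at h4
  nlinarith

/-- exponential moment of the free resolvent -/
lemma ct {z : ℂ} (hz : 0 < z.im) {θ : ℝ} (hθ0 : 0 ≤ θ) (hθ1 : θ ≤ 1) (hθ : 8 * d * θ ≤ z.im) :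
    z.im * ∑ x : Tor d M, Real.exp (2 * θ * nrm x) * ‖G0 z x‖ ^ 2 ≤
      2 * (G0 z (0 : Tor d M)).im := by
  have h := ct_weight (d := d) (M := M) hz (fun x => θ * nrm x) hθ1 (fun x j => by
    rw [← mul_sub, abs_mul, abs_of_nonneg hθ0]
    exact mul_le_of_le_one_right hθ0 (abs_nrm_step x j))
  simp only [nrm_zero, Nat.cast_zero, mul_zero, Real.exp_zero, one_mul, ← mul_assoc] at h
  have h0 : 0 ≤ ∑ x : Tor d M, Real.exp (2 * θ * nrm x) * ‖G0 z x‖ ^ 2 :=
    sum_nonneg fun x _ => by positivity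
  nlinarith

lemma im_G0_le {z : ℂ} (hz : 0 < z.im) : (G0 z (0 : Tor d M)).im ≤ z.im⁻¹ :=
  (le_abs_self _).trans ((Complex.abs_im_le_norm _).trans (norm_iF_le_of (norm_Gh_le hz) 0))

/-- pointwise decay -/
lemma norm_G0_le_exp {z : ℂ} (hz : 0 < z.im) {θ : ℝ} (hθ0 : 0 ≤ θ) (hθ1 : θ ≤ 1)
    (hθ : 8 * d * θ ≤ z.im) (x : Tor d M) :
    ‖G0 z x‖ ≤ 2 * z.im⁻¹ * Real.exp (-(θ * nrm x)) := by
  have h := ct (d := d) (M := M) hz hθ0 hθ1 hθ
  have h1 : Real.exp (2 * θ * nrm x) * ‖G0 z x‖ ^ 2 ≤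
      ∑ x : Tor d M, Real.exp (2 * θ * nrm x) * ‖G0 z x‖ ^ 2 :=
    single_le_sum (f := fun x : Tor d M => Real.exp (2 * θ * nrm x) * ‖G0 z x‖ ^ 2)
      (fun x _ => by positivity) (mem_univ x)
  have h2 := im_G0_le (d := d) (M := M) hz
  have h3 : (Real.exp (θ * nrm x) * ‖G0 z x‖) ^ 2 ≤ (2 * z.im⁻¹) ^ 2 := by
    have e : Real.exp (2 * θ * nrm x) = Real.exp (θ * nrm x) ^ 2 := by
      rw [← Real.exp_nat_mul]; congr 1; push_cast; ring
    rw [mul_pow, ← e]
    have h4 : z.im * (Real.exp (2 * θ * nrm x) * ‖G0 z x‖ ^ 2) ≤ 2 * z.im⁻¹ := by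
      nlinarith [mul_le_mul_of_nonneg_left h1 hz.le]
    have h5 : Real.exp (2 * θ * nrm x) * ‖G0 z x‖ ^ 2 ≤ z.im⁻¹ * (2 * z.im⁻¹) := by
      rw [← mul_le_mul_iff_right₀ hz, ← mul_assoc z.im z.im⁻¹, mul_inv_cancel₀ hz.ne', one_mul]
      exact h4
    nlinarith [inv_pos.2 hz, mul_pos (inv_pos.2 hz) (inv_pos.2 hz)]
  have h6 := (pow_le_pow_iff_left₀ (by positivity) (by positivity) two_ne_zero).1 h3
  rw [Real.exp_neg, ← div_eq_mul_inv, le_div_iff₀ (Real.exp_pos _)]
  linarith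

end Crest.Agent.N334.AC.I
end

-- ▼ part R138/ExVdc_774
section

/-!
# One dimensional van der Corput estimates (helper774)
-/

set_option autoImplicit false

open MeasureTheory Set Complex
open scoped Real

namespace Crest.Agent.R138.Ex774

/-- `e(t) = exp (2πi t)`. -/
noncomputable def ec (t : ℝ) : ℂ := Complex.exp (2 * Real.pi * (t : ℝ) * Complex.I)

lemma norm_ec (t : ℝ) : ‖ec t‖ = 1 := by
  unfold ec
  rw [Complex.norm_exp]
  simp


lemma hasDerivAt_ec (t : ℝ) : HasDerivAt ec (2 * Real.pi * Complex.I * ec t) t := by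
  unfold ec
  have h1 : HasDerivAt (fun t : ℝ => (2 * Real.pi * (t : ℝ) * Complex.I : ℂ))
      (2 * Real.pi * Complex.I) t := by
    have h0 : HasDerivAt (fun t : ℝ => ((t : ℝ) : ℂ)) 1 t := Complex.ofRealCLM.hasDerivAt
    have := (h0.const_mul (2 * Real.pi : ℂ)).mul_const Complex.I
    simpa using this
  have h2 := h1.cexp
  convert h2 using 1
  ring

lemma continuous_ec : Continuous ec := by
  unfold ec
  fun_prop

/-- Integration by parts identity. -/
lemma ibp {a b : ℝ} (hab : a ≤ b) {θ θ1 θ2 : ℝ → ℝ} {ψ ψ1 : ℝ → ℂ}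
    (h1 : ∀ x ∈ Icc a b, HasDerivAt θ (θ1 x) x)
    (h2 : ∀ x ∈ Icc a b, HasDerivAt θ1 (θ2 x) x)
    (h2c : ContinuousOn θ2 (Icc a b))
    (h3 : ∀ x ∈ Icc a b, HasDerivAt ψ (ψ1 x) x)
    (h3c : ContinuousOn ψ1 (Icc a b))
    (h0 : ∀ x ∈ Icc a b, θ1 x ≠ 0) :
    ∫ x in a..b, ψ x * ec (θ x) =
      (ψ b * ec (θ b) / (2 * Real.pi * Complex.I * θ1 b) -
        ψ a * ec (θ a) / (2 * Real.pi * Complex.I * θ1 a)) -
      ∫ x in a..b, (ψ1 x / (2 * Real.pi * Complex.I * θ1 x) -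
        ψ x * θ2 x / (2 * Real.pi * Complex.I * θ1 x ^ 2)) * ec (θ x) := by
  have hpi : (2 * Real.pi * Complex.I : ℂ) ≠ 0 := by
    simp [Real.pi_ne_zero]
  have hcθ : ContinuousOn θ (Icc a b) := fun x hx => (h1 x hx).continuousAt.continuousWithinAt
  have hcθ1 : ContinuousOn θ1 (Icc a b) := fun x hx => (h2 x hx).continuousAt.continuousWithinAt
  have hcψ : ContinuousOn ψ (Icc a b) := fun x hx => (h3 x hx).continuousAt.continuousWithinAt
  have hce : ContinuousOn (fun x => ec (θ x)) (Icc a b) := continuous_ec.comp_continuousOn hcθ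
  have hcθ1' : ContinuousOn (fun x => ((θ1 x : ℝ) : ℂ)) (Icc a b) :=
    Complex.continuous_ofReal.comp_continuousOn hcθ1
  have hcθ2' : ContinuousOn (fun x => ((θ2 x : ℝ) : ℂ)) (Icc a b) :=
    Complex.continuous_ofReal.comp_continuousOn h2c
  have hne : ∀ x ∈ Icc a b, (2 * Real.pi * Complex.I * (θ1 x : ℂ)) ≠ 0 := by
    intro x hx
    exact mul_ne_zero hpi (by exact_mod_cast h0 x hx)
  have hne2 : ∀ x ∈ Icc a b, (2 * Real.pi * Complex.I * (θ1 x : ℂ) ^ 2) ≠ 0 := by
    intro x hx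
    refine mul_ne_zero hpi (pow_ne_zero _ (by exact_mod_cast h0 x hx))
  have hcA : ContinuousOn (fun x => (ψ1 x / (2 * Real.pi * Complex.I * θ1 x) -
        ψ x * θ2 x / (2 * Real.pi * Complex.I * θ1 x ^ 2)) * ec (θ x)) (Icc a b) := by
    refine ContinuousOn.mul (ContinuousOn.sub ?_ ?_) hce
    · exact h3c.div (continuousOn_const.mul hcθ1') hne
    · exact (hcψ.mul hcθ2').div (continuousOn_const.mul (hcθ1'.pow 2)) hne2
  have hcB : ContinuousOn (fun x => ψ x * ec (θ x)) (Icc a b) := hcψ.mul hce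
  have huIcc : uIcc a b = Icc a b := uIcc_of_le hab
  have key : ∀ x ∈ Icc a b, HasDerivAt
      (fun x => ψ x * ec (θ x) / (2 * Real.pi * Complex.I * θ1 x))
      (ψ x * ec (θ x) + (ψ1 x / (2 * Real.pi * Complex.I * θ1 x) -
        ψ x * θ2 x / (2 * Real.pi * Complex.I * θ1 x ^ 2)) * ec (θ x)) x := by
    intro x hx
    have hd1 : HasDerivAt (fun x => ec (θ x)) (θ1 x • (2 * Real.pi * Complex.I * ec (θ x))) x :=
      HasDerivAt.scomp x (hasDerivAt_ec (θ x)) (h1 x hx)
    have hd2 : HasDerivAt (fun x => ((θ1 x : ℝ) : ℂ)) ((θ2 x : ℝ) : ℂ) x := (h2 x hx).ofReal_comp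
    have hd3 := ((h3 x hx).mul hd1).div (hd2.const_mul (2 * Real.pi * Complex.I)) (hne x hx)
    refine HasDerivAt.congr_deriv (f := fun x => ψ x * ec (θ x) / (2 * Real.pi * Complex.I * θ1 x))
      hd3 ?_
    have hθ : (θ1 x : ℂ) ≠ 0 := by exact_mod_cast h0 x hx
    have hI : (Complex.I : ℂ) ≠ 0 := Complex.I_ne_zero
    have hπ : (Real.pi : ℂ) ≠ 0 := by exact_mod_cast Real.pi_ne_zero
    simp only [Complex.real_smul, Pi.mul_apply]
    field_simp
    ring
  have hint := intervalIntegral.integral_eq_sub_of_hasDerivAt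
    (f := fun x => ψ x * ec (θ x) / (2 * Real.pi * Complex.I * θ1 x))
    (f' := fun x => ψ x * ec (θ x) + (ψ1 x / (2 * Real.pi * Complex.I * θ1 x) -
        ψ x * θ2 x / (2 * Real.pi * Complex.I * θ1 x ^ 2)) * ec (θ x)) (a := a) (b := b)
    (fun x hx => key x (huIcc ▸ hx))
    ((hcB.add hcA).intervalIntegrable_of_Icc hab)
  rw [intervalIntegral.integral_add (hcB.intervalIntegrable_of_Icc hab)
    (hcA.intervalIntegrable_of_Icc hab)] at hint
  rw [← hint]
  ring

/-- First derivative test. -/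
lemma vdc1 {a b : ℝ} (hab : a ≤ b) {θ θ1 θ2 : ℝ → ℝ} {ψ ψ1 : ℝ → ℂ} {M μ : ℝ} (hμ : 0 < μ)
    (h1 : ∀ x ∈ Icc a b, HasDerivAt θ (θ1 x) x)
    (h2 : ∀ x ∈ Icc a b, HasDerivAt θ1 (θ2 x) x)
    (h2c : ContinuousOn θ2 (Icc a b))
    (h3 : ∀ x ∈ Icc a b, HasDerivAt ψ (ψ1 x) x)
    (h3c : ContinuousOn ψ1 (Icc a b))
    (hM : ∀ x ∈ Icc a b, ‖ψ x‖ ≤ M) (hM1 : ∀ x ∈ Icc a b, ‖ψ1 x‖ ≤ M)
    (hθ : ∀ x ∈ Icc a b, μ ≤ |θ1 x|)
    (hs : (∀ x ∈ Icc a b, 0 ≤ θ2 x) ∨ (∀ x ∈ Icc a b, θ2 x ≤ 0)) :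
    ‖∫ x in a..b, ψ x * ec (θ x)‖ ≤ M * (4 + (b - a)) / μ := by
  have h0 : ∀ x ∈ Icc a b, θ1 x ≠ 0 := by
    intro x hx h
    have := hθ x hx
    rw [h, abs_zero] at this
    linarith
  have hMnn : 0 ≤ M := (norm_nonneg _).trans (hM a (left_mem_Icc.2 hab))
  have hcθ1 : ContinuousOn θ1 (Icc a b) := fun x hx => (h2 x hx).continuousAt.continuousWithinAt
  rw [ibp hab h1 h2 h2c h3 h3c h0]
  have hpi2 : (1 : ℝ) ≤ 2 * Real.pi := by
    have := Real.pi_gt_three
    linarith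
  have hnorm : ∀ z : ℂ, ‖(2 * Real.pi * Complex.I * z : ℂ)‖ = 2 * Real.pi * ‖z‖ := by
    intro z
    rw [norm_mul, norm_mul, norm_mul]
    simp [abs_of_pos Real.pi_pos]
  have hbd : ∀ x ∈ Icc a b, ‖ψ x * ec (θ x) / (2 * Real.pi * Complex.I * θ1 x)‖ ≤ M / μ := by
    intro x hx
    rw [norm_div, norm_mul, norm_ec, mul_one, hnorm, Complex.norm_real, Real.norm_eq_abs]
    refine div_le_div₀ hMnn (hM x hx) hμ ?_
    calc μ ≤ |θ1 x| := hθ x hx
      _ = 1 * |θ1 x| := (one_mul _).symm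
      _ ≤ 2 * Real.pi * |θ1 x| := by gcongr
  -- total variation of `1/θ1`
  have hvar : ∫ x in a..b, |θ2 x| / (θ1 x) ^ 2 ≤ 2 / μ := by
    have hder : ∀ x ∈ Icc a b, HasDerivAt (fun x => -(θ1 x)⁻¹) (θ2 x / (θ1 x) ^ 2) x := by
      intro x hx
      have := ((h2 x hx).inv (h0 x hx)).neg
      refine HasDerivAt.congr_deriv (f := fun x => -(θ1 x)⁻¹) this ?_
      ring
    have hcont : ContinuousOn (fun x => θ2 x / (θ1 x) ^ 2) (Icc a b) :=
      h2c.div (hcθ1.pow 2) (fun x hx => pow_ne_zero _ (h0 x hx))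
    have hF := intervalIntegral.integral_eq_sub_of_hasDerivAt
      (f := fun x => -(θ1 x)⁻¹) (f' := fun x => θ2 x / (θ1 x) ^ 2) (a := a) (b := b)
      (fun x hx => hder x (uIcc_of_le hab ▸ hx)) (hcont.intervalIntegrable_of_Icc hab)
    have hinv : ∀ x ∈ Icc a b, |(θ1 x)⁻¹| ≤ 1 / μ := by
      intro x hx
      rw [abs_inv, ← one_div]
      exact one_div_le_one_div_of_le hμ (hθ x hx)
    have ha := abs_le.1 (hinv a (left_mem_Icc.2 hab))
    have hb := abs_le.1 (hinv b (right_mem_Icc.2 hab))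
    have h2μ : 2 / μ = 1 / μ + 1 / μ := by ring
    rcases hs with hs | hs
    · have : ∫ x in a..b, |θ2 x| / (θ1 x) ^ 2 = ∫ x in a..b, θ2 x / (θ1 x) ^ 2 := by
        refine intervalIntegral.integral_congr (fun x hx => ?_)
        rw [uIcc_of_le hab] at hx
        rw [abs_of_nonneg (hs x hx)]
      rw [this, hF, h2μ]
      linarith [ha.1, ha.2, hb.1, hb.2]
    · have : ∫ x in a..b, |θ2 x| / (θ1 x) ^ 2 = -∫ x in a..b, θ2 x / (θ1 x) ^ 2 := by
        rw [← intervalIntegral.integral_neg]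
        refine intervalIntegral.integral_congr (fun x hx => ?_)
        rw [uIcc_of_le hab] at hx
        rw [abs_of_nonpos (hs x hx)]
        ring
      rw [this, hF, h2μ]
      linarith [ha.1, ha.2, hb.1, hb.2]
  have hint2 : ‖∫ x in a..b, (ψ1 x / (2 * Real.pi * Complex.I * θ1 x) -
        ψ x * θ2 x / (2 * Real.pi * Complex.I * θ1 x ^ 2)) * ec (θ x)‖ ≤
      M * (b - a) / μ + M * (2 / μ) := by
    have hptw : ∀ x ∈ Ioc a b, ‖(ψ1 x / (2 * Real.pi * Complex.I * θ1 x) -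
        ψ x * θ2 x / (2 * Real.pi * Complex.I * θ1 x ^ 2)) * ec (θ x)‖ ≤
        M / μ + M * (|θ2 x| / (θ1 x) ^ 2) := by
      intro x hx'
      have hx : x ∈ Icc a b := Ioc_subset_Icc_self hx'
      rw [norm_mul, norm_ec, mul_one]
      refine (norm_sub_le _ _).trans (add_le_add ?_ ?_)
      · rw [norm_div, hnorm, Complex.norm_real, Real.norm_eq_abs]
        refine div_le_div₀ hMnn (hM1 x hx) hμ ?_
        calc μ ≤ |θ1 x| := hθ x hx
          _ = 1 * |θ1 x| := (one_mul _).symm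
          _ ≤ 2 * Real.pi * |θ1 x| := by gcongr
      · rw [norm_div, hnorm, norm_mul, norm_pow, Complex.norm_real, Complex.norm_real,
          Real.norm_eq_abs, Real.norm_eq_abs, sq_abs, ← mul_div_assoc]
        have hsq : 0 < (θ1 x) ^ 2 := by
          have := h0 x hx
          positivity
        refine div_le_div₀ (by positivity) ?_ hsq ?_
        · exact mul_le_mul_of_nonneg_right (hM x hx) (abs_nonneg _)
        · calc (θ1 x) ^ 2 = 1 * (θ1 x) ^ 2 := (one_mul _).symm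
            _ ≤ 2 * Real.pi * (θ1 x) ^ 2 := by gcongr
    have hcont2 : ContinuousOn (fun x => |θ2 x| / (θ1 x) ^ 2) (Icc a b) :=
      h2c.abs.div (hcθ1.pow 2) (fun x hx => pow_ne_zero _ (h0 x hx))
    have hii : IntervalIntegrable (fun x => |θ2 x| / (θ1 x) ^ 2) volume a b :=
      hcont2.intervalIntegrable_of_Icc hab
    refine (intervalIntegral.norm_integral_le_of_norm_le hab
      (Filter.Eventually.of_forall (fun x hx => hptw x hx)) ?_).trans ?_
    · exact intervalIntegrable_const.add (hii.const_mul _)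
    · rw [intervalIntegral.integral_add intervalIntegrable_const (hii.const_mul _),
        intervalIntegral.integral_const_mul, intervalIntegral.integral_const, smul_eq_mul]
      have := mul_le_mul_of_nonneg_left hvar hMnn
      have h3 : (b - a) * (M / μ) = M * (b - a) / μ := by ring
      rw [h3]
      linarith
  calc _ ≤ ‖(ψ b * ec (θ b) / (2 * Real.pi * Complex.I * θ1 b) -
        ψ a * ec (θ a) / (2 * Real.pi * Complex.I * θ1 a))‖ +
        ‖∫ x in a..b, (ψ1 x / (2 * Real.pi * Complex.I * θ1 x) -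
        ψ x * θ2 x / (2 * Real.pi * Complex.I * θ1 x ^ 2)) * ec (θ x)‖ := norm_sub_le _ _
    _ ≤ (M / μ + M / μ) + (M * (b - a) / μ + M * (2 / μ)) := by
        refine add_le_add ((norm_sub_le _ _).trans (add_le_add ?_ ?_)) hint2
        · exact hbd b (right_mem_Icc.2 hab)
        · exact hbd a (left_mem_Icc.2 hab)
    _ = M * (4 + (b - a)) / μ := by
        field_simp
        ring

lemma exists_zero_pos {a b lam : ℝ} (hab : a ≤ b) {θ1 θ2 : ℝ → ℝ} (hl : 0 < lam)
    (h2 : ∀ x ∈ Icc a b, HasDerivAt θ1 (θ2 x) x)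
    (hs : ∀ x ∈ Icc a b, lam ≤ θ2 x) :
    ∃ s0 ∈ Icc a b, ∀ x ∈ Icc a b, lam * |x - s0| ≤ |θ1 x| := by
  have hc : ContinuousOn θ1 (Icc a b) := fun x hx => (h2 x hx).continuousAt.continuousWithinAt
  have hslope : ∀ x ∈ Icc a b, ∀ y ∈ Icc a b, x ≤ y → lam * (y - x) ≤ θ1 y - θ1 x := by
    refine Convex.mul_sub_le_image_sub_of_le_deriv (convex_Icc a b) hc ?_ ?_
    · intro x hx
      exact (h2 x (interior_subset hx)).differentiableAt.differentiableWithinAt
    · intro x hx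
      rw [(h2 x (interior_subset hx)).deriv]
      exact hs x (interior_subset hx)
  have ha : a ∈ Icc a b := left_mem_Icc.2 hab
  have hb : b ∈ Icc a b := right_mem_Icc.2 hab
  by_cases h0 : 0 ≤ θ1 a
  · refine ⟨a, ha, fun x hx => ?_⟩
    have := hslope a ha x hx hx.1
    rw [abs_of_nonneg (sub_nonneg.2 hx.1)]
    exact le_trans (by linarith) (le_abs_self _)
  by_cases h1 : θ1 b ≤ 0
  · refine ⟨b, hb, fun x hx => ?_⟩
    have := hslope x hx b hb hx.2
    rw [abs_of_nonpos (sub_nonpos.2 hx.2)]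
    exact le_trans (by linarith) (neg_le_abs _)
  push Not at h0 h1
  obtain ⟨s0, hs0, hz⟩ := intermediate_value_Icc hab hc (show (0 : ℝ) ∈ Icc (θ1 a) (θ1 b) from
    ⟨h0.le, h1.le⟩)
  refine ⟨s0, hs0, fun x hx => ?_⟩
  rcases le_total x s0 with h | h
  · have := hslope x hx s0 hs0 h
    rw [abs_of_nonpos (sub_nonpos.2 h)]
    exact le_trans (by linarith) (neg_le_abs _)
  · have := hslope s0 hs0 x hx h
    rw [abs_of_nonneg (sub_nonneg.2 h)]
    exact le_trans (by linarith) (le_abs_self _)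

lemma exists_zero {a b lam : ℝ} (hab : a ≤ b) {θ1 θ2 : ℝ → ℝ} (hl : 0 < lam)
    (h2 : ∀ x ∈ Icc a b, HasDerivAt θ1 (θ2 x) x)
    (hs : (∀ x ∈ Icc a b, lam ≤ θ2 x) ∨ (∀ x ∈ Icc a b, θ2 x ≤ -lam)) :
    ∃ s0 ∈ Icc a b, ∀ x ∈ Icc a b, lam * |x - s0| ≤ |θ1 x| := by
  rcases hs with hs | hs
  · exact exists_zero_pos hab hl h2 hs
  · obtain ⟨s0, hs0, h⟩ := exists_zero_pos (θ1 := fun x => -θ1 x) (θ2 := fun x => -θ2 x) hab hl
      (fun x hx => (h2 x hx).neg) (fun x hx => by linarith [hs x hx])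
    refine ⟨s0, hs0, fun x hx => ?_⟩
    have := h x hx
    rwa [abs_neg] at this

/-- Second derivative test. -/
lemma vdc2 {a b : ℝ} (hab : a ≤ b) {θ θ1 θ2 : ℝ → ℝ} {ψ ψ1 : ℝ → ℂ} {M lam : ℝ} (hl : 0 < lam)
    (h1 : ∀ x ∈ Icc a b, HasDerivAt θ (θ1 x) x)
    (h2 : ∀ x ∈ Icc a b, HasDerivAt θ1 (θ2 x) x)
    (h2c : ContinuousOn θ2 (Icc a b))
    (h3 : ∀ x ∈ Icc a b, HasDerivAt ψ (ψ1 x) x)
    (h3c : ContinuousOn ψ1 (Icc a b))
    (hM : ∀ x ∈ Icc a b, ‖ψ x‖ ≤ M) (hM1 : ∀ x ∈ Icc a b, ‖ψ1 x‖ ≤ M)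
    (hs : (∀ x ∈ Icc a b, lam ≤ θ2 x) ∨ (∀ x ∈ Icc a b, θ2 x ≤ -lam)) :
    ‖∫ x in a..b, ψ x * ec (θ x)‖ ≤ M * (10 + 2 * (b - a)) / √lam := by
  obtain ⟨s0, hs0, hz⟩ := exists_zero hab hl h2 hs
  have hMnn : 0 ≤ M := (norm_nonneg _).trans (hM a (left_mem_Icc.2 hab))
  have hsq : 0 < √lam := Real.sqrt_pos.2 hl
  set r : ℝ := 1 / √lam with hr
  have hrpos : 0 < r := by positivity
  have hlr : lam * r = √lam := by
    rw [hr, mul_one_div, div_eq_iff hsq.ne', Real.mul_self_sqrt hl.le]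
  have hcθ : ContinuousOn θ (Icc a b) := fun x hx => (h1 x hx).continuousAt.continuousWithinAt
  have hcψ : ContinuousOn ψ (Icc a b) := fun x hx => (h3 x hx).continuousAt.continuousWithinAt
  have hcF : ContinuousOn (fun x => ψ x * ec (θ x)) (Icc a b) :=
    hcψ.mul (continuous_ec.comp_continuousOn hcθ)
  have hs' : (∀ x ∈ Icc a b, 0 ≤ θ2 x) ∨ (∀ x ∈ Icc a b, θ2 x ≤ 0) := by
    rcases hs with hs | hs
    · exact Or.inl fun x hx => hl.le.trans (hs x hx)
    · exact Or.inr fun x hx => (hs x hx).trans (by linarith)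
  set p : ℝ := max a (s0 - r) with hp
  set q : ℝ := min b (s0 + r) with hq
  have hap : a ≤ p := le_max_left _ _
  have hqb : q ≤ b := min_le_left _ _
  have hps : p ≤ s0 := max_le hs0.1 (by linarith)
  have hsq' : s0 ≤ q := le_min hs0.2 (by linarith)
  have hpq : p ≤ q := hps.trans hsq'
  have hpb : p ≤ b := hpq.trans hqb
  have haq : a ≤ q := hap.trans hpq
  have hI1 : IntervalIntegrable (fun x => ψ x * ec (θ x)) volume a p :=
    (hcF.mono (Icc_subset_Icc le_rfl hpb)).intervalIntegrable_of_Icc hap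
  have hI2 : IntervalIntegrable (fun x => ψ x * ec (θ x)) volume p q :=
    (hcF.mono (Icc_subset_Icc hap hqb)).intervalIntegrable_of_Icc hpq
  have hI3 : IntervalIntegrable (fun x => ψ x * ec (θ x)) volume q b :=
    (hcF.mono (Icc_subset_Icc haq le_rfl)).intervalIntegrable_of_Icc hqb
  have hsplit : ∫ x in a..b, ψ x * ec (θ x) = (∫ x in a..p, ψ x * ec (θ x)) +
      (∫ x in p..q, ψ x * ec (θ x)) + ∫ x in q..b, ψ x * ec (θ x) := by
    rw [intervalIntegral.integral_add_adjacent_intervals hI1 hI2,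
      intervalIntegral.integral_add_adjacent_intervals (hI1.trans hI2) hI3]
  have hbd1 : ‖∫ x in a..p, ψ x * ec (θ x)‖ ≤ M * (4 + (b - a)) / √lam := by
    rcases le_or_gt (s0 - r) a with h | h
    · have hpa : p = a := by rw [hp]; exact max_eq_left h
      rw [hpa, intervalIntegral.integral_same, norm_zero]
      have : 0 ≤ b - a := sub_nonneg.2 hab
      positivity
    · have hpe : p = s0 - r := by rw [hp]; exact max_eq_right h.le
      have hsub : Icc a p ⊆ Icc a b := Icc_subset_Icc le_rfl hpb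
      have := vdc1 (μ := √lam) (M := M) hap hsq (fun x hx => h1 x (hsub hx))
        (fun x hx => h2 x (hsub hx)) (h2c.mono hsub) (fun x hx => h3 x (hsub hx)) (h3c.mono hsub)
        (fun x hx => hM x (hsub hx)) (fun x hx => hM1 x (hsub hx)) (fun x hx => ?_)
        (hs'.imp (fun h x hx => h x (hsub hx)) (fun h x hx => h x (hsub hx)))
      · refine this.trans ?_
        gcongr
      · rw [← hlr]
        refine le_trans ?_ (hz x (hsub hx))
        refine mul_le_mul_of_nonneg_left ?_ hl.le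
        rw [abs_of_nonpos (by linarith [hx.2])]
        linarith [hx.2]
  have hbd3 : ‖∫ x in q..b, ψ x * ec (θ x)‖ ≤ M * (4 + (b - a)) / √lam := by
    rcases le_or_gt b (s0 + r) with h | h
    · have hqe : q = b := by rw [hq]; exact min_eq_left h
      rw [hqe, intervalIntegral.integral_same, norm_zero]
      have : 0 ≤ b - a := sub_nonneg.2 hab
      positivity
    · have hqe : q = s0 + r := by rw [hq]; exact min_eq_right h.le
      have hsub : Icc q b ⊆ Icc a b := Icc_subset_Icc haq le_rfl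
      have := vdc1 (μ := √lam) (M := M) hqb hsq (fun x hx => h1 x (hsub hx))
        (fun x hx => h2 x (hsub hx)) (h2c.mono hsub) (fun x hx => h3 x (hsub hx)) (h3c.mono hsub)
        (fun x hx => hM x (hsub hx)) (fun x hx => hM1 x (hsub hx)) (fun x hx => ?_)
        (hs'.imp (fun h x hx => h x (hsub hx)) (fun h x hx => h x (hsub hx)))
      · refine this.trans ?_
        gcongr
      · rw [← hlr]
        refine le_trans ?_ (hz x (hsub hx))
        refine mul_le_mul_of_nonneg_left ?_ hl.le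
        rw [abs_of_nonneg (by linarith [hx.1])]
        linarith [hx.1]
  have hbd2 : ‖∫ x in p..q, ψ x * ec (θ x)‖ ≤ M * 2 / √lam := by
    have := intervalIntegral.norm_integral_le_of_norm_le_const (a := p) (b := q) (C := M)
      (f := fun x => ψ x * ec (θ x)) (fun x hx => by
        rw [uIoc_of_le hpq] at hx
        rw [norm_mul, norm_ec, mul_one]
        exact hM x ⟨hap.trans hx.1.le, hx.2.trans hqb⟩)
    refine this.trans ?_
    rw [abs_of_nonneg (sub_nonneg.2 hpq), mul_div_assoc]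
    refine mul_le_mul_of_nonneg_left ?_ hMnn
    have h1 : q ≤ s0 + r := min_le_right _ _
    have h2 : s0 - r ≤ p := le_max_right _ _
    have h3 : 2 / √lam = 2 * r := by rw [hr]; ring
    rw [h3]
    linarith
  rw [hsplit]
  calc _ ≤ ‖∫ x in a..p, ψ x * ec (θ x)‖ + ‖∫ x in p..q, ψ x * ec (θ x)‖ +
        ‖∫ x in q..b, ψ x * ec (θ x)‖ := norm_add₃_le
    _ ≤ M * (4 + (b - a)) / √lam + M * 2 / √lam + M * (4 + (b - a)) / √lam :=
        add_le_add (add_le_add hbd1 hbd2) hbd3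
    _ = M * (10 + 2 * (b - a)) / √lam := by ring

end Crest.Agent.R138.Ex774
end

-- ▼ part N334/AC/I/Ker
section

/-!
# Row 334, S0520, part I (helper24): one-dimensional oscillatory sums
-/

set_option autoImplicit false
set_option linter.unusedSectionVars false

open Finset Complex MeasureTheory

namespace Crest.Agent.N334.AC.I

open Crest.Agent.R138.Ex774

lemma norm_exp_sub_le (a b : ℝ) : ‖exp ((a : ℂ) * I) - exp ((b : ℂ) * I)‖ ≤ |a - b| := by
  have h : exp ((a : ℂ) * I) - exp ((b : ℂ) * I) =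
      exp ((b : ℂ) * I) * (exp (I * ((a - b : ℝ) : ℂ)) - 1) := by
    rw [mul_sub, ← Complex.exp_add]; push_cast; ring_nf
  rw [h, norm_mul, Complex.norm_exp_ofReal_mul_I, one_mul]
  exact Real.norm_exp_I_mul_ofReal_sub_one_le

lemma osc_int {a b lam : ℝ} (hab : a ≤ b) (hl : 0 < lam) {φ φ1 φ2 : ℝ → ℝ}
    (h1 : ∀ x, HasDerivAt φ (φ1 x) x) (h2 : ∀ x, HasDerivAt φ1 (φ2 x) x) (h2c : Continuous φ2)
    (hs : ∀ x ∈ Set.Icc a b, φ2 x ≤ -lam) :
    ‖∫ x in a..b, exp ((φ x : ℂ) * I)‖ ≤ 3 * (10 + 2 * (b - a)) / √lam := by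
  have hpi := Real.pi_pos
  have key := vdc2 (a := a) (b := b) hab (θ := fun x => φ x / (2 * Real.pi))
    (θ1 := fun x => φ1 x / (2 * Real.pi)) (θ2 := fun x => φ2 x / (2 * Real.pi))
    (ψ := fun _ => 1) (ψ1 := fun _ => 0) (M := 1) (lam := lam / (2 * Real.pi)) (by positivity)
    (fun x _ => (h1 x).div_const _) (fun x _ => (h2 x).div_const _)
    (h2c.div_const _).continuousOn (fun x _ => hasDerivAt_const x _) continuousOn_const
    (fun x _ => by simp) (fun x _ => by simp)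
    (Or.inr fun x hx => by
      rw [← neg_div]; exact div_le_div_of_nonneg_right (hs x hx) (by positivity))
  have e : ∀ x, (1 : ℂ) * ec (φ x / (2 * Real.pi)) = exp ((φ x : ℂ) * I) := by
    intro x
    rw [one_mul, ec]
    congr 2
    have : (Real.pi : ℂ) ≠ 0 := by exact_mod_cast hpi.ne'
    push_cast; field_simp
  simp only [e] at key
  refine key.trans ?_
  have hs1 : 0 < √lam := Real.sqrt_pos.2 hl
  have hs2 : √lam / 3 ≤ √(lam / (2 * Real.pi)) := by
    apply Real.le_sqrt_of_sq_le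
    rw [div_pow, Real.sq_sqrt hl.le]
    apply div_le_div_of_nonneg_left hl.le (by positivity)
    linarith [Real.pi_le_four]
  have h0 : 0 ≤ 10 + 2 * (b - a) := by linarith
  calc 1 * (10 + 2 * (b - a)) / √(lam / (2 * Real.pi))
      ≤ 1 * (10 + 2 * (b - a)) / (√lam / 3) :=
        div_le_div_of_nonneg_left (by linarith) (by positivity) hs2
    _ = _ := by field_simp

/-- Riemann sums of an oscillatory integral with a non-degenerate phase -/
lemma osc_sum {a h lam L : ℝ} (n : ℕ) (hh : 0 < h) (hl : 0 < lam) {φ φ1 φ2 : ℝ → ℝ}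
    (h1 : ∀ x, HasDerivAt φ (φ1 x) x) (h2 : ∀ x, HasDerivAt φ1 (φ2 x) x) (h2c : Continuous φ2)
    (hs : ∀ x ∈ Set.Icc a (a + n * h), φ2 x ≤ -lam)
    (hL : ∀ x y, |φ x - φ y| ≤ L * |x - y|) :
    ‖∑ k ∈ range n, (h : ℂ) * exp ((φ (a + k * h) : ℂ) * I)‖ ≤
      3 * (10 + 2 * (n * h)) / √lam + L * h * (n * h) := by
  have hL0 : 0 ≤ L := by
    have := (abs_nonneg _).trans (hL 1 0)
    simpa using this
  have hc : Continuous fun x => exp ((φ x : ℂ) * I) := by
    have : Continuous φ := continuous_iff_continuousAt.2 fun x => (h1 x).continuousAt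
    fun_prop
  have hI := osc_int (a := a) (b := a + n * h) (by nlinarith [Nat.cast_nonneg (α := ℝ) n]) hl
    h1 h2 h2c hs
  rw [add_sub_cancel_left] at hI
  have hsum := intervalIntegral.sum_integral_adjacent_intervals (μ := volume)
    (f := fun x => exp ((φ x : ℂ) * I)) (a := fun k : ℕ => a + k * h) (n := n)
    (fun k _ => hc.intervalIntegrable _ _)
  simp only [Nat.cast_zero, zero_mul, add_zero] at hsum
  have herr : ∀ k : ℕ, ‖(h : ℂ) * exp ((φ (a + k * h) : ℂ) * I) -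
      ∫ x in (a + k * h)..(a + (k + 1 : ℕ) * h), exp ((φ x : ℂ) * I)‖ ≤ L * h * h := by
    intro k
    have e1 : (h : ℂ) * exp ((φ (a + k * h) : ℂ) * I) =
        ∫ x in (a + k * h)..(a + (k + 1 : ℕ) * h), exp ((φ (a + k * h) : ℂ) * I) := by
      rw [intervalIntegral.integral_const]
      push_cast
      rw [Complex.real_smul]; congr 1; push_cast; ring
    rw [e1, ← intervalIntegral.integral_sub (by simp) (hc.intervalIntegrable _ _)]
    have e2 : |a + (k + 1 : ℕ) * h - (a + k * h)| = h := by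
      push_cast; rw [show a + (k + 1) * h - (a + k * h) = h by ring, abs_of_pos hh]
    refine (intervalIntegral.norm_integral_le_of_norm_le_const (C := L * h) ?_).trans
      (by rw [e2])
    intro x hx
    rw [Set.uIoc_of_le (by push_cast; linarith)] at hx
    refine (norm_exp_sub_le _ _).trans ((hL _ _).trans ?_)
    refine mul_le_mul_of_nonneg_left ?_ hL0
    have := hx.1; have := hx.2
    push_cast at *
    rw [abs_le]; constructor <;> linarith
  have e3 : ∑ k ∈ range n, (h : ℂ) * exp ((φ (a + k * h) : ℂ) * I) =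
      (∫ x in a..(a + n * h), exp ((φ x : ℂ) * I)) +
      ∑ k ∈ range n, ((h : ℂ) * exp ((φ (a + k * h) : ℂ) * I) -
        ∫ x in (a + k * h)..(a + (k + 1 : ℕ) * h), exp ((φ x : ℂ) * I)) := by
    rw [sum_sub_distrib, hsum]; ring
  rw [e3]
  refine (norm_add_le _ _).trans (add_le_add hI ((norm_sum_le _ _).trans ?_))
  refine (sum_le_sum fun k _ => herr k).trans (le_of_eq ?_)
  simp; ring

variable {M : ℕ} [NeZero M]

/-- sums over an interval of residues -/
lemma sum_window {β : Type*} [AddCommMonoid β] (lo : ℤ) (n : ℕ) (h1 : -(M : ℤ) < lo * 2)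
    (h2 : (lo + n) * 2 ≤ M) (f : ℤ → β) :
    ∑ a : ZMod M, (if lo ≤ a.valMinAbs ∧ a.valMinAbs < lo + n then f a.valMinAbs else 0) =
      ∑ k ∈ range n, f (lo + k) := by
  rw [← sum_filter]
  symm
  have hv : ∀ k ∈ range n, (((lo + k : ℤ) : ZMod M)).valMinAbs = lo + k := by
    intro k hk
    rw [mem_range] at hk
    rw [ZMod.valMinAbs_spec]
    exact ⟨rfl, by constructor <;> omega⟩
  refine sum_bij (fun k _ => ((lo + k : ℤ) : ZMod M)) ?_ ?_ ?_ ?_
  · intro k hk
    rw [mem_filter, hv k hk]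
    rw [mem_range] at hk
    exact ⟨mem_univ _, by omega, by omega⟩
  · intro k hk l hl h
    have := congrArg ZMod.valMinAbs h
    rw [hv k hk, hv l hl] at this
    omega
  · intro a ha
    rw [mem_filter] at ha
    refine ⟨(a.valMinAbs - lo).toNat, mem_range.2 (by omega), ?_⟩
    rw [Int.toNat_of_nonneg (by omega)]
    simp
  · intro k hk
    rw [hv k hk]

/-- the inner region of one coordinate -/
def inn (a : ZMod M) : Prop := a.valMinAbs.natAbs ≤ M / 8

instance : DecidablePred (inn (M := M)) := fun a => by unfold inn; infer_instance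

lemma cos_le_of_not_inn {a : ZMod M} (h : ¬ inn a) : Real.cos (ang a) ≤ 3 / 4 := by
  have hM : (0 : ℝ) < M := Nat.cast_pos.2 (NeZero.pos M)
  have h1 : (M : ℤ) ≤ 8 * |a.valMinAbs| := by unfold inn at h; rw [Int.abs_eq_natAbs]; omega
  have h2 : (M : ℝ) ≤ 8 * |(a.valMinAbs : ℝ)| := by exact_mod_cast h1
  have h3 : Real.pi / 4 ≤ |ang a| := by
    unfold ang
    rw [abs_div, abs_mul, abs_of_pos (by positivity : 0 < 2 * Real.pi), abs_of_pos hM,
      le_div_iff₀ hM]
    nlinarith [Real.pi_pos]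
  rw [← Real.cos_abs]
  refine (Real.cos_le_cos_of_nonneg_of_le_pi (by positivity) (abs_ang_le a) h3).trans ?_
  rw [Real.cos_pi_div_four]
  have : √2 ≤ 3 / 2 := by
    apply Real.sqrt_le_iff.2; norm_num
  linarith

lemma half_le_cos {x : ℝ} (h : |x| ≤ 1) : 1 / 2 ≤ Real.cos x := by
  have := Real.one_sub_sq_div_two_le_cos (x := x)
  have h2 : x ^ 2 ≤ 1 := by rw [← sq_abs]; nlinarith [abs_nonneg x]
  linarith

/-- the two-time kernel of one coordinate -/
noncomputable def ker2 (t s : ℝ) (p y : ZMod M) : ℂ :=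
  (M : ℂ)⁻¹ * ∑ a : ZMod M, if inn a ∧ (s = 0 ∨ inn (a - p)) then
    exp (((2 * t * Real.cos (ang a) + 2 * s * Real.cos (ang (a - p)) : ℝ) : ℂ) * I) *
      ZMod.stdAddChar (a * y) else 0

lemma norm_ker2_le_one (t s : ℝ) (p y : ZMod M) : ‖ker2 t s p y‖ ≤ 1 := by
  have hM : (0 : ℝ) < M := Nat.cast_pos.2 (NeZero.pos M)
  unfold ker2
  rw [norm_mul, norm_inv, Complex.norm_natCast, inv_mul_le_iff₀ hM, mul_one]
  refine (norm_sum_le _ _).trans ((sum_le_sum (g := fun _ => (1 : ℝ)) fun a _ => ?_).trans ?_)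
  · split_ifs
    · rw [norm_mul, Complex.norm_exp_ofReal_mul_I, norm_std, one_mul]
    · simp
  · simp [ZMod.card]

lemma norm_ker2_le (hM : 32 ≤ M) {t s : ℝ} (ht : 0 ≤ t) (hs : 0 ≤ s) (hts : 0 < t + s)
    (p y : ZMod M) :
    ‖ker2 t s p y‖ ≤ 8 / √(t + s) + 4 * (t + s + y.valMinAbs.natAbs) / M := by
  have hM0 : (0 : ℝ) < M := Nat.cast_pos.2 (NeZero.pos M)
  have hM' : (32 : ℝ) ≤ M := by exact_mod_cast hM
  have hpi := Real.pi_pos
  have hpi4 := Real.pi_lt_d2
  -- the window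
  obtain ⟨m0, hm0⟩ : ∃ m0 : ℤ, m0 = ((M / 8 : ℕ) : ℤ) := ⟨_, rfl⟩
  obtain ⟨P, hP⟩ : ∃ P : ℤ, P = if s = 0 then 0 else p.valMinAbs := ⟨_, rfl⟩
  obtain ⟨lo, hlo⟩ : ∃ lo : ℤ, lo = max (-m0) (P - m0) := ⟨_, rfl⟩
  obtain ⟨n, hn⟩ : ∃ n : ℕ, n = (min m0 (P + m0) + 1 - lo).toNat := ⟨_, rfl⟩
  have hwin : ∀ a : ZMod M, (inn a ∧ (s = 0 ∨ inn (a - p))) ↔
      (lo ≤ a.valMinAbs ∧ a.valMinAbs < lo + n) := by
    intro a
    by_cases h0 : s = 0
    · simp only [h0, true_or, and_true, inn]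
      simp only [hP, h0, if_true] at hlo hn
      omega
    · simp only [h0, false_or, inn]
      simp only [hP, h0, if_false] at hlo hn
      constructor
      · rintro ⟨h1, h2⟩
        have e : p.valMinAbs = a.valMinAbs - (a - p).valMinAbs := by
          rw [ZMod.valMinAbs_spec]
          exact ⟨by simp, by constructor <;> omega⟩
        omega
      · rintro ⟨h1, h2⟩
        have e : (a - p).valMinAbs = a.valMinAbs - p.valMinAbs := by
          rw [ZMod.valMinAbs_spec]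
          exact ⟨by simp, by constructor <;> omega⟩
        omega
  set h : ℝ := 2 * Real.pi / M with hh
  have hh0 : 0 < h := by positivity
  set q : ℝ := P * h with hq
  set N : ℤ := y.valMinAbs with hN
  let φ : ℝ → ℝ := fun x => 2 * t * Real.cos x + 2 * s * Real.cos (x - q) + N * x
  have hang : ∀ a : ZMod M, ang a = a.valMinAbs * h := by
    intro a; simp only [ang, hh]; ring
  have hterm : ∀ a : ZMod M,
      exp (((2 * t * Real.cos (ang a) + 2 * s * Real.cos (ang (a - p)) : ℝ) : ℂ) * I) *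
      ZMod.stdAddChar (a * y) = exp ((φ (a.valMinAbs * h) : ℂ) * I) := by
    intro a
    have e1 : y = (N : ZMod M) := by simp [hN]
    have e2 : s * Real.cos (ang (a - p)) = s * Real.cos (a.valMinAbs * h - q) := by
      by_cases h0 : s = 0
      · simp [h0]
      · rw [cos_ang_sub, hang, hang]; simp [hq, hP, h0]
    conv_lhs => rw [e1, std_mul_int, ← Complex.exp_add, mul_assoc 2 s, e2, hang]
    congr 1
    simp only [φ]; push_cast; ring
  rcases Nat.eq_zero_or_pos n with hn0 | hn0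
  · have : ker2 t s p y = 0 := by
      unfold ker2
      rw [sum_eq_zero, mul_zero]
      intro a _
      rw [if_neg]; rw [hwin]; omega
    rw [this, norm_zero]; positivity
  have hker : ker2 t s p y = ((2 * Real.pi : ℝ) : ℂ)⁻¹ *
      ∑ k ∈ range n, (h : ℂ) * exp ((φ (lo * h + k * h) : ℂ) * I) := by
    unfold ker2
    simp only [hwin, hterm]
    rw [sum_window lo n (by omega) (by omega) (fun m => exp ((φ (m * h) : ℂ) * I)), ← mul_sum,
      ← mul_assoc]
    congr 1
    · have : (Real.pi : ℂ) ≠ 0 := by exact_mod_cast hpi.ne'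
      simp only [hh]; push_cast; field_simp
    · refine sum_congr rfl fun k _ => ?_
      push_cast; rw [add_mul]
  have hm0h : (m0 + 1) * h ≤ 1 := by
    have e : ((m0 : ℝ)) * 8 ≤ M := by exact_mod_cast (by omega : m0 * 8 ≤ M)
    rw [hh, ← mul_div_assoc, div_le_one hM0]
    nlinarith
  have hlo1 : -(m0 : ℝ) ≤ lo := by exact_mod_cast (by omega : -m0 ≤ lo)
  have hlo2 : (P : ℝ) - m0 ≤ lo := by exact_mod_cast (by omega : P - m0 ≤ lo)
  have hhi1 : (lo : ℝ) + n ≤ m0 + 1 := by exact_mod_cast (by omega : lo + n ≤ m0 + 1)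
  have hhi2 : (lo : ℝ) + n ≤ P + m0 + 1 := by exact_mod_cast (by omega : lo + n ≤ P + m0 + 1)
  have hnh : n * h ≤ 2 := by nlinarith
  have hb := osc_sum (a := lo * h) (h := h) (lam := t + s) (L := 2 * t + 2 * s + |(N : ℝ)|) n hh0 hts
    (φ := φ) (φ1 := fun x => 2 * t * -Real.sin x + 2 * s * -Real.sin (x - q) + N)
    (φ2 := fun x => 2 * t * -Real.cos x + 2 * s * -Real.cos (x - q))
    (fun x => by
      have a1 := (Real.hasDerivAt_cos x).const_mul (2 * t)
      have a2 := (((hasDerivAt_id x).sub_const q).cos).const_mul (2 * s)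
      have a3 := (hasDerivAt_id x).const_mul (N : ℝ)
      exact ((a1.add a2).add a3).congr_deriv (by simp))
    (fun x => by
      have a1 := (Real.hasDerivAt_sin x).neg.const_mul (2 * t)
      have a2 := (((hasDerivAt_id x).sub_const q).sin).neg.const_mul (2 * s)
      simpa using (a1.add a2).add_const (N : ℝ))
    (by fun_prop)
    (fun x hx => by
      have c1 : 1 / 2 ≤ Real.cos x := half_le_cos (by
        rw [abs_le]; constructor <;> nlinarith [hx.1, hx.2])
      have c2 : 1 / 2 ≤ Real.cos (x - q) := half_le_cos (by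
        rw [abs_le, hq]; constructor <;> nlinarith [hx.1, hx.2])
      nlinarith)
    (fun x y => by
      have c1 := Real.abs_cos_sub_cos_le x y
      have c2 := Real.abs_cos_sub_cos_le (x - q) (y - q)
      rw [sub_sub_sub_cancel_right] at c2
      have e : φ x - φ y = 2 * t * (Real.cos x - Real.cos y) +
          2 * s * (Real.cos (x - q) - Real.cos (y - q)) + N * (x - y) := by simp only [φ]; ring
      rw [e]
      refine (abs_add_three _ _ _).trans ?_
      simp only [abs_mul, abs_of_nonneg ht, abs_of_nonneg hs, abs_two]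
      nlinarith)
  rw [hker, norm_mul, norm_inv, Complex.norm_real, Real.norm_of_nonneg (by positivity),
    inv_mul_le_iff₀ (by positivity)]
  refine hb.trans ?_
  have hsq : 0 < √(t + s) := Real.sqrt_pos.2 hts
  have e4 : (y.valMinAbs.natAbs : ℝ) = |(N : ℝ)| := by
    rw [hN, ← Int.cast_abs, Int.abs_eq_natAbs, Int.cast_natCast]
  rw [e4, mul_add (2 * Real.pi)]
  have hN0 := abs_nonneg (N : ℝ)
  apply add_le_add
  · rw [← mul_div_assoc (2 * Real.pi) 8]
    apply div_le_div_of_nonneg_right _ hsq.le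
    nlinarith [Real.pi_gt_three]
  · calc (2 * t + 2 * s + |(N : ℝ)|) * h * (n * h) ≤ (2 * t + 2 * s + |(N : ℝ)|) * h * 2 := by
          gcongr
      _ ≤ (4 * (t + s + |(N : ℝ)|)) * h := by nlinarith
      _ = _ := by rw [hh]; ring

end Crest.Agent.N334.AC.I
end

-- ▼ part N334/AC/I/Disp
section

/-!
# Row 334, S0520, part I (helper24): dispersive bounds for the free resolvent near the band bottom
-/

set_option autoImplicit false
set_option linter.unusedSectionVars false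

open Finset Complex MeasureTheory
open scoped ComplexConjugate

namespace Crest.Agent.N334.AC.I

variable {d M : ℕ} [NeZero M]

/-- the inner region of the dual torus -/
def In (k : Tor d M) : Prop := ∀ j, inn (k j)

instance : DecidablePred (In (d := d) (M := M)) := fun k => by unfold In; infer_instance


lemma le_eps_of_cos (k : Tor d M) (j : Fin d) :
    -2 * d + 2 * (1 - Real.cos (ang (k j))) ≤ eps k := by
  unfold eps
  have h : 2 * (1 - Real.cos (ang (k j))) ≤ ∑ i, 2 * (1 - Real.cos (ang (k i))) :=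
    single_le_sum (f := fun i => 2 * (1 - Real.cos (ang (k i))))
      (fun i _ => by linarith [Real.cos_le_one (ang (k i))]) (mem_univ j)
  simp only [mul_sub, sum_sub_distrib, sum_const, card_univ, Fintype.card_fin, nsmul_eq_mul] at h ⊢
  linarith

lemma norm_Gh_le_of {z : ℂ} {k : Tor d M} {c : ℝ} (hc : 0 < c) (h : c ≤ |eps k - z.re|) :
    ‖Gh z k‖ ≤ c⁻¹ := by
  rw [Gh, norm_inv]
  refine inv_anti₀ hc (h.trans ?_)
  simpa using Complex.abs_re_le_norm ((eps k : ℂ) - z)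

lemma norm_Gh_out {z : ℂ} (hz : z.re ≤ -2 * d + 1 / 4) {k : Tor d M} (hk : ¬ In k) :
    ‖Gh z k‖ ≤ 4 := by
  obtain ⟨j, hj⟩ := not_forall.1 hk
  have h1 := le_eps_of_cos k j
  have h2 := cos_le_of_not_inn hj
  have := norm_Gh_le_of (z := z) (k := k) (c := 1 / 4) (by norm_num)
    (le_trans (by linarith) (le_abs_self _))
  simpa using this

/-- the cut-off propagator -/
noncomputable def Kt (t : ℝ) (x : Tor d M) : ℂ :=
  iF (fun k => if In k then exp (((-(t * eps k) : ℝ) : ℂ) * I) else 0) x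

lemma Kt_eq (t : ℝ) (x : Tor d M) : Kt t x = ∏ j, ker2 t 0 0 (x j) := by
  unfold Kt iF ker2
  rw [prod_mul_distrib, prod_const, card_univ, Fintype.card_fin, Finset.prod_univ_sum,
    Fintype.piFinset_univ]
  congr 1
  · simp [vol]
  refine sum_congr rfl fun k _ => ?_
  rw [prod_ite_zero]
  simp only [mem_univ, forall_true_left, true_or, and_true, In, ite_mul, zero_mul]
  split_ifs
  · rw [prod_mul_distrib, ← ch_eq_prod, ← Complex.exp_sum, ← sum_mul]
    congr 3
    simp only [eps, mul_zero, zero_mul, add_zero, mul_neg, neg_neg, mul_sum]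
    push_cast
    exact sum_congr rfl fun j _ => by ring
  · rfl

lemma cube_le {κ a b : ℝ} (h0 : 0 ≤ κ) (h1 : κ ≤ 1) (ha : 0 ≤ a) (hb : 0 ≤ b) (h : κ ≤ a + b) :
    κ ^ 3 ≤ 8 * a ^ 3 + 2 * b := by
  rcases le_total b a with hab | hab
  · have : κ ^ 3 ≤ (2 * a) ^ 3 := pow_le_pow_left₀ h0 (by linarith) 3
    nlinarith
  · have : κ ^ 3 ≤ κ := pow_le_of_le_one h0 h1 (by norm_num)
    nlinarith [pow_nonneg ha 3]

lemma prod_le_cube (hd : 3 ≤ d) (f : Fin d → ℝ) {a b : ℝ} (h0 : ∀ j, 0 ≤ f j) (h1 : ∀ j, f j ≤ 1)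
    (ha : 0 ≤ a) (hb : 0 ≤ b) (h : ∀ j, f j ≤ a + b) : ∏ j, f j ≤ 8 * a ^ 3 + 2 * b := by
  have hκ0 : 0 ≤ min 1 (a + b) := le_min zero_le_one (by linarith)
  calc ∏ j, f j ≤ ∏ _j : Fin d, min 1 (a + b) :=
        prod_le_prod (fun j _ => h0 j) fun j _ => le_min (h1 j) (h j)
    _ = min 1 (a + b) ^ d := by simp
    _ ≤ min 1 (a + b) ^ 3 := pow_le_pow_of_le_one hκ0 (min_le_left _ _) hd
    _ ≤ _ := cube_le hκ0 (min_le_left _ _) ha hb (min_le_right _ _)

lemma norm_ker2_le' (hM : 32 ≤ M) {t s : ℝ} (ht : 0 ≤ t) (hs : 0 ≤ s) (p y : ZMod M) :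
    ‖ker2 t s p y‖ ≤ 9 / √(1 + (t + s)) + 4 * (t + s + y.valMinAbs.natAbs) / M := by
  have hr : 0 < √(1 + (t + s)) := Real.sqrt_pos.2 (by linarith)
  have hb : 0 ≤ 4 * (t + s + y.valMinAbs.natAbs) / M := by positivity
  rcases le_total (t + s) 64 with h | h
  · have : 1 ≤ 9 / √(1 + (t + s)) := by
      rw [le_div_iff₀ hr, one_mul, Real.sqrt_le_iff]; constructor <;> linarith
    linarith [norm_ker2_le_one t s p y]
  · refine (norm_ker2_le hM ht hs (by linarith) p y).trans (add_le_add_left ?_ _)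
    have hr' : 0 < √(t + s) := Real.sqrt_pos.2 (by linarith)
    rw [div_le_div_iff₀ hr' hr]
    have e1 := Real.sq_sqrt (show 0 ≤ 1 + (t + s) by linarith)
    have e2 := Real.sq_sqrt (show 0 ≤ t + s by linarith)
    nlinarith [sq_nonneg (8 * √(1 + (t + s)) - 9 * √(t + s))]

lemma norm_Kt_le (hd : 3 ≤ d) (hM : 32 ≤ M) {t : ℝ} (ht : 0 ≤ t) (x : Tor d M) :
    ‖Kt t x‖ ≤ 5832 * (√(1 + t) ^ 3)⁻¹ + 8 * (t + nrm x) / M := by
  rw [Kt_eq, norm_prod]
  have hM0 : (0 : ℝ) < M := Nat.cast_pos.2 (NeZero.pos M)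
  refine (prod_le_cube hd _ (a := 9 / √(1 + t)) (b := 4 * (t + nrm x) / M) (fun j => norm_nonneg _)
    (fun j => norm_ker2_le_one _ _ _ _) (by positivity) (by positivity) fun j => ?_).trans
    (le_of_eq (by ring))
  refine (norm_ker2_le' hM ht le_rfl 0 (x j)).trans ?_
  simp only [add_zero]
  have : ((x j).valMinAbs.natAbs : ℝ) ≤ nrm x := by exact_mod_cast le_nrm x j
  gcongr

lemma Gh_eq_int {z : ℂ} (hz : 0 < z.im) (k : Tor d M) :
    IntegrableOn (fun t : ℝ => exp (I * z * t) * exp (((-(t * eps k) : ℝ) : ℂ) * I)) (Set.Ioi 0) ∧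
    Gh z k = I * ∫ t in Set.Ioi (0 : ℝ), exp (I * z * t) * exp (((-(t * eps k) : ℝ) : ℂ) * I) := by
  have e : ∀ t : ℝ, exp (I * z * t) * exp (((-(t * eps k) : ℝ) : ℂ) * I) =
      exp ((I * (z - eps k)) * t) := by
    intro t; rw [← Complex.exp_add]; congr 1; push_cast; ring
  have ha : (I * (z - eps k)).re < 0 := by simp; linarith
  simp only [e]
  refine ⟨integrableOn_exp_mul_complex_Ioi ha 0, ?_⟩
  rw [integral_exp_mul_complex_Ioi ha]
  have h1 := eps_sub_ne hz k
  have h2 : z - eps k ≠ 0 := fun h => h1 (by linear_combination -h)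
  simp only [Gh, ofReal_zero, mul_zero, Complex.exp_zero]
  field_simp
  ring

/-- the inner part of the resolvent -/
noncomputable def Gin (z : ℂ) (x : Tor d M) : ℂ := iF (fun k => if In k then Gh z k else 0) x

lemma Gin_eq {z : ℂ} (hz : 0 < z.im) (x : Tor d M) :
    IntegrableOn (fun t : ℝ => exp (I * z * t) * Kt t x) (Set.Ioi 0) ∧
    Gin z x = I * ∫ t in Set.Ioi (0 : ℝ), exp (I * z * t) * Kt t x := by
  let F : Tor d M → ℝ → ℂ := fun k t => (if In k then ((vol d M : ℝ) : ℂ)⁻¹ * ch k x else 0) *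
    (exp (I * z * t) * exp (((-(t * eps k) : ℝ) : ℂ) * I))
  have e : ∀ t : ℝ, exp (I * z * t) * Kt t x = ∑ k, F k t := by
    intro t
    simp only [Kt, iF, mul_sum, F]
    refine sum_congr rfl fun k _ => ?_
    split_ifs <;> ring
  have hF : ∀ k, IntegrableOn (F k) (Set.Ioi 0) := fun k => (Gh_eq_int hz k).1.const_mul _
  simp only [e]
  refine ⟨integrable_finsetSum _ fun k _ => hF k, ?_⟩
  rw [integral_finsetSum _ fun k _ => hF k]
  simp only [Gin, iF, mul_sum, F, integral_const_mul]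
  refine sum_congr rfl fun k _ => ?_
  rw [(Gh_eq_int hz k).2]
  split_ifs <;> ring

/-- the finite-size error -/
noncomputable def err (γ X : ℝ) : ℝ := 32 * (2 / γ + X) / γ

lemma int_bound (hd : 3 ≤ d) (hM : 32 ≤ M) {γ : ℝ} (hγ : 0 < γ) (x : Tor d M) (w : ℝ → ℂ)
    (g : ℝ → ℝ) (hg : IntegrableOn g (Set.Ioi 0))
    (h1 : ∀ t, 0 < t → ‖w t‖ * (√(1 + t) ^ 3)⁻¹ ≤ g t)
    (h2 : ∀ t, 0 < t → ‖w t‖ ≤ 2 * Real.exp (-γ * t)) :
    ‖∫ t in Set.Ioi (0 : ℝ), w t * Kt t x‖ ≤
      5832 * (∫ t in Set.Ioi (0 : ℝ), g t) + err γ (nrm x) / M := by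
  have hM0 : (0 : ℝ) < M := Nat.cast_pos.2 (NeZero.pos M)
  have hγ2 : -(γ / 2) < 0 := by linarith
  have hi := integrableOn_exp_mul_Ioi hγ2 0
  have hb : ‖∫ t in Set.Ioi (0 : ℝ), w t * Kt t x‖ ≤ ∫ t in Set.Ioi (0 : ℝ),
      (5832 * g t + 16 * (2 / γ + nrm x) / M * Real.exp (-(γ / 2) * t)) := by
    refine norm_integral_le_of_norm_le ((hg.const_mul _).add (hi.const_mul _)) ?_
    refine (ae_restrict_iff' measurableSet_Ioi).2 (Filter.Eventually.of_forall fun t ht => ?_)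
    have ht : 0 < t := ht
    rw [norm_mul]
    refine (mul_le_mul_of_nonneg_left (norm_Kt_le hd hM ht.le x) (norm_nonneg _)).trans ?_
    rw [mul_add]
    refine add_le_add (by nlinarith [h1 t ht]) ?_
    have e1 : Real.exp (-γ * t) = Real.exp (-(γ / 2) * t) * Real.exp (-(γ / 2) * t) := by
      rw [← Real.exp_add]; ring_nf
    have e2 : t * Real.exp (-(γ / 2) * t) ≤ 2 / γ := by
      have := Real.add_one_le_exp (γ / 2 * t)
      rw [neg_mul, Real.exp_neg, ← div_eq_mul_inv, div_le_div_iff₀ (Real.exp_pos _) hγ]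
      nlinarith
    have e3 : Real.exp (-(γ / 2) * t) ≤ 1 := Real.exp_le_one_iff.2 (by nlinarith)
    have e4 : (t + nrm x) * Real.exp (-(γ / 2) * t) ≤ 2 / γ + nrm x := by
      rw [add_mul]; exact add_le_add e2 (mul_le_of_le_one_right (by positivity) e3)
    calc ‖w t‖ * (8 * (t + nrm x) / M) ≤ 2 * Real.exp (-γ * t) * (8 * (t + nrm x) / M) := by
          gcongr; exact h2 t ht
      _ = 16 * ((t + nrm x) * Real.exp (-(γ / 2) * t)) / M * Real.exp (-(γ / 2) * t) := by
          rw [e1]; ring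
      _ ≤ _ := by gcongr
  refine hb.trans (le_of_eq ?_)
  rw [integral_add (hg.const_mul _) (hi.const_mul _), integral_const_mul, integral_const_mul,
    integral_exp_mul_Ioi hγ2]
  simp only [err, mul_zero, Real.exp_zero]
  field_simp
  ring

lemma hasDerivAt_r {t : ℝ} (ht : 0 ≤ t) :
    HasDerivAt (fun t => √(1 + t)) (1 / (2 * √(1 + t))) t := by
  simpa using ((hasDerivAt_id t).const_add 1).sqrt (by simp only [id]; linarith)

lemma tendsto_r : Filter.Tendsto (fun t : ℝ => √(1 + t)) Filter.atTop Filter.atTop :=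
  Real.tendsto_sqrt_atTop.comp (Filter.tendsto_atTop_add_const_left _ _ Filter.tendsto_id)

lemma int_cube : IntegrableOn (fun t : ℝ => (√(1 + t) ^ 3)⁻¹) (Set.Ioi 0) ∧
    ∫ t in Set.Ioi (0 : ℝ), (√(1 + t) ^ 3)⁻¹ = 2 := by
  have hd : ∀ t ∈ Set.Ici (0 : ℝ), HasDerivAt (fun t => -2 * (√(1 + t))⁻¹) (√(1 + t) ^ 3)⁻¹ t := by
    intro t ht
    have hr : 0 < √(1 + t) := Real.sqrt_pos.2 (by linarith [show 0 ≤ t from ht])
    refine (((hasDerivAt_r ht).inv hr.ne').const_mul (-2)).congr_deriv ?_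
    field_simp
  have hl : Filter.Tendsto (fun t : ℝ => -2 * (√(1 + t))⁻¹) Filter.atTop (nhds 0) := by
    simpa using (tendsto_inv_atTop_zero.comp tendsto_r).const_mul (-2)
  refine ⟨integrableOn_Ioi_deriv_of_nonneg' hd (fun t _ => by positivity) hl, ?_⟩
  rw [integral_Ioi_of_hasDerivAt_of_nonneg' hd (fun t _ => by positivity) hl]
  simp

lemma int_hold {a : ℝ} (ha : 0 < a) :
    IntegrableOn (fun t : ℝ => a ^ 2 * (√(1 + t) * (1 + a * √(1 + t)) ^ 2)⁻¹) (Set.Ioi 0) ∧
    ∫ t in Set.Ioi (0 : ℝ), a ^ 2 * (√(1 + t) * (1 + a * √(1 + t)) ^ 2)⁻¹ ≤ 2 * a := by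
  have hd : ∀ t ∈ Set.Ici (0 : ℝ), HasDerivAt (fun t => -2 * a * (1 + a * √(1 + t))⁻¹)
      (a ^ 2 * (√(1 + t) * (1 + a * √(1 + t)) ^ 2)⁻¹) t := by
    intro t ht
    have hr : 0 < √(1 + t) := Real.sqrt_pos.2 (by linarith [show 0 ≤ t from ht])
    refine (((((hasDerivAt_r ht).const_mul a).const_add 1).inv (by positivity)).const_mul
      (-2 * a)).congr_deriv ?_
    field_simp
  have hl : Filter.Tendsto (fun t : ℝ => -2 * a * (1 + a * √(1 + t))⁻¹) Filter.atTop (nhds 0) := by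
    simpa using (tendsto_inv_atTop_zero.comp (Filter.tendsto_atTop_add_const_left _ 1
      (tendsto_r.const_mul_atTop ha))).const_mul (-2 * a)
  refine ⟨integrableOn_Ioi_deriv_of_nonneg' hd (fun t _ => by positivity) hl, ?_⟩
  rw [integral_Ioi_of_hasDerivAt_of_nonneg' hd (fun t _ => by positivity) hl]
  simp only [add_zero, Real.sqrt_one, mul_one, zero_sub]
  have : (1 + a)⁻¹ ≤ 1 := inv_le_one_of_one_le₀ (by linarith)
  nlinarith

lemma norm_exp_Iz {z : ℂ} {γ t : ℝ} (hz : γ ≤ z.im) (ht : 0 ≤ t) :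
    ‖exp (I * z * t)‖ ≤ Real.exp (-γ * t) := by
  rw [Complex.norm_exp]
  apply Real.exp_le_exp.2
  simp; nlinarith

lemma norm_cexp_sub_le {a b : ℂ} (ha : a.re ≤ 0) (hb : b.re ≤ 0) : ‖exp a - exp b‖ ≤ ‖a - b‖ := by
  have := Convex.norm_image_sub_le_of_norm_deriv_le (𝕜 := ℂ) (f := exp) (C := 1)
    (s := {c : ℂ | c.re ≤ 0}) (fun c _ => Complex.differentiableAt_exp)
    (fun c hc => by
      rw [Complex.deriv_exp, Complex.norm_exp]; exact Real.exp_le_one_iff.2 hc)
    (convex_halfSpace_re_le 0) hb ha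
  simpa using this

lemma norm_Gin_le (hd : 3 ≤ d) (hM : 32 ≤ M) {γ : ℝ} (hγ : 0 < γ) {z : ℂ} (hz : γ ≤ z.im)
    (x : Tor d M) : ‖Gin z x‖ ≤ 11664 + err γ (nrm x) / M := by
  rw [(Gin_eq (hγ.trans_le hz) x).2, norm_mul, Complex.norm_I, one_mul]
  have h1 : ∀ t : ℝ, 0 < t → ‖exp (I * z * t)‖ ≤ Real.exp (-γ * t) :=
    fun t ht => norm_exp_Iz hz ht.le
  refine (int_bound hd hM hγ x _ _ int_cube.1 (fun t ht => ?_) fun t ht => ?_).trans
    (le_of_eq (by rw [int_cube.2]; norm_num))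
  · exact mul_le_of_le_one_left (by positivity)
      ((h1 t ht).trans (Real.exp_le_one_iff.2 (by nlinarith)))
  · linarith [h1 t ht, Real.exp_pos (-γ * t)]

lemma norm_Gin_sub_le (hd : 3 ≤ d) (hM : 32 ≤ M) {γ : ℝ} (hγ : 0 < γ) {z z' : ℂ} (hz : γ ≤ z.im)
    (hz' : γ ≤ z'.im) (x : Tor d M) :
    ‖Gin z x - Gin z' x‖ ≤ 69984 * √‖z - z'‖ + err γ (nrm x) / M := by
  have hM0 : (0 : ℝ) < M := Nat.cast_pos.2 (NeZero.pos M)
  rcases eq_or_ne z z' with rfl | hne
  · simp only [sub_self, norm_zero, Real.sqrt_zero, mul_zero, zero_add, err]; positivity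
  have hδ : 0 < ‖z - z'‖ := norm_pos_iff.2 (sub_ne_zero.2 hne)
  set a := √‖z - z'‖ with ha
  have ha0 : 0 < a := Real.sqrt_pos.2 hδ
  have ha2 : a ^ 2 = ‖z - z'‖ := Real.sq_sqrt hδ.le
  obtain ⟨i1, e1⟩ := Gin_eq (hγ.trans_le hz) x
  obtain ⟨i2, e2⟩ := Gin_eq (hγ.trans_le hz') x
  rw [e1, e2, ← mul_sub, norm_mul, Complex.norm_I, one_mul, ← integral_sub i1 i2]
  simp only [← sub_mul]
  have h2 : ∀ t : ℝ, 0 < t → ‖exp (I * z * t) - exp (I * z' * t)‖ ≤ 2 * Real.exp (-γ * t) := by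
    intro t ht
    linarith [norm_sub_le (exp (I * z * t)) (exp (I * z' * t)), norm_exp_Iz hz ht.le,
      norm_exp_Iz hz' ht.le]
  refine (int_bound hd hM hγ x _ _ ((int_hold ha0).1.const_mul 6) (fun t ht => ?_) h2).trans ?_
  · have hr : 0 < √(1 + t) := Real.sqrt_pos.2 (by linarith)
    have hr2 : √(1 + t) ^ 2 = 1 + t := Real.sq_sqrt (by linarith)
    set r := √(1 + t)
    set w := ‖exp (I * z * t) - exp (I * z' * t)‖
    have w1 : w ≤ 2 := (h2 t ht).trans (by
      have : Real.exp (-γ * t) ≤ 1 := Real.exp_le_one_iff.2 (by nlinarith)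
      linarith)
    have w2 : w ≤ (a * r) ^ 2 := by
      refine (norm_cexp_sub_le (by simp; nlinarith) (by simp; nlinarith)).trans ?_
      rw [← sub_mul, ← mul_sub, norm_mul, norm_mul, Complex.norm_I, one_mul, Complex.norm_real,
        Real.norm_of_nonneg ht.le, mul_pow, ha2, hr2]
      nlinarith
    have w3 : w * (1 + a * r) ^ 2 ≤ 6 * (a * r) ^ 2 := by
      have hu : 0 < a * r := by positivity
      generalize a * r = u at *
      have hw0 : 0 ≤ w := norm_nonneg _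
      have : (1 + u) ^ 2 ≤ 2 * (1 + u ^ 2) := by nlinarith [sq_nonneg (1 - u)]
      nlinarith [mul_le_mul_of_nonneg_left this hw0]
    rw [← div_eq_mul_inv, ← div_eq_mul_inv, ← mul_div_assoc,
      div_le_div_iff₀ (by positivity) (by positivity)]
    nlinarith [mul_le_mul_of_nonneg_left w3 hr.le]
  · rw [integral_const_mul]
    linarith [(int_hold ha0).2]

lemma G0_sub_Gin (z : ℂ) (x : Tor d M) :
    G0 z x - Gin z x = iF (fun k => if In k then 0 else Gh z k) x := by
  rw [G0, Gin, ← iF_sub]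
  congr 1; funext k; split_ifs <;> simp

lemma norm_G0_near (hd : 3 ≤ d) (hM : 32 ≤ M) {γ : ℝ} (hγ : 0 < γ) {z : ℂ} (hz : γ ≤ z.im)
    (hr : z.re ≤ -2 * d + 1 / 4) (x : Tor d M) : ‖G0 z x‖ ≤ 11668 + err γ (nrm x) / M := by
  have h1 : ‖G0 z x - Gin z x‖ ≤ 4 := by
    rw [G0_sub_Gin]
    refine norm_iF_le_of (fun k => ?_) x
    split_ifs with h
    · simp
    · exact norm_Gh_out hr h
  linarith [norm_Gin_le hd hM hγ hz x, norm_le_norm_add_norm_sub' (G0 z x) (Gin z x)]

lemma Gh_sub {z z' : ℂ} (hz : 0 < z.im) (hz' : 0 < z'.im) (k : Tor d M) :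
    Gh z k - Gh z' k = (z - z') * Gh z k * Gh z' k := by
  have h1 := eps_sub_ne hz k
  have h2 := eps_sub_ne hz' k
  simp only [Gh]; field_simp; ring

lemma norm_G0_sub_near (hd : 3 ≤ d) (hM : 32 ≤ M) {γ : ℝ} (hγ : 0 < γ) {z z' : ℂ}
    (hz : γ ≤ z.im) (hz' : γ ≤ z'.im) (hr : z.re ≤ -2 * d + 1 / 4) (hr' : z'.re ≤ -2 * d + 1 / 4)
    (x : Tor d M) : ‖G0 z x - G0 z' x‖ ≤ 70000 * √‖z - z'‖ + err γ (nrm x) / M := by
  have h1 : ‖(G0 z x - Gin z x) - (G0 z' x - Gin z' x)‖ ≤ 16 * √‖z - z'‖ := by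
    rw [G0_sub_Gin, G0_sub_Gin, ← iF_sub]
    refine norm_iF_le_of (fun k => ?_) x
    split_ifs with h
    · simp
    have a1 := norm_Gh_out hr h
    have a2 := norm_Gh_out hr' h
    have hs := Real.sq_sqrt (norm_nonneg (z - z'))
    have hs0 := Real.sqrt_nonneg ‖z - z'‖
    rcases le_total √‖z - z'‖ 1 with h1 | h1
    · rw [Gh_sub (hγ.trans_le hz) (hγ.trans_le hz'), norm_mul, norm_mul]
      calc _ ≤ ‖z - z'‖ * 4 * 4 := by gcongr
        _ ≤ _ := by nlinarith
    · linarith [norm_sub_le (Gh z k) (Gh z' k)]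
  have h2 := norm_Gin_sub_le hd hM hγ hz hz' x
  have h3 : G0 z x - G0 z' x =
      ((G0 z x - Gin z x) - (G0 z' x - Gin z' x)) + (Gin z x - Gin z' x) := by ring
  rw [h3]
  linarith [norm_add_le ((G0 z x - Gin z x) - (G0 z' x - Gin z' x)) (Gin z x - Gin z' x)]

end Crest.Agent.N334.AC.I
end

-- ▼ part N334/AC/I/Shell

/-!
# Row 334, S0520, part I (helper24): the energy shell and the symbol of `|G0|²`
-/

set_option autoImplicit false
set_option linter.unusedSectionVars false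

open Finset Complex
open scoped ComplexConjugate

namespace Crest.Agent.N334.AC.I

variable {d M : ℕ} [NeZero M]

lemma sum_update (f : Tor d M → ℝ) (j : Fin d) :
    ∑ k : Tor d M, ∑ a : ZMod M, f (Function.update k j a) = M * ∑ k, f k := by
  have h : ∑ k : Tor d M, ∑ a : ZMod M, f (Function.update k j a) =
      ∑ k : Tor d M, ∑ _a : ZMod M, f k := by
    rw [← sum_product', ← sum_product']
    refine sum_nbij' (fun q => (Function.update q.1 j q.2, q.1 j))
      (fun q => (Function.update q.1 j q.2, q.1 j)) ?_ ?_ ?_ ?_ ?_ <;> simp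
  rw [h]; simp [ZMod.card, mul_sum]

lemma eps_update (k : Tor d M) (j : Fin d) (a : ZMod M) :
    eps (Function.update k j a) = eps k + 2 * Real.cos (ang (k j)) - 2 * Real.cos (ang a) := by
  unfold eps
  rw [← add_sum_erase _ _ (mem_univ j), ← add_sum_erase _ (fun i => 2 * Real.cos (ang (k i)))
    (mem_univ j)]
  have : ∑ i ∈ univ.erase j, 2 * Real.cos (ang (Function.update k j a i)) =
      ∑ i ∈ univ.erase j, 2 * Real.cos (ang (k i)) :=
    sum_congr rfl fun i hi => by rw [Function.update_of_ne (ne_of_mem_erase hi)]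
  rw [this, Function.update_self]; ring

lemma card_box (m : ℕ) (hm : 2 * m + 2 ≤ M) :
    ∑ k : Tor d M, (if nrm k ≤ m then (1 : ℝ) else 0) = (2 * m + 1) ^ d := by
  have h1 : ∀ k : Tor d M, (if nrm k ≤ m then (1 : ℝ) else 0) =
      ∏ j, if -(m : ℤ) ≤ (k j).valMinAbs ∧ (k j).valMinAbs < -(m : ℤ) + (2 * m + 1 : ℕ) then 1 else 0 := by
    intro k
    rw [prod_ite_zero, prod_const_one]
    congr 1
    rw [nrm_le, eq_iff_iff]
    exact ⟨fun h j _ => by have := h j; omega, fun h j => by have := h j (mem_univ j); omega⟩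
  simp only [h1]
  rw [← Fintype.piFinset_univ, ← Finset.prod_univ_sum (fun _ => univ)
    (fun _ (a : ZMod M) => if -(m : ℤ) ≤ a.valMinAbs ∧ a.valMinAbs < -(m : ℤ) + (2 * m + 1 : ℕ)
      then (1 : ℝ) else 0)]
  rw [sum_window (-(m : ℤ)) (2 * m + 1) (by omega) (by omega) (fun _ => (1 : ℝ))]
  simp

lemma abs_ang_eq (a : ZMod M) : |ang a| = 2 * Real.pi * a.valMinAbs.natAbs / M := by
  have hM : (0 : ℝ) < M := Nat.cast_pos.2 (NeZero.pos M)
  unfold ang
  rw [abs_div, abs_mul, abs_of_pos (by positivity : 0 < 2 * Real.pi), abs_of_pos hM,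
    ← Int.cast_abs, Int.abs_eq_natAbs, Int.cast_natCast]

lemma eps_le_of_nrm (k : Tor d M) : eps k ≤ -2 * d + d * (2 * Real.pi * nrm k / M) ^ 2 := by
  have hM : (0 : ℝ) < M := Nat.cast_pos.2 (NeZero.pos M)
  have : ∑ _j : Fin d, (2 - (2 * Real.pi * nrm k / M) ^ 2) ≤ ∑ j, 2 * Real.cos (ang (k j)) := by
    refine sum_le_sum fun j _ => ?_
    have h1 := Real.one_sub_sq_div_two_le_cos (x := ang (k j))
    have h2 : |ang (k j)| ≤ 2 * Real.pi * nrm k / M := by
      rw [abs_ang_eq]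
      have : ((k j).valMinAbs.natAbs : ℝ) ≤ nrm k := by exact_mod_cast le_nrm k j
      gcongr
    have h3 : ang (k j) ^ 2 ≤ (2 * Real.pi * nrm k / M) ^ 2 := by
      rw [← sq_abs]; exact pow_le_pow_left₀ (abs_nonneg _) h2 2
    linarith
  simp only [sum_const, card_univ, Fintype.card_fin, nsmul_eq_mul] at this
  unfold eps; linarith

/-- the part of the energy shell where the `j`-th velocity is bounded below -/
def Sh (c : ℝ) (z : ℂ) (j : Fin d) (k : Tor d M) : Prop :=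
  |eps k - z.re| ≤ z.im ∧ c ≤ Real.sin (ang (k j))

noncomputable instance (c : ℝ) (z : ℂ) (j : Fin d) : DecidablePred (Sh (M := M) c z j) :=
  Classical.decPred _

lemma shell_line {b γ τ : ℝ} (hb : 0 < b) (hγ : 0 < γ) (hγb : γ ≤ b) (hb1 : b ≤ 1 / 2)
    (h1 : 2 * b ^ 2 ≤ τ) (h2 : τ ≤ 1 / 4) (hM : 26 / γ ≤ M) :
    γ / 26 * M ≤ ∑ a : ZMod M, if |2 - 2 * Real.cos (ang a) - τ| ≤ γ ∧ b / 2 ≤ Real.sin (ang a)
      then (1 : ℝ) else 0 := by
  have hM0 : (0 : ℝ) < M := Nat.cast_pos.2 (NeZero.pos M)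
  have hpi := Real.pi_gt_three
  have hpi' := Real.pi_lt_d2
  set q := Real.arccos (1 - τ / 2) with hq
  have hτ : 0 < τ := by nlinarith
  have hcq : Real.cos q = 1 - τ / 2 := Real.cos_arccos (by linarith) (by linarith)
  have hq0 : 0 ≤ q := Real.arccos_nonneg _
  have hqb : b ≤ q := by
    have := Real.one_sub_sq_div_two_le_cos (x := q)
    nlinarith
  have hq1 : q ≤ 1 := by
    by_contra h
    have h3 := Real.cos_le_cos_of_nonneg_of_le_pi (x := 1) zero_le_one (Real.arccos_le_pi _)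
      (not_le.1 h).le
    have := Real.cos_one_le
    linarith
  set h : ℝ := 2 * Real.pi / M with hh
  have hh0 : 0 < h := by positivity
  have hMh : (M : ℝ) * h = 2 * Real.pi := by rw [hh]; field_simp
  have hγM : 26 ≤ γ * M := by rw [div_le_iff₀ hγ] at hM; linarith
  have hhγ : 4 * h ≤ γ := by
    rw [hh, ← mul_div_assoc, div_le_iff₀ hM0]; linarith
  obtain ⟨lo, hlo1, hlo2⟩ : ∃ lo : ℤ, q / h ≤ lo ∧ (lo : ℝ) < q / h + 1 :=
    ⟨⌈q / h⌉, Int.le_ceil _, Int.ceil_lt_add_one _⟩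
  obtain ⟨n, hn1, hn2⟩ : ∃ n : ℕ, (n : ℝ) ≤ γ / (2 * h) ∧ γ / (2 * h) < n + 1 :=
    ⟨⌊γ / (2 * h)⌋₊, Nat.floor_le (by positivity), Nat.lt_floor_add_one _⟩
  rw [div_le_iff₀ hh0] at hlo1
  have hlo3 : lo * h < q + h := by
    have := mul_lt_mul_of_pos_right hlo2 hh0
    rwa [add_mul, div_mul_cancel₀ _ hh0.ne', one_mul] at this
  rw [le_div_iff₀ (by positivity)] at hn1
  rw [div_lt_iff₀ (by positivity)] at hn2
  have hlo0 : (0 : ℝ) ≤ lo := by
    by_contra hc
    nlinarith [not_le.1 hc]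
  have hw1 : -(M : ℤ) < lo * 2 := by
    have : (0 : ℤ) ≤ lo := by exact_mod_cast hlo0
    have := NeZero.pos M
    omega
  have hw2 : (lo + n) * 2 ≤ M := by
    have : ((lo : ℝ) + n) * 2 ≤ M := by
      rw [← mul_le_mul_iff_left₀ hh0]; nlinarith
    exact_mod_cast this
  have hs := sum_window lo n hw1 hw2 (fun _ => (1 : ℝ))
  simp only [sum_const, card_range, nsmul_eq_mul, mul_one] at hs
  have hn : γ / 26 * M ≤ n := by
    rw [← mul_le_mul_iff_left₀ hh0]; nlinarith
  refine hn.trans (hs.symm.le.trans (sum_le_sum fun a _ => ?_))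
  split_ifs with c1 c2
  · rfl
  · exfalso; apply c2
    have e1 : (lo : ℝ) ≤ a.valMinAbs := by exact_mod_cast c1.1
    have e2 : (a.valMinAbs : ℝ) + 1 ≤ lo + n := by exact_mod_cast c1.2
    have e3 : ang a = a.valMinAbs * h := by simp only [ang, hh]; ring
    have e4 : q ≤ ang a := by rw [e3]; nlinarith
    have e5 : ang a ≤ q + γ / 2 := by rw [e3]; nlinarith
    constructor
    · have := Real.abs_cos_sub_cos_le q (ang a)
      rw [abs_sub_comm q, abs_of_nonneg (by linarith : 0 ≤ ang a - q), hcq] at this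
      rw [show 2 - 2 * Real.cos (ang a) - τ = 2 * (1 - τ / 2 - Real.cos (ang a)) by ring, abs_mul,
        abs_two]
      linarith
    · have := Real.mul_le_sin (x := ang a) (by linarith) (by linarith)
      refine le_trans ?_ this
      rw [div_mul_eq_mul_div, le_div_iff₀ Real.pi_pos]
      nlinarith
  · exact zero_le_one
  · rfl

/-- lower bound for the measure of the shell -/
theorem shell (d : ℕ) {a : ℝ} (ha : 0 < a) : ∃ c > 0, c ≤ 1 / 10 ∧ ∀ γ0 > 0, ∃ M0 : ℕ,
    ∀ M ≥ M0, ∀ [NeZero M] (z : ℂ), a ≤ z.re + 2 * d → z.re + 2 * d ≤ 1 / 4 → γ0 ≤ z.im →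
      z.im ≤ c → ∀ j : Fin d, c * z.im ≤ av fun k : Tor d M => if Sh c z j k then 1 else 0 := by
  obtain ⟨b, hb, hb1, hba⟩ : ∃ b : ℝ, 0 < b ∧ b ≤ 1 / 5 ∧ 4 * b ^ 2 ≤ a := by
    refine ⟨min (1 / 5) (a / 4), by positivity, min_le_left _ _, ?_⟩
    have h1 := min_le_left (1 / 5 : ℝ) (a / 4)
    have h2 := min_le_right (1 / 5 : ℝ) (a / 4)
    have h3 : 0 < min (1 / 5 : ℝ) (a / 4) := by positivity
    nlinarith
  set ρ : ℝ := b / (7 * (d + 1)) with hρ
  have hρ0 : 0 < ρ := by positivity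
  have hρ1 : ρ ≤ 1 / 35 := by
    rw [hρ, div_le_iff₀ (by positivity)]; nlinarith [Nat.cast_nonneg (α := ℝ) d]
  refine ⟨min (b / 2) (ρ ^ d / 26), by positivity, (min_le_left _ _).trans (by linarith),
    fun γ0 hγ0 => ⟨⌈26 / γ0⌉₊ + 3, fun M hM _ z h1 h2 h3 h4 j => ?_⟩⟩
  have hM0 : (0 : ℝ) < M := Nat.cast_pos.2 (NeZero.pos M)
  have hγ : 0 < z.im := hγ0.trans_le h3
  have hM1 : 26 / z.im ≤ M := by
    have : (⌈26 / γ0⌉₊ : ℝ) ≤ M := by exact_mod_cast (by omega)
    exact (div_le_div_of_nonneg_left (by norm_num) hγ0 h3).trans ((Nat.le_ceil _).trans this)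
  have hM3 : (3 : ℝ) ≤ M := by exact_mod_cast (by omega)
  obtain ⟨m, hm1, hm2⟩ : ∃ m : ℕ, (m : ℝ) ≤ ρ * M ∧ ρ * M < m + 1 :=
    ⟨⌊ρ * M⌋₊, Nat.floor_le (by positivity), Nat.lt_floor_add_one _⟩
  have hm : 2 * m + 2 ≤ M := by
    have : (2 * m + 2 : ℝ) ≤ M := by nlinarith
    exact_mod_cast this
  set c := min (b / 2) (ρ ^ d / 26)
  have hc1 : c ≤ b / 2 := min_le_left _ _
  have hc2 : c ≤ ρ ^ d / 26 := min_le_right _ _
  have key : ∀ k : Tor d M, z.im / 26 * M * (if nrm k ≤ m then (1 : ℝ) else 0) ≤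
      ∑ a : ZMod M, if Sh c z j (Function.update k j a) then (1 : ℝ) else 0 := by
    intro k
    split_ifs with hk
    swap
    · rw [mul_zero]; exact sum_nonneg fun a _ => by positivity
    rw [mul_one]
    have e1 := eps_le_of_nrm k
    have e2 := le_eps_of_cos k j
    have e3 : d * (2 * Real.pi * nrm k / M) ^ 2 ≤ b ^ 2 := by
      have : 2 * Real.pi * nrm k / M ≤ 7 * ρ := by
        have : (nrm k : ℝ) ≤ m := by exact_mod_cast hk
        rw [div_le_iff₀ hM0]; nlinarith [Real.pi_lt_d2, Nat.cast_nonneg (α := ℝ) (nrm k)]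
      have e4 : (2 * Real.pi * nrm k / M) ^ 2 ≤ (7 * ρ) ^ 2 :=
        pow_le_pow_left₀ (by positivity) this 2
      have e5 : 7 * ρ * (d + 1) = b := by rw [hρ]; field_simp
      have e6 : (0 : ℝ) ≤ d := Nat.cast_nonneg d
      rw [← e5, mul_pow (7 * ρ), mul_comm ((7 * ρ) ^ 2)]
      exact mul_le_mul (by nlinarith) e4 (sq_nonneg _) (sq_nonneg _)
    refine (shell_line (M := M) (τ := z.re - eps k + 2 - 2 * Real.cos (ang (k j))) hb hγ
      (by linarith) (by linarith) (by nlinarith [Real.cos_le_one (ang (k j))]) (by linarith)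
      hM1).trans (sum_le_sum fun a _ => ?_)
    split_ifs with c1 c2
    · rfl
    · exfalso; apply c2
      refine ⟨?_, by rw [Function.update_self]; linarith [c1.2]⟩
      rw [eps_update]
      convert c1.1 using 2; ring
    · exact zero_le_one
    · rfl
  have h5 := sum_le_sum fun (k : Tor d M) (_ : k ∈ univ) => key k
  rw [sum_update (fun k => if Sh c z j k then (1 : ℝ) else 0) j, ← mul_sum, card_box m hm] at h5
  have h6 : ρ ^ d * vol d M ≤ (2 * m + 1) ^ d := by
    rw [vol, ← mul_pow]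
    exact pow_le_pow_left₀ (by positivity) (by nlinarith [Nat.cast_nonneg (α := ℝ) m]) d
  unfold av
  rw [le_inv_mul_iff₀ vol_pos, ← mul_le_mul_iff_right₀ hM0]
  refine le_trans ?_ h5
  have hv := vol_pos (d := d) (M := M)
  calc M * (vol d M * (c * z.im)) ≤ M * (vol d M * (ρ ^ d / 26 * z.im)) := by gcongr
    _ = z.im / 26 * M * (ρ ^ d * vol d M) := by ring
    _ ≤ _ := by gcongr

lemma normSq_Gh_shell {z : ℂ} (hz : 0 < z.im) {k : Tor d M} (h : |eps k - z.re| ≤ z.im) :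
    (2 * z.im ^ 2)⁻¹ ≤ ‖Gh z k‖ ^ 2 := by
  rw [normSq_Gh]
  refine inv_anti₀ (by positivity) ?_
  have := sq_le_sq' (abs_le.1 h).1 (abs_le.1 h).2
  linarith

lemma im_G0_of_shell {c : ℝ} {z : ℂ} (hz : 0 < z.im) {j : Fin d}
    (h : c * z.im ≤ av fun k : Tor d M => if Sh c z j k then 1 else 0) :
    c / 2 ≤ (G0 z (0 : Tor d M)).im := by
  rw [im_G0_zero]
  have h1 : (2 * z.im)⁻¹ * (c * z.im) ≤ av fun k : Tor d M => (Gh z k).im := by
    refine (mul_le_mul_of_nonneg_left h (by positivity)).trans ?_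
    rw [← av_mul]
    refine av_mono fun k => ?_
    rw [im_Gh]
    split_ifs with hk
    · refine le_trans (le_of_eq ?_) (mul_le_mul_of_nonneg_left (normSq_Gh_shell hz hk.1) hz.le)
      field_simp
    · rw [mul_zero]; positivity
  refine le_trans (le_of_eq ?_) h1
  field_simp

lemma re_ch_sum (z : ℂ) (p : Tor d M) (s : ℝ) (hs : s ^ 2 = 1) :
    2 * ∑ x : Tor d M, ‖G0 z x‖ ^ 2 * (1 + s * (ch p x).re) =
      av fun k : Tor d M => ‖Gh z k + s * Gh z (k - p)‖ ^ 2 := by
  rw [← parseval, mul_sum]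
  refine sum_congr rfl fun x _ => ?_
  have h1 : iF (fun k => Gh z k + s * Gh z (k - p)) x = G0 z x * (1 + s * ch p x) := by
    rw [iF_add, mul_add, mul_one, mul_left_comm, G0, iF_mul_ch]
    simp only [iF, mul_assoc, ← mul_sum]; ring
  have h2 : ‖ch p x‖ ^ 2 = 1 := by simp
  rw [Complex.sq_norm, Complex.normSq_apply] at h2
  rw [h1, norm_mul, mul_pow, Complex.sq_norm (1 + _), Complex.normSq_apply]
  simp only [add_re, one_re, mul_re, ofReal_re, ofReal_im, zero_mul, sub_zero, add_im, one_im,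
    mul_im, add_zero, zero_add]
  linear_combination (-‖G0 z x‖ ^ 2 * s ^ 2) * h2 - ‖G0 z x‖ ^ 2 * hs

lemma symb_plus {c : ℝ} {z : ℂ} (hz : 0 < z.im) {j : Fin d}
    (h : c * z.im ≤ av fun k : Tor d M => if Sh c z j k then 1 else 0) (p : Tor d M) :
    c / 8 ≤ z.im * ∑ x : Tor d M, ‖G0 z x‖ ^ 2 * (1 + (ch p x).re) := by
  have h0 := re_ch_sum z p 1 (by norm_num)
  simp only [one_mul, ofReal_one] at h0
  have h1 : (4 * z.im ^ 2)⁻¹ * (c * z.im) ≤ av fun k : Tor d M => ‖Gh z k + Gh z (k - p)‖ ^ 2 := by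
    refine (mul_le_mul_of_nonneg_left h (by positivity)).trans ?_
    rw [← av_mul]
    refine av_mono fun k => ?_
    split_ifs with hk
    · have e1 : (2 * z.im)⁻¹ ≤ (Gh z k + Gh z (k - p)).im := by
        rw [add_im, im_Gh, im_Gh]
        have := mul_le_mul_of_nonneg_left (normSq_Gh_shell hz hk.1) hz.le
        have e : z.im * (2 * z.im ^ 2)⁻¹ = (2 * z.im)⁻¹ := by field_simp
        have : 0 ≤ z.im * ‖Gh z (k - p)‖ ^ 2 := by positivity
        linarith
      have e2 := e1.trans ((le_abs_self _).trans (Complex.abs_im_le_norm _))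
      refine le_trans (le_of_eq ?_) (pow_le_pow_left₀ (by positivity) e2 2)
      field_simp; norm_num
    · rw [mul_zero]; positivity
  rw [← h0] at h1
  have e : (4 * z.im ^ 2)⁻¹ * (c * z.im) = c / 4 * z.im⁻¹ := by field_simp
  rw [e, ← div_eq_mul_inv, div_le_iff₀ hz] at h1
  linarith

lemma normSq_Gh_sub {z : ℂ} (hz : 0 < z.im) {k l : Tor d M} (h : |eps k - z.re| ≤ z.im)
    {t : ℝ} (ht1 : t ≤ 1) (ht : t * z.im ^ 2 ≤ (eps l - eps k) ^ 2) :
    t / (10 * z.im ^ 2) ≤ ‖Gh z k - Gh z l‖ ^ 2 := by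
  have e1 : Gh z k - Gh z l = ((eps l - eps k : ℝ) : ℂ) * Gh z k * Gh z l := by
    have h1 := eps_sub_ne hz k
    have h2 := eps_sub_ne hz l
    simp only [Gh]; push_cast; field_simp; ring
  rw [e1, norm_mul, norm_mul, mul_pow, mul_pow, Complex.norm_real, Real.norm_eq_abs, sq_abs]
  have e2 := normSq_Gh_shell hz h
  set Δ := eps l - eps k with hΔ
  have e3 : (2 * Δ ^ 2 + 3 * z.im ^ 2)⁻¹ ≤ ‖Gh z l‖ ^ 2 := by
    rw [normSq_Gh]
    refine inv_anti₀ (by positivity) ?_
    have := sq_le_sq' (abs_le.1 h).1 (abs_le.1 h).2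
    have e : eps l - z.re = Δ + (eps k - z.re) := by rw [hΔ]; ring
    rw [e]; nlinarith [sq_nonneg (Δ - (eps k - z.re))]
  calc t / (10 * z.im ^ 2) ≤ Δ ^ 2 * (2 * z.im ^ 2)⁻¹ * (2 * Δ ^ 2 + 3 * z.im ^ 2)⁻¹ := by
        rw [← div_eq_mul_inv, ← div_eq_mul_inv, div_div, div_le_div_iff₀ (by positivity)
          (by positivity)]
        have : t * (2 * Δ ^ 2 + 3 * z.im ^ 2) ≤ 5 * Δ ^ 2 := by nlinarith [sq_nonneg Δ]
        nlinarith [sq_nonneg z.im]
    _ ≤ _ := by gcongr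

/-- reflection of one coordinate -/
def refl (j : Fin d) : Tor d M ≃ Tor d M :=
  Function.Involutive.toPerm (fun k => Function.update k j (-k j)) fun k => by simp

lemma refl_apply (j : Fin d) (k : Tor d M) : refl j k = Function.update k j (-k j) := rfl

lemma symb_minus {c : ℝ} (hc : 0 < c) (hc1 : c ≤ 1 / 10) {z : ℂ} (hz : 0 < z.im) (hz1 : z.im ≤ c)
    (hr : z.re + 2 * d ≤ 1 / 4) {j : Fin d}
    (h : c * z.im ≤ av fun k : Tor d M => if Sh c z j k then 1 else 0) (p : Tor d M) :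
    c ^ 3 / 40 * min 1 ((ang (p j) / z.im) ^ 2) ≤
      z.im * ∑ x : Tor d M, ‖G0 z x‖ ^ 2 * (1 - (ch p x).re) := by
  have h0 := re_ch_sum z p (-1) (by norm_num)
  simp only [neg_mul, one_mul, ofReal_neg, ofReal_one, ← sub_eq_add_neg] at h0
  set t := c ^ 2 * min 1 ((ang (p j) / z.im) ^ 2) with ht
  have hm0 : 0 ≤ min 1 ((ang (p j) / z.im) ^ 2) := le_min zero_le_one (sq_nonneg _)
  have hm1 := min_le_left 1 ((ang (p j) / z.im) ^ 2)
  have hm2 := min_le_right 1 ((ang (p j) / z.im) ^ 2)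
  have hc2 : c ^ 2 ≤ 1 := by nlinarith
  have ht1 : t ≤ 1 := mul_le_one₀ hc2 hm0 hm1
  have ht0 : 0 ≤ t := by positivity
  set D : Tor d M → ℝ := fun k => ‖Gh z k - Gh z (k - p)‖ ^ 2 with hD
  have hD0 : ∀ k, 0 ≤ D k := fun k => by positivity
  have key : ∀ k, Sh c z j k → t / (10 * z.im ^ 2) ≤ D k + D (refl j k) := by
    intro k hk
    have e0 : eps (refl j k) = eps k := by rw [refl_apply, eps_update, cos_ang_neg]; ring
    rcases le_total |ang (p j)| (Real.pi / 2) with hp | hp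
    · have e1 : eps (refl j k - p) - eps (k - p) =
          4 * Real.sin (ang (k j)) * Real.sin (ang (p j)) := by
        have : refl j k - p = Function.update (k - p) j (-(k j - -p j)) := by
          funext i
          by_cases hi : i = j
          · subst hi; simp [refl_apply]; ring
          · simp [refl_apply, hi]
        have a1 : Real.cos (ang (k j - -p j)) = Real.cos (ang (k j) + ang (p j)) := by
          have : k j - -p j = (((k j).valMinAbs + (p j).valMinAbs : ℤ) : ZMod M) := by simp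
          rw [this, cos_ang_int]; congr 1; simp only [ang]; push_cast; ring
        rw [this, eps_update, cos_ang_neg, a1, Pi.sub_apply, cos_ang_sub, Real.cos_sub, Real.cos_add]
        ring
      have e2 := Real.mul_abs_le_abs_sin hp
      have e3 : |ang (p j)| / 2 ≤ |Real.sin (ang (p j))| := by
        refine le_trans ?_ e2
        rw [div_mul_eq_mul_div, div_le_div_iff₀ two_pos Real.pi_pos]
        nlinarith [Real.pi_le_four, abs_nonneg (ang (p j))]
      have e4 : ang (p j) ^ 2 ≤ 4 * Real.sin (ang (p j)) ^ 2 := by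
        rw [← sq_abs, ← sq_abs (Real.sin _)]; nlinarith [abs_nonneg (ang (p j))]
      have e5 : c ^ 2 ≤ Real.sin (ang (k j)) ^ 2 := pow_le_pow_left₀ hc.le hk.2 2
      have e6 : t * z.im ^ 2 ≤ c ^ 2 * ang (p j) ^ 2 := by
        calc t * z.im ^ 2 ≤ c ^ 2 * (ang (p j) / z.im) ^ 2 * z.im ^ 2 := by rw [ht]; gcongr
          _ = _ := by field_simp
      have e7 : 4 * (t * z.im ^ 2) ≤ (eps (refl j k - p) - eps (k - p)) ^ 2 := by
        rw [e1, mul_pow, mul_pow]
        nlinarith [mul_le_mul e5 e4 (sq_nonneg _) (sq_nonneg _)]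
      by_cases e8 : t * z.im ^ 2 ≤ (eps (k - p) - eps k) ^ 2
      · linarith [normSq_Gh_sub hz hk.1 ht1 e8, hD0 (refl j k)]
      · have e9 : t * z.im ^ 2 ≤ (eps (refl j k - p) - eps (refl j k)) ^ 2 := by
          rw [e0]
          nlinarith [sq_nonneg (eps (refl j k - p) - eps k + (eps (k - p) - eps k))]
        linarith [normSq_Gh_sub hz (k := refl j k) (by rw [e0]; exact hk.1) ht1 e9, hD0 k]
    · have e1 := le_eps_of_cos k j
      have e2 := le_eps_of_cos (k - p) j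
      rw [Pi.sub_apply, cos_ang_sub, Real.cos_sub] at e2
      have e3 : Real.cos (ang (p j)) ≤ 0 := by
        rw [← Real.cos_abs]
        exact Real.cos_nonpos_of_pi_div_two_le_of_le hp (by linarith [abs_ang_le (p j), Real.pi_pos])
      have e4 := (abs_le.1 hk.1).2
      have e5 : 4 / 5 ≤ Real.cos (ang (k j)) := by linarith
      have e6 : Real.sin (ang (k j)) ≤ 3 / 5 := by
        nlinarith [Real.sin_sq_add_cos_sq (ang (k j))]
      have e7 : Real.sin (ang (k j)) * Real.sin (ang (p j)) ≤ 3 / 5 := by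
        nlinarith [Real.sin_le_one (ang (p j)), hk.2]
      have e8 : z.im ≤ eps (k - p) - eps k := by nlinarith
      have e9 : t * z.im ^ 2 ≤ (eps (k - p) - eps k) ^ 2 :=
        (mul_le_of_le_one_left (sq_nonneg _) ht1).trans (pow_le_pow_left₀ hz.le e8 2)
      linarith [normSq_Gh_sub hz hk.1 ht1 e9, hD0 (refl j k)]
  have h1 : t / (10 * z.im ^ 2) * (c * z.im) ≤ av fun k => D k + D (refl j k) := by
    refine (mul_le_mul_of_nonneg_left h (by positivity)).trans ?_
    rw [← av_mul]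
    refine av_mono fun k => ?_
    split_ifs with hk
    · rw [mul_one]; exact key k hk
    · rw [mul_zero]; exact add_nonneg (hD0 _) (hD0 _)
  rw [av_add, av_equiv (refl j) D, ← h0] at h1
  have e : t / (10 * z.im ^ 2) * (c * z.im) = c * t / 10 / z.im := by field_simp
  rw [e, div_le_iff₀ hz, ht] at h1
  nlinarith

end Crest.Agent.N334.AC.I
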